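import Vale.Agent.P179.H445.End4
import Vale.Agent.P179.Allb.Defs

/-!
# END, part 5: `theorem end1 : Vale.P179.Allb.END1`
-/

namespace Vale.P179.H445.End

open Vale.P179.Allb
open scoped BigOperators

section Gr

variable {k L D Γ : Type} [Field k] [Ring L] [Algebra k L] [CommGroup D] [Group Γ]
  {p : ℕ} {τ : MulAut D} {e : ℕ} {i : D →* Γ} {g : Γ}

theorem gx_pow (G : GX D Γ τ e i g) (s : ℕ) (x : D) : g ^ s * i x = i ((τ ^ s) x) * g ^ s := by
  induction s generalizing x with
  | zero => simp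
  | succ s ih =>
    rw [pow_succ, mul_assoc, G.tw, ← mul_assoc, ih, mul_assoc, pow_succ τ]
    rfl

theorem n_pow {u : D →* L} {n : L} (nu : ∀ x, n * u x = u (τ x) * n) (s : ℕ) (x : D) :
    n ^ s * u x = u ((τ ^ s) x) * n ^ s := by
  induction s generalizing x with
  | zero => simp
  | succ s ih =>
    rw [pow_succ, mul_assoc, nu, ← mul_assoc, ih, mul_assoc, pow_succ τ]
    rfl

theorem gx_norm (G : GX D Γ τ e i g) (γ : Γ) : ∃ s : ℕ, ∀ x : D, γ * i x = i ((τ ^ s) x) * γ := by
  obtain ⟨z, s, rfl⟩ := G.gen γ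
  refine ⟨s, fun x => ?_⟩
  rw [mul_assoc, gx_pow G, ← mul_assoc, ← mul_assoc, ← map_mul, ← map_mul, mul_comm z]

theorem gx_free (T : TW p D τ e) (G : GX D Γ τ e i g) (γ : Γ) (hγ : γ ∉ i.range) (y : D)
    (h : i y * γ = γ * i y) : y = 1 := by
  obtain ⟨z, s, rfl⟩ := G.gen γ
  by_contra hy
  have h1 : i z * g ^ s * i y = i ((τ ^ s) y) * (i z * g ^ s) := by
    rw [mul_assoc, gx_pow G, ← mul_assoc, ← mul_assoc, ← map_mul, ← map_mul, mul_comm z]
  rw [h1] at h
  have h2 := G.inj (mul_right_cancel h)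
  obtain ⟨m, hm⟩ := T.free s y hy h2.symm
  apply hγ
  rw [hm, pow_mul, G.pow, one_pow, mul_one]
  exact MonoidHom.mem_range.2 ⟨z, rfl⟩

/-- uniqueness of the normal form -/
theorem gx_uniq [Finite D] [NeZero e] (G : GX D Γ τ e i g) :
    Function.Bijective (fun z : D × Fin e => i z.1 * g ^ (z.2 : ℕ)) := by
  have hsurj : Function.Surjective (fun z : D × Fin e => i z.1 * g ^ (z.2 : ℕ)) := by
    intro γ
    obtain ⟨x, s, rfl⟩ := G.gen γ
    refine ⟨(x, ⟨s % e, Nat.mod_lt _ (NeZero.pos e)⟩), ?_⟩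
    show i x * g ^ (s % e) = i x * g ^ s
    congr 1
    conv_rhs => rw [← Nat.mod_add_div s e, pow_add, pow_mul, G.pow, one_pow, mul_one]
  have hfin : Finite Γ := Finite.of_surjective _ hsurj
  refine (Nat.bijective_iff_surjective_and_card _).2 ⟨hsurj, ?_⟩
  rw [G.card, Nat.card_prod, Nat.card_eq_fintype_card (α := Fin e), Fintype.card_fin]

/-- the homomorphism from the semidirect product -/
theorem exists_hom [Finite D] [NeZero e] (G : GX D Γ τ e i g) (u : D →* L) (n : L)
    (npow : n ^ e = 1) (nu : ∀ x, n * u x = u (τ x) * n) :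
    ∃ c : Γ →* L, (∀ x, c (i x) = u x) ∧ c g = n := by
  let E : D × Fin e ≃ Γ := Equiv.ofBijective _ (gx_uniq G)
  let c : Γ → L := fun γ => u (E.symm γ).1 * n ^ ((E.symm γ).2 : ℕ)
  have hc : ∀ (x : D) (s : ℕ), c (i x * g ^ s) = u x * n ^ s := by
    intro x s
    have h1 : E (x, ⟨s % e, Nat.mod_lt _ (NeZero.pos e)⟩) = i x * g ^ s := by
      show i x * g ^ (s % e) = i x * g ^ s
      congr 1
      conv_rhs => rw [← Nat.mod_add_div s e, pow_add, pow_mul, G.pow, one_pow, mul_one]
    have h2 : E.symm (i x * g ^ s) = (x, ⟨s % e, Nat.mod_lt _ (NeZero.pos e)⟩) := by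
      rw [← h1, Equiv.symm_apply_apply]
    show u (E.symm (i x * g ^ s)).1 * n ^ ((E.symm (i x * g ^ s)).2 : ℕ) = _
    rw [h2]
    show u x * n ^ (s % e) = u x * n ^ s
    congr 1
    conv_rhs => rw [← Nat.mod_add_div s e, pow_add, pow_mul, npow, one_pow, mul_one]
  refine ⟨{ toFun := c, map_one' := ?_, map_mul' := ?_ }, fun x => ?_, ?_⟩
  · have := hc 1 0
    simpa using this
  · intro a a'
    obtain ⟨x, s, rfl⟩ := G.gen a
    obtain ⟨y, r, rfl⟩ := G.gen a'
    have h1 : i x * g ^ s * (i y * g ^ r) = i (x * (τ ^ s) y) * g ^ (s + r) := by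
      rw [mul_assoc, ← mul_assoc (g ^ s), gx_pow G, map_mul, pow_add]
      simp only [mul_assoc]
    show c _ = c _ * c _
    rw [h1, hc, hc, hc, mul_assoc, ← mul_assoc (n ^ s), n_pow nu, map_mul, pow_add]
    simp only [mul_assoc]
  · have := hc x 0
    simpa using this
  · have := hc 1 1
    simpa using this

theorem gx_index [Finite D] [NeZero e] (G : GX D Γ τ e i g) : i.range.index = e := by
  have h1 := i.range.card_mul_index
  have h2 : Nat.card i.range = Nat.card D :=
    (Nat.card_congr (MonoidHom.ofInjective G.inj).toEquiv).symm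
  rw [h2, G.card] at h1
  exact Nat.eq_of_mul_eq_mul_left Nat.card_pos h1

end Gr

/-- **MODULE END1.** -/
theorem end1 : END1 := by
  classical
  intro p _ k _ _ _ D _ _ _ τ e _ T Λ _ _ A hgood Γ _ _ i g G
  have : Fintype D := Fintype.ofFinite D
  have : Fintype A.I := A.fin
  -- the normalised basis
  have hfree0 : ∀ (ω : A.I) (x : D), A.u x * A.b ω = A.b ω → x = 1 := by
    intro ω x h
    obtain ⟨s, hs⟩ := A.tw ω
    have h1 := hs x 1 (by rw [h, map_one, mul_one])
    have h2 : (τ ^ s) x = (τ ^ s) 1 := by rw [← h1, map_one]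
    exact (τ ^ s).injective h2
  have hcnt : Nat.card {ω // ∀ x, A.u x * A.b ω = A.b ω * A.u x} = Nat.card D := by
    have := A.rank
    rw [PX.cnt] at this
    rw [← this]
    refine Nat.card_congr (Equiv.subtypeEquivRight fun ω => ?_)
    exact ⟨fun h x _ => h x, fun h x => h x trivial⟩
  obtain ⟨b, ω₀, hst, hiff, hb1, hfix⟩ := exists_normal A.b A.stab T.pgr hfree0 hcnt A.loc
  obtain ⟨act, hact⟩ := exists_act b hst
  have hfreeb : ∀ ω x, A.u x * b ω = b ω → x = 1 := by
    intro ω x h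
    refine hfree0 ω x ?_
    have := (hiff x 1 ω).1 (by rw [h, map_one, mul_one])
    rwa [map_one, mul_one] at this
  -- the homomorphism
  obtain ⟨c, hc, hcg⟩ := exists_hom G A.u A.n A.npow A.nu
  let ι : MonoidAlgebra k Γ →ₐ[k] Λ := MonoidAlgebra.lift k Λ Γ c
  have hι : ∀ γ, ι (MonoidAlgebra.of k Γ γ) = c γ := fun γ => MonoidAlgebra.lift_of _ _
  have hN := t_norm_ne_zero hact T.pgr ω₀ hb1 hfix hfreeb A.t A.tc A.nd
  have hnorm : ∀ (γ : Γ) (x : D), ∃ y : D, γ * i x * γ⁻¹ = i y := by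
    intro γ x
    obtain ⟨s, hs⟩ := gx_norm G γ
    exact ⟨(τ ^ s) x, by rw [hs, mul_inv_cancel_right]⟩
  have hndA := nd_group T.pgr i c hc A.t A.tc hnorm (fun γ hγ y h => gx_free T G γ hγ y h)
    G.inj hN ι hι
  have hfd : FiniteDimensional k (MonoidAlgebra k Γ) := by
    have : Module.Finite k (Γ →₀ k) := inferInstance
    exact Module.Finite.equiv (MonoidAlgebra.coeffLinearEquiv k (M := Γ) (S := k)).symm
  obtain ⟨ρ, ret, left, right, tρ⟩ := exists_rho ι A.t A.tc hndA
  let φ : Λ →ₗ[k] Λ := LinearMap.id - ι.toLinearMap ∘ₗ ρ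
  have hφ : ∀ v, φ v = v - ι (ρ v) := fun v => rfl
  have hl : ∀ γ v, φ (c γ * v) = c γ * φ v := by
    intro γ v
    rw [hφ, hφ, ← hι, left, map_mul ι, mul_sub]
  have hr : ∀ γ v, φ (v * c γ) = φ v * c γ := by
    intro γ v
    rw [hφ, hφ, ← hι, right, map_mul ι, sub_mul]
  -- the entries with a nontrivial stabiliser
  have hentry : ∀ (x : D) (s : ℕ) (ω ω' : A.I), x ≠ 1 →
      A.u x * b ω = b ω * A.u ((τ ^ s) x) → A.u x * b ω' = b ω' * A.u ((τ ^ s) x) →
      b.repr (ι (ρ (b ω))) ω' = if ω = ω' then 1 else 0 := by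
    intro x s ω ω' hx h1 h2
    let σ : D →* D := ((τ ^ s : MulAut D) : D →* D)
    have hσ : ∀ y, σ y = (τ ^ s) y := fun y => rfl
    let P : Subgroup D := Subgroup.zpowers x
    let aΓ : D →* Equiv.Perm Γ :=
      { toFun := fun y =>
          { toFun := fun γ => i y * γ * i (σ y)⁻¹
            invFun := fun γ => i y⁻¹ * γ * i (σ y)
            left_inv := fun γ => by rw [map_inv, map_inv]; group
            right_inv := fun γ => by rw [map_inv, map_inv]; group }
        map_one' := by ext γ; simp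
        map_mul' := fun y z => by
          ext γ
          show i (y * z) * γ * i (σ (y * z))⁻¹ = i y * (i z * γ * i (σ z)⁻¹) * i (σ y)⁻¹
          rw [map_mul, map_mul, mul_inv_rev, map_mul]
          simp only [mul_assoc] }
    have haΓ : ∀ y γ, aΓ y γ = i y * γ * i (σ y)⁻¹ := fun y γ => rfl
    have hP : IsPGroup p P := T.pgr.to_subgroup P
    -- counting
    have hcardΓ : Nat.card D ≤ Nat.card {γ : Γ // Fx aΓ P γ} := by
      refine Nat.card_le_card_of_injective
        (fun d : D => (⟨i d * (g ^ s)⁻¹, ?_⟩ : {γ : Γ // Fx aΓ P γ})) ?_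
      · refine (fx_zpowers aΓ x _).2 ?_
        rw [haΓ]
        have h3 := gx_pow G s x
        have h4 : (g ^ s)⁻¹ * i (σ x)⁻¹ = (i x)⁻¹ * (g ^ s)⁻¹ := by
          rw [← mul_inv_rev, h3, mul_inv_rev, map_inv]
          rfl
        rw [mul_assoc, mul_assoc (i d), h4, ← map_inv, ← mul_assoc, ← mul_assoc, ← map_mul,
          ← map_mul]
        congr 2
        rw [mul_comm x d, mul_inv_cancel_right]
      · intro d d' h
        have h3 : i d * (g ^ s)⁻¹ = i d' * (g ^ s)⁻¹ := congrArg Subtype.val h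
        exact G.inj (mul_right_cancel h3)
    have hcg' : c (g ^ s) * c (g ^ s)⁻¹ = 1 := by rw [← map_mul, mul_inv_cancel, map_one]
    have hcg'' : c (g ^ s)⁻¹ * c (g ^ s) = 1 := by rw [← map_mul, inv_mul_cancel, map_one]
    have hcardΩ : Nat.card {ω : A.I // Fx (tact act σ) P ω} ≤ Nat.card D := by
      refine (card_twisted_le hact T.pgr σ (c (g ^ s)) (c (g ^ s)⁻¹) hcg' hcg''
        (fun y => ?_) P).trans (le_of_eq ?_)
      · rw [← hc, ← hc, ← map_mul, ← map_mul, gx_pow G]
        rfl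
      · have h3 := hgood P (by
          intro h4
          exact hx (Subgroup.zpowers_eq_bot.1 h4))
        rw [← h3, PX.cnt]
        refine Nat.card_congr (Equiv.subtypeEquivRight fun ω => ?_)
        rw [fx_tact hact]
        exact ⟨fun h y hy => (hiff y y ω).1 (h y hy), fun h y hy => (hiff y y ω).2 (h y hy)⟩
    have hfx : ∀ η, A.u x * b η = b η * A.u ((τ ^ s) x) → Fx (tact act σ) P η := by
      intro η hη
      refine (fx_zpowers _ x η).2 ?_
      rw [tact_apply]
      exact (act_eq_iff hact x _ η).2 hη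
    have hmain := other_fixed aΓ (tact act σ) P hP (fun γ ω => b.repr (c γ) ω)
      (fun ω γ => (ρ (b ω)).coeff γ) ?_ ?_ ?_ (hcardΩ.trans hcardΓ) ω ω' (hfx ω h1) (hfx ω' h2)
    · rw [← hmain]
      have h3 : ρ (b ω) = ∑ γ : Γ, (ρ (b ω)).coeff γ • MonoidAlgebra.of k Γ γ := by
        ext h
        rw [MonoidAlgebra.coeff_sum, Finsupp.finsetSum_apply, Finset.sum_eq_single h]
        · simp
        · intro g _ hg
          simp [MonoidAlgebra.of_apply, hg]
        · intro h'; exact absurd (Finset.mem_univ _) h'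
      conv_lhs => rw [h3]
      rw [map_sum, map_sum, Finsupp.finsetSum_apply]
      refine Finset.sum_congr rfl fun γ _ => ?_
      rw [map_smul, map_smul, hι, Finsupp.smul_apply, smul_eq_mul]
    · intro y _ γ η
      show b.repr (c (i y * γ * i (σ y)⁻¹)) (act (y, σ y) η) = _
      rw [map_mul c, map_mul c, hc, hc, repr_act hact]
    · intro y _ η γ
      show (ρ (b (act (y, σ y) η))).coeff (i y * γ * i (σ y)⁻¹) = (ρ (b η)).coeff γ
      rw [hact, ← hc, ← hc, ← hι, ← hι, right, left, MonoidAlgebra.of_apply,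
        MonoidAlgebra.of_apply, Vale.P179.H875.coeff_bi]
      congr 1
      rw [map_inv]; group
    · intro γ γ'
      have h3 := sum_repr_form (b := b)
        ((Finsupp.lapply γ' ∘ₗ (MonoidAlgebra.coeffLinearEquiv k (M := Γ) (S := k)).toLinearMap) ∘ₗ ρ)
        (c γ)
      have h4 : ((Finsupp.lapply γ' ∘ₗ
          (MonoidAlgebra.coeffLinearEquiv k (M := Γ) (S := k)).toLinearMap) ∘ₗ ρ) (c γ)
          = if γ = γ' then (1 : k) else 0 := by
        show (ρ (c γ)).coeff γ' = _
        rw [← hι, ret, MonoidAlgebra.of_apply, MonoidAlgebra.coeff_single, Finsupp.single_apply]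
      rw [h4] at h3
      exact h3
  obtain ⟨θ, hθ⟩ := exists_theta hact φ (fun x v => by rw [← hc, hl]) (fun x v => by rw [← hc, hr])
    (by
      intro x y ω ω' hxy h1 h2
      obtain ⟨s, hs⟩ := A.tw ω
      have hy := hs x y ((hiff x y ω).1 h1)
      subst hy
      have hx : x ≠ 1 := by
        rintro rfl
        rcases hxy with h | h
        · exact h rfl
        · exact h (map_one _)
      rw [hφ, map_sub, Finsupp.sub_apply, hentry x s ω ω' hx h1 h2, b.repr_self,
        Finsupp.single_apply, sub_self])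
  obtain ⟨θ', hθ'⟩ := raise i G.inj c hc φ hl hr θ hθ (by
    rw [gx_index G]
    intro h
    have h1 := (CharP.cast_eq_zero_iff k p e).1 h
    have h2 := Nat.Coprime.eq_one_of_dvd T.cop.symm h1
    exact (Fact.out : p.Prime).one_lt.ne' h2)
  refine ⟨ι, ρ, θ', ⟨ret, left, right, fun v => ?_⟩, fun x => ?_, ?_, tρ⟩
  · rw [← hφ, hθ' v]
    refine Finset.sum_congr rfl fun x _ => Finset.sum_congr rfl fun y _ => ?_
    rw [hι, hι, hι, hι]
  · rw [hι, hc]
  · rw [hι, hcg]

end Vale.P179.H445.End
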