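import Vale.Agent.P179.H445.FldK
import Vale.Agent.P179.H175.Gr2

/-!
# FLD, part F2b: base change of the grading
-/

namespace Vale.P179.H445

open scoped TensorProduct BigOperators
open Module Vale.P179.H175 Vale.P179.H904 Vale.P179.Sgn

section Gen

variable {k : Type*} [Field k] (K : Type*) [Field K] [Algebra k K]
  {M : Type*} [AddCommGroup M] [Module k M]

/-- induction for base changed subspaces -/
theorem baseChange_induction {U : Submodule k M} {p : K ⊗[k] M → Prop} (h0 : p 0)
    (h1 : ∀ (c : K), ∀ m ∈ U, p (c ⊗ₜ m)) (hadd : ∀ x y, p x → p y → p (x + y)) {x : K ⊗[k] M}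
    (hx : x ∈ U.baseChange K) : p x := by
  obtain ⟨y, rfl⟩ := Submodule.toBaseChange_surjective' K U hx
  clear hx
  induction y using TensorProduct.induction_on with
  | zero => simpa using h0
  | tmul c m => exact h1 c m m.2
  | add y z hy hz => rw [map_add, Submodule.coe_add]; exact hadd _ _ hy hz

theorem finrank_baseChange_submodule (U : Submodule k M) :
    finrank K ↥(U.baseChange K) = finrank k U := by
  rw [← Module.finrank_baseChange (R := K) (S := k) (M' := U)]
  exact (Submodule.toBaseChange.toLinearEquiv K U).finrank_eq.symm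

theorem one_tmul_mem_baseChange_iff {U : Submodule k M} {m : M} :
    (1 : K) ⊗ₜ[k] m ∈ U.baseChange K ↔ m ∈ U := by
  refine ⟨fun h => ?_, fun h => Submodule.tmul_mem_baseChange_of_mem 1 h⟩
  have h1 : (Submodule.span k {m}).baseChange K ≤ U.baseChange K := by
    rw [Submodule.baseChange_span, Submodule.span_le]
    rintro _ ⟨x, hx, rfl⟩
    rw [Set.mem_singleton_iff.1 hx]
    exact h
  have h2 := (Submodule.baseChange_le_iff (R := k) (A := K)).1 h1
  exact h2 (Submodule.mem_span_singleton_self m)

end Gen

section Int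

variable {k : Type*} [Field k] (K : Type*) [Field K] [Algebra k K]
  {X : Type*} [AddCommGroup X] [Module k X] [FiniteDimensional k X]

/-- the base changed grading -/
noncomputable def WK (V : ℚ → Submodule k X) (r : ℚ) : Submodule K (K ⊗[k] X) :=
  (V r).baseChange K

omit [FiniteDimensional k X] in
theorem cptK_mem {V : ℚ → Submodule k X} (hV : DirectSum.IsInternal V) (r : ℚ) (x : K ⊗[k] X) :
    (cpt V r).baseChange K x ∈ WK K V r := by
  induction x using TensorProduct.induction_on with
  | zero => rw [map_zero]; exact Submodule.zero_mem _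
  | tmul c a =>
    rw [LinearMap.baseChange_tmul]
    exact Submodule.tmul_mem_baseChange_of_mem c (cpt_mem hV r a)
  | add x y hx hy => rw [map_add]; exact Submodule.add_mem _ hx hy

omit [FiniteDimensional k X] in
theorem cptK_of_mem {V : ℚ → Submodule k X} (hV : DirectSum.IsInternal V) {r : ℚ}
    {x : K ⊗[k] X} (hx : x ∈ WK K V r) : (cpt V r).baseChange K x = x := by
  refine baseChange_induction K (p := fun x => (cpt V r).baseChange K x = x) (by simp)
    (fun c m hm => ?_) (fun x y h h' => by rw [map_add, h, h']) hx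
  rw [LinearMap.baseChange_tmul, cpt_of_mem hV hm]

omit [FiniteDimensional k X] in
theorem cptK_of_mem_ne {V : ℚ → Submodule k X} (hV : DirectSum.IsInternal V) {r s : ℚ}
    {x : K ⊗[k] X} (hx : x ∈ WK K V s) (h : s ≠ r) : (cpt V r).baseChange K x = 0 := by
  refine baseChange_induction K (p := fun x => (cpt V r).baseChange K x = 0) (by simp)
    (fun c m hm => ?_) (fun x y h h' => by rw [map_add, h, h', add_zero]) hx
  rw [LinearMap.baseChange_tmul, cpt_of_mem_ne hV hm h, TensorProduct.tmul_zero]

theorem sum_cptK {V : ℚ → Submodule k X} (hV : DirectSum.IsInternal V) (x : K ⊗[k] X) :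
    ∑ r ∈ H175.sup hV, (cpt V r).baseChange K x = x := by
  induction x using TensorProduct.induction_on with
  | zero => simp
  | tmul c a =>
    simp only [LinearMap.baseChange_tmul]
    rw [← TensorProduct.tmul_sum, sum_cpt hV]
  | add x y hx hy => simp only [map_add, Finset.sum_add_distrib]; rw [hx, hy]

theorem internalK {V : ℚ → Submodule k X} (hV : DirectSum.IsInternal V) :
    DirectSum.IsInternal (WK K V) := by
  rw [DirectSum.isInternal_submodule_iff_iSupIndep_and_iSup_eq_top]
  constructor
  · intro r
    rw [Submodule.disjoint_def]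
    intro x hx hx'
    have h1 : ⨆ s, ⨆ (_ : s ≠ r), WK K V s ≤ LinearMap.ker ((cpt V r).baseChange K) := by
      refine iSup_le fun s => iSup_le fun hs x hx => ?_
      exact cptK_of_mem_ne K hV hx hs
    rw [← cptK_of_mem K hV hx]
    exact h1 hx'
  · rw [eq_top_iff]
    intro x _
    rw [← sum_cptK K hV x]
    exact Submodule.sum_mem _ fun r _ =>
      Submodule.mem_iSup_of_mem r (cptK_mem K hV r x)

theorem cpt_WK {V : ℚ → Submodule k X} (hV : DirectSum.IsInternal V) (r : ℚ) (x : K ⊗[k] X) :
    cpt (WK K V) r x = (cpt V r).baseChange K x := by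
  conv_lhs => rw [← sum_cptK K hV x]
  rw [cpt_unique (internalK K hV) _ _ fun s _ => cptK_mem K hV s x]
  split_ifs with h
  · rfl
  · symm
    induction x using TensorProduct.induction_on with
    | zero => simp
    | tmul c a =>
      rw [LinearMap.baseChange_tmul, cpt_eq_zero_of_notMem hV h, TensorProduct.tmul_zero]
    | add x y hx hy => rw [map_add, hx, hy, add_zero]

end Int

section Alg

variable {k : Type*} [Field k] (K : Type*) [Field K] [Algebra k K]
  {A : Type*} [Ring A] [Algebra k A] [FiniteDimensional k A]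
  {W : ℚ → Submodule k A} {J : Submodule k A}

theorem grAlgK (hW : GrAlg W) : GrAlg (WK K W) where
  int := internalK K hW.int
  one := Submodule.tmul_mem_baseChange_of_mem 1 hW.one
  mul := by
    intro r s x y hx hy
    refine baseChange_induction K (p := fun x => x * y ∈ WK K W (r + s))
      (by rw [zero_mul]; exact Submodule.zero_mem _) (fun c a ha => ?_)
      (fun x x' h h' => by rw [add_mul]; exact Submodule.add_mem _ h h') hx
    refine baseChange_induction K (p := fun y => (c ⊗ₜ[k] a) * y ∈ WK K W (r + s))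
      (by rw [mul_zero]; exact Submodule.zero_mem _) (fun d b hb => ?_)
      (fun x x' h h' => by rw [mul_add]; exact Submodule.add_mem _ h h') hy
    rw [Algebra.TensorProduct.tmul_mul_tmul]
    exact Submodule.tmul_mem_baseChange_of_mem _ (hW.mul ha hb)

theorem homogK (hW : GrAlg W) (hJ : Homog W J) : Homog (WK K W) (J.baseChange K) := by
  intro x hx r
  rw [cpt_WK K hW.int]
  refine baseChange_induction K (p := fun x => (cpt W r).baseChange K x ∈ J.baseChange K)
    (by rw [map_zero]; exact Submodule.zero_mem _) (fun c a ha => ?_)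
    (fun x x' h h' => by rw [map_add]; exact Submodule.add_mem _ h h') hx
  rw [LinearMap.baseChange_tmul]
  exact Submodule.tmul_mem_baseChange_of_mem _ (hJ a ha r)

omit [FiniteDimensional k A] in
theorem pow_baseChange_le (n : ℕ) : (J.baseChange K) ^ n ≤ (J ^ n).baseChange K := by
  induction n with
  | zero =>
    rw [pow_zero, pow_zero, Submodule.one_le]
    exact Submodule.tmul_mem_baseChange_of_mem 1 (Submodule.one_le.1 le_rfl)
  | succ n ih =>
    rw [pow_succ, pow_succ, Submodule.mul_le]
    intro x hx y hy
    refine baseChange_induction K (p := fun x => x * y ∈ (J ^ n * J).baseChange K)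
      (by rw [zero_mul]; exact Submodule.zero_mem _) (fun c a ha => ?_)
      (fun x x' h h' => by rw [add_mul]; exact Submodule.add_mem _ h h') (ih hx)
    refine baseChange_induction K (p := fun y => (c ⊗ₜ[k] a) * y ∈ (J ^ n * J).baseChange K)
      (by rw [mul_zero]; exact Submodule.zero_mem _) (fun d b hb => ?_)
      (fun x x' h h' => by rw [mul_add]; exact Submodule.add_mem _ h h') hy
    rw [Algebra.TensorProduct.tmul_mul_tmul]
    exact Submodule.tmul_mem_baseChange_of_mem _ (Submodule.mul_mem_mul ha hb)

/-- base change of basic data -/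
theorem basicK {I : Type*} {e : I → A} (hB : Basic W J e) :
    Basic (WK K W) (J.baseChange K) (fun i => (1 : K) ⊗ₜ[k] e i) where
  gr := grAlgK K hB.gr
  hom := homogK K hB.gr hB.hom
  mulL a j hj := by
    refine baseChange_induction K (p := fun j => a * j ∈ J.baseChange K)
      (by rw [mul_zero]; exact Submodule.zero_mem _) (fun c m hm => ?_)
      (fun x x' h h' => by rw [mul_add]; exact Submodule.add_mem _ h h') hj
    induction a using TensorProduct.induction_on with
    | zero => rw [zero_mul]; exact Submodule.zero_mem _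
    | tmul d a =>
      rw [Algebra.TensorProduct.tmul_mul_tmul]
      exact Submodule.tmul_mem_baseChange_of_mem _ (hB.mulL a m hm)
    | add x y hx hy => rw [add_mul]; exact Submodule.add_mem _ hx hy
  mulR a j hj := by
    refine baseChange_induction K (p := fun j => j * a ∈ J.baseChange K)
      (by rw [zero_mul]; exact Submodule.zero_mem _) (fun c m hm => ?_)
      (fun x x' h h' => by rw [add_mul]; exact Submodule.add_mem _ h h') hj
    induction a using TensorProduct.induction_on with
    | zero => rw [mul_zero]; exact Submodule.zero_mem _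
    | tmul d a =>
      rw [Algebra.TensorProduct.tmul_mul_tmul]
      exact Submodule.tmul_mem_baseChange_of_mem _ (hB.mulR a m hm)
    | add x y hx hy => rw [mul_add]; exact Submodule.add_mem _ hx hy
  nil := by
    obtain ⟨n, hn⟩ := hB.nil
    refine ⟨n, ?_⟩
    have := pow_baseChange_le K (J := J) n
    rw [hn, Submodule.baseChange_bot] at this
    exact le_bot_iff.1 this
  idem i := by rw [Algebra.TensorProduct.tmul_mul_tmul, mul_one, hB.idem]
  deg i := Submodule.tmul_mem_baseChange_of_mem 1 (hB.deg i)
  ne i h := hB.ne i ((one_tmul_mem_baseChange_iff K).1 h)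
  off i j hij a := by
    induction a using TensorProduct.induction_on with
    | zero => rw [mul_zero, zero_mul]; exact Submodule.zero_mem _
    | tmul d a =>
      rw [Algebra.TensorProduct.tmul_mul_tmul, Algebra.TensorProduct.tmul_mul_tmul]
      exact Submodule.tmul_mem_baseChange_of_mem _ (hB.off i j hij a)
    | add x y hx hy => rw [mul_add, add_mul]; exact Submodule.add_mem _ hx hy
  diag i a := by
    induction a using TensorProduct.induction_on with
    | zero => exact ⟨0, by simp⟩
    | tmul d a =>
      obtain ⟨c, hc⟩ := hB.diag i a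
      refine ⟨d * algebraMap k K c, ?_⟩
      have h1 : ((1 : K) ⊗ₜ[k] e i) * (d ⊗ₜ[k] a) * ((1 : K) ⊗ₜ[k] e i)
          - (d * algebraMap k K c) • ((1 : K) ⊗ₜ[k] e i)
          = d ⊗ₜ[k] (e i * a * e i - c • e i) := by
        rw [Algebra.TensorProduct.tmul_mul_tmul, Algebra.TensorProduct.tmul_mul_tmul, one_mul,
          mul_one, TensorProduct.tmul_sub, TensorProduct.smul_tmul', smul_eq_mul, mul_one,
          ← TensorProduct.smul_tmul, Algebra.smul_def, mul_comm d]
      rw [h1]
      exact Submodule.tmul_mem_baseChange_of_mem _ hc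
    | add x y hx hy =>
      obtain ⟨c, hc⟩ := hx
      obtain ⟨c', hc'⟩ := hy
      refine ⟨c + c', ?_⟩
      have := Submodule.add_mem _ hc hc'
      convert this using 1
      rw [mul_add, add_mul, add_smul]
      abel
  full a := by
    set S := Submodule.span K {z : K ⊗[k] A | ∃ (i : I) (x y : K ⊗[k] A),
      z = x * ((1 : K) ⊗ₜ[k] e i) * y} with hS
    have h1 : ∀ a ∈ Submodule.span k {z : A | ∃ (i : I) (x y : A), z = x * e i * y},
        (1 : K) ⊗ₜ[k] a ∈ S := by
      intro a ha
      induction ha using Submodule.span_induction with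
      | mem a ha =>
        obtain ⟨i, x, y, rfl⟩ := ha
        refine Submodule.subset_span ⟨i, 1 ⊗ₜ x, 1 ⊗ₜ y, ?_⟩
        rw [Algebra.TensorProduct.tmul_mul_tmul, Algebra.TensorProduct.tmul_mul_tmul, one_mul,
          one_mul]
      | zero => rw [TensorProduct.tmul_zero]; exact Submodule.zero_mem _
      | add a b _ _ ha hb => rw [TensorProduct.tmul_add]; exact Submodule.add_mem _ ha hb
      | smul r a _ ha =>
        rw [TensorProduct.tmul_smul, ← algebraMap_smul K r]
        exact Submodule.smul_mem _ _ ha
    induction a using TensorProduct.induction_on with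
    | zero => exact Submodule.zero_mem _
    | tmul c a =>
      obtain ⟨j, hj, s, hs, rfl⟩ := Submodule.mem_sup.1 (hB.full a)
      have h2 : c ⊗ₜ[k] (j + s) = c ⊗ₜ[k] j + c • ((1 : K) ⊗ₜ[k] s) := by
        rw [TensorProduct.tmul_add, TensorProduct.smul_tmul', smul_eq_mul, mul_one]
      rw [h2]
      exact Submodule.add_mem _
        (Submodule.mem_sup_left (Submodule.tmul_mem_baseChange_of_mem c hj))
        (Submodule.mem_sup_right (Submodule.smul_mem _ _ (h1 s hs)))
    | add x y hx hy => exact Submodule.add_mem _ hx hy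

omit [FiniteDimensional k A] in
/-- the corners of the base change -/
theorem cor2K (hW : GrAlg W) {ε η : A} (hε : ε ∈ W 0) (hη : η ∈ W 0) (hεε : ε * ε = ε)
    (hηη : η * η = η) (r : ℚ) :
    cor2 K ((1 : K) ⊗ₜ[k] ε) ((1 : K) ⊗ₜ[k] η) ⊓ WK K W r
      = (cor2 k ε η ⊓ W r).baseChange K := by
  apply le_antisymm
  · rintro x ⟨⟨h1, h2⟩, hx⟩
    -- `x = P' (ε' x η')`
    have key : ∀ y : K ⊗[k] A, (cpt W r).baseChange K
        (((1 : K) ⊗ₜ[k] ε) * y * ((1 : K) ⊗ₜ[k] η)) ∈ (cor2 k ε η ⊓ W r).baseChange K := by
      intro y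
      induction y using TensorProduct.induction_on with
      | zero => rw [mul_zero, zero_mul, map_zero]; exact Submodule.zero_mem _
      | tmul c a =>
        rw [Algebra.TensorProduct.tmul_mul_tmul, Algebra.TensorProduct.tmul_mul_tmul,
          LinearMap.baseChange_tmul]
        refine Submodule.tmul_mem_baseChange_of_mem _ ⟨?_, cpt_mem hW.int r _⟩
        refine hW.homog_cor2 hε hη _ ⟨?_, ?_⟩ r
        · rw [← mul_assoc, ← mul_assoc, hεε]
        · rw [mul_assoc, hηη]
      | add x y hx hy => rw [mul_add, add_mul, map_add]; exact Submodule.add_mem _ hx hy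
    have h3 := key x
    rwa [h1, h2, cptK_of_mem K hW.int hx] at h3
  · intro x hx
    refine baseChange_induction K (p := fun x =>
      x ∈ cor2 K ((1 : K) ⊗ₜ[k] ε) ((1 : K) ⊗ₜ[k] η) ⊓ WK K W r) (Submodule.zero_mem _)
      (fun c a ha => ?_) (fun x y h h' => Submodule.add_mem _ h h') hx
    obtain ⟨⟨h1, h2⟩, h3⟩ := ha
    refine ⟨⟨?_, ?_⟩, Submodule.tmul_mem_baseChange_of_mem c h3⟩
    · rw [Algebra.TensorProduct.tmul_mul_tmul, one_mul, h1]
    · rw [Algebra.TensorProduct.tmul_mul_tmul, mul_one, h2]

omit [FiniteDimensional k A] in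
/-- graded dimensions of corners are unchanged -/
theorem gd_cor2K (hW : GrAlg W) {ε η : A} (hε : ε ∈ W 0) (hη : η ∈ W 0) (hεε : ε * ε = ε)
    (hηη : η * η = η) :
    gd (WK K W) (cor2 K ((1 : K) ⊗ₜ[k] ε) ((1 : K) ⊗ₜ[k] η)) = gd W (cor2 k ε η) := by
  unfold gd
  refine finsum_congr fun r => ?_
  rw [cor2K K hW hε hη hεε hηη, finrank_baseChange_submodule]

end Alg

/-- **Base change of the graded local algebra.** -/
noncomputable def hgrK {k : Type} [Field k] (K : Type) [Field K] [Algebra k K]
    {A Γ : Type} [Ring A] [Algebra k A] [FiniteDimensional k A] [Group Γ] [Fintype Γ] {γ : Γ →* A} {e M c : ℕ} [NeZero e] (H : HGr k A Γ γ e M c) :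
    HGr K (K ⊗[k] A) Γ (gammaK (k := k) K γ) e M c where
  W := WK K H.W
  J := H.J.baseChange K
  ε := fun a => 1 ⊗ₜ H.ε a
  hM := H.hM
  basic := basicK K H.basic
  sum := by
    rw [← TensorProduct.tmul_sum, H.sum]; rfl
  orth a b hab := by
    rw [Algebra.TensorProduct.tmul_mul_tmul, H.orth a b hab, TensorProduct.tmul_zero]
  supp r hr := by
    unfold WK
    rw [H.supp r hr, Submodule.baseChange_bot]
  dim a b := by
    rw [gd_cor2K K H.basic.gr (H.basic.deg a) (H.basic.deg b) (H.basic.idem a) (H.basic.idem b)]
    exact H.dim a b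
  top := by
    have h1 : ∑ g, gammaK (k := k) K γ g = (1 : K) ⊗ₜ[k] (∑ g, γ g) := by
      rw [TensorProduct.tmul_sum]; rfl
    rw [h1]
    exact Submodule.tmul_mem_baseChange_of_mem 1 H.top

end Vale.P179.H445
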