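import Mathlib

/-!
# FLD, part F3: the centre after a field extension
-/

namespace Vale.P179.H445

open scoped TensorProduct BigOperators

section Centre

variable {k B : Type*} [Field k] [Ring B] [Algebra k B]

/-- over an algebraically closed field a central element is a scalar plus a nilpotent -/
theorem exists_scalar_sub_nilpotent [IsAlgClosed k] [FiniteDimensional k B]
    (hloc : ∀ z : B, (∀ b, z * b = b * z) → IsUnit z ∨ IsNilpotent z)
    {z : B} (hz : ∀ b, z * b = b * z) : ∃ c : k, IsNilpotent (z - algebraMap k B c) := by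
  cases subsingleton_or_nontrivial B with
  | inl h => exact ⟨0, 1, Subsingleton.elim _ _⟩
  | inr h =>
    obtain ⟨c, hc⟩ := spectrum.nonempty_of_isAlgClosed_of_finiteDimensional k z
    refine ⟨c, ?_⟩
    have h1 : ∀ b, (z - algebraMap k B c) * b = b * (z - algebraMap k B c) := by
      intro b
      rw [sub_mul, mul_sub, hz, Algebra.commutes]
    refine (hloc _ h1).resolve_left fun hu => ?_
    rw [spectrum.mem_iff] at hc
    exact hc (by rw [← neg_sub]; exact hu.neg)

variable (K : Type*) [Field K] [Algebra k K]

/-- every element of `K ⊗ B` is a finite sum `∑ κ_i ⊗ b_i` along a basis of `K`, and a central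
one has central coefficients -/
theorem central_coeff {z : K ⊗[k] B} (hz : ∀ b, z * b = b * z) :
    ∃ (n : ℕ) (c : Fin n → K) (b : Fin n → B), (∀ i x, b i * x = x * b i) ∧
      z = ∑ i, c i ⊗ₜ[k] b i := by
  classical
  let κ := Module.Basis.ofVectorSpace k K
  -- the coordinates of an element of `K ⊗ B` along `κ`
  let E := TensorProduct.equivFinsuppOfBasisLeft (N := B) κ
  have hE : ∀ (x : B) (w : K ⊗[k] B) i, E (w * ((1 : K) ⊗ₜ[k] x)) i = E w i * x := by
    intro x w i
    induction w using TensorProduct.induction_on with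
    | zero => simp
    | tmul a b =>
      rw [Algebra.TensorProduct.tmul_mul_tmul, mul_one]
      simp [E]
    | add w w' h h' => rw [add_mul, map_add, Finsupp.add_apply, h, h', map_add,
        Finsupp.add_apply, add_mul]
  have hE' : ∀ (x : B) (w : K ⊗[k] B) i, E (((1 : K) ⊗ₜ[k] x) * w) i = x * E w i := by
    intro x w i
    induction w using TensorProduct.induction_on with
    | zero => simp
    | tmul a b =>
      rw [Algebra.TensorProduct.tmul_mul_tmul, one_mul]
      simp [E]
    | add w w' h h' => rw [mul_add, map_add, Finsupp.add_apply, h, h', map_add,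
        Finsupp.add_apply, mul_add]
  have hc : ∀ i x, E z i * x = x * E z i := by
    intro i x
    rw [← hE, ← hE', hz]
  have hz' : z = ∑ i ∈ (E z).support, κ i ⊗ₜ[k] E z i := by
    conv_lhs => rw [← E.symm_apply_apply z]
    rw [TensorProduct.equivFinsuppOfBasisLeft_symm_apply]
    rfl
  refine ⟨(E z).support.card, fun i => κ ((E z).support.equivFin.symm i),
    fun i => E z ((E z).support.equivFin.symm i), fun i x => hc _ x, ?_⟩
  conv_lhs => rw [hz']
  rw [← Finset.sum_coe_sort]
  exact (Equiv.sum_comp (E z).support.equivFin.symm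
    fun i : (E z).support => κ i ⊗ₜ[k] E z i).symm

/-- **F3**: after an extension `K ⊇ k` (`k` algebraically closed) every central element is still
a unit or nilpotent. -/
theorem centre_baseChange [IsAlgClosed k] [FiniteDimensional k B]
    (hloc : ∀ z : B, (∀ b, z * b = b * z) → IsUnit z ∨ IsNilpotent z)
    {z : K ⊗[k] B} (hz : ∀ b, z * b = b * z) : IsUnit z ∨ IsNilpotent z := by
  obtain ⟨n, c, b, hb, rfl⟩ := central_coeff K hz
  have hex : ∀ i, ∃ c : k, IsNilpotent (b i - algebraMap k B c) := fun i =>
    exists_scalar_sub_nilpotent hloc (hb i)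
  choose s hs using hex
  -- the scalar part and the nilpotent part
  let a : K := ∑ i, s i • c i
  let ν : K ⊗[k] B := ∑ i, c i ⊗ₜ[k] (b i - algebraMap k B (s i))
  have h1 : ∑ i, c i ⊗ₜ[k] b i = algebraMap K (K ⊗[k] B) a + ν := by
    have h2 : algebraMap K (K ⊗[k] B) a = ∑ i, c i ⊗ₜ[k] algebraMap k B (s i) := by
      rw [Algebra.TensorProduct.algebraMap_apply, Algebra.algebraMap_self, RingHom.id_apply]
      rw [TensorProduct.sum_tmul]
      refine Finset.sum_congr rfl fun i _ => ?_
      rw [TensorProduct.smul_tmul, Algebra.algebraMap_eq_smul_one]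
    rw [h2, ← Finset.sum_add_distrib]
    refine Finset.sum_congr rfl fun i _ => ?_
    rw [← TensorProduct.tmul_add, add_sub_cancel]
  have hcomm : ∀ i j, Commute (c i ⊗ₜ[k] (b i - algebraMap k B (s i)))
      (c j ⊗ₜ[k] (b j - algebraMap k B (s j))) := by
    intro i j
    show _ * _ = _ * _
    rw [Algebra.TensorProduct.tmul_mul_tmul, Algebra.TensorProduct.tmul_mul_tmul, mul_comm (c i)]
    congr 1
    have e1 : ∀ x, (b i - algebraMap k B (s i)) * x = x * (b i - algebraMap k B (s i)) := by
      intro x
      rw [sub_mul, mul_sub, hb, Algebra.commutes]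
    exact e1 _
  have hnil : ∀ i, IsNilpotent (c i ⊗ₜ[k] (b i - algebraMap k B (s i))) := by
    intro i
    obtain ⟨m, hm⟩ := hs i
    exact ⟨m, by rw [Algebra.TensorProduct.tmul_pow, hm, TensorProduct.tmul_zero]⟩
  have hν : IsNilpotent ν :=
    Commute.isNilpotent_sum (fun i _ => hnil i) fun i j _ _ => hcomm i j
  rw [h1]
  by_cases ha : a = 0
  · right
    rw [ha, map_zero, zero_add]
    exact hν
  · left
    have hu : IsUnit (algebraMap K (K ⊗[k] B) a) := (isUnit_iff_ne_zero.2 ha).map _
    exact IsNilpotent.isUnit_add_left_of_commute hν hu (Algebra.commutes a ν).symm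

end Centre

end Vale.P179.H445
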