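import Vale.Agent.P179.H445.FldG
import Vale.Agent.P179.H445.FldZ
import Vale.Agent.P179.H445.FldH

/-!
# Module FLD of the SIGNATURE project
-/

namespace Vale.P179.H445

open scoped TensorProduct BigOperators PowerSeries
open Module Vale.P179.H175 Vale.P179.H904 Vale.P179.Sgn

section lB

variable (k B : Type) [Field k] [Ring B] [Algebra k B] [FiniteDimensional k B]
  (K : Type) [Field K] [Algebra k K]

omit [FiniteDimensional k B] in
/-- nilpotents and commutators stay nilpotents and commutators -/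
theorem TB_baseChange_le : (TB k B).baseChange K ≤ TB K (K ⊗[k] B) := by
  unfold TB
  rw [Submodule.baseChange_span, Submodule.span_le]
  rintro _ ⟨x, hx | ⟨a, b, rfl⟩, rfl⟩
  · refine Submodule.subset_span (Or.inl ?_)
    obtain ⟨n, hn⟩ := hx
    exact ⟨n, by rw [TensorProduct.mk_apply, Algebra.TensorProduct.tmul_pow, hn,
      TensorProduct.tmul_zero]⟩
  · refine Submodule.subset_span (Or.inr ⟨1 ⊗ₜ a, 1 ⊗ₜ b, ?_⟩)
    rw [TensorProduct.mk_apply, Algebra.TensorProduct.tmul_mul_tmul,
      Algebra.TensorProduct.tmul_mul_tmul, TensorProduct.tmul_sub, one_mul]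

theorem lB_le : lB K (K ⊗[k] B) ≤ lB k B := by
  unfold lB
  have h1 := (TB k B).finrank_quotient_add_finrank
  have h2 := (TB K (K ⊗[k] B)).finrank_quotient_add_finrank
  have h3 : finrank K ↥((TB k B).baseChange K) ≤ finrank K ↥(TB K (K ⊗[k] B)) :=
    Submodule.finrank_mono (TB_baseChange_le k B K)
  rw [finrank_baseChange_submodule] at h3
  rw [Module.finrank_baseChange] at h2
  omega

end lB

section Series

variable (k : Type) [Field k]

/-- the embedding of `k⟦X⟧` into `k((X))` -/
noncomputable def jL : k⟦X⟧ →ₐ[k] LaurentSeries k :=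
  { HahnSeries.ofPowerSeries ℤ k with
    commutes' := fun _ => rfl }

/-- the embedding of `k⟦X⟧` into the algebraic closure of `k((X))` -/
noncomputable def jK : k⟦X⟧ →ₐ[k] KK k :=
  (IsScalarTower.toAlgHom k (LaurentSeries k) (KK k)).comp (jL k)

theorem jK_injective : Function.Injective (jK k) := by
  have h1 : Function.Injective (algebraMap (LaurentSeries k) (KK k)) :=
    (algebraMap (LaurentSeries k) (KK k)).injective
  have h2 : Function.Injective (jL k) :=
    HahnSeries.ofPowerSeries_injective (Γ := ℤ) (R := k)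
  exact h1.comp h2

/-- `1 + X` has infinite order -/
theorem one_add_X_pow_ne_one {n : ℕ} (hn : 0 < n) : (1 + PowerSeries.X : k⟦X⟧) ^ n ≠ 1 := by
  intro h
  have h1 : ((1 + Polynomial.X : Polynomial k) ^ n : Polynomial k) = 1 := by
    apply Polynomial.coe_injective k
    push_cast
    exact h
  have h2 := congrArg Polynomial.natDegree h1
  rw [Polynomial.natDegree_pow, Polynomial.natDegree_one, add_comm,
    show (1 : Polynomial k) = Polynomial.C 1 from rfl, Polynomial.natDegree_X_add_C] at h2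
  omega

end Series

section Main

variable {k A B Γ : Type} [Field k] [IsAlgClosed k] [Ring A] [Algebra k A]
  [FiniteDimensional k A] [Ring B] [Algebra k B] [FiniteDimensional k B] [Nontrivial B]
  [Group Γ] [Fintype Γ] {ι : A →ₐ[k] B} {W : ℚ → Submodule k A}

omit [IsAlgClosed k] [FiniteDimensional k A] [FiniteDimensional k B] [Nontrivial B] in
theorem hsd_mul (S : HSD k ι W) (n : ℕ) (a b : B) : S.g n (a * b)
    = ∑ p ∈ Finset.HasAntidiagonal.antidiagonal n, S.g p.1 a * S.g p.2 b := by
  rw [S.mul, Finset.Nat.sum_antidiagonal_eq_sum_range_succ fun i j => S.g i a * S.g j b]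

omit [IsAlgClosed k] [FiniteDimensional k A] [FiniteDimensional k B] [Nontrivial B] in
theorem hsd_one (S : HSD k ι W) (h1 : (1 : A) ∈ W 0) (n : ℕ) (hn : 1 ≤ n) : S.g n 1 = 0 := by
  have := S.ext 0 n 1 (by simpa using h1)
  rw [map_one] at this
  rw [this, Nat.choose_eq_zero_of_lt (by omega)]
  simp

/-- the series `∑ C(w,n) X^n = (1 + X)^w` -/
theorem mk_choose (k : Type) [Field k] (w : ℕ) :
    (PowerSeries.mk fun n => ((w.choose n : ℕ) : k)) = (1 + PowerSeries.X : k⟦X⟧) ^ w := by
  ext n
  rw [PowerSeries.coeff_mk]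
  have h1 : ((1 + PowerSeries.X : k⟦X⟧) ^ w) = (((1 + Polynomial.X : Polynomial k) ^ w :
      Polynomial k) : k⟦X⟧) := by push_cast; rfl
  rw [h1, Polynomial.coeff_coe, Polynomial.coeff_one_add_X_pow]

/-- **Module FLD.** -/
theorem fld : FLD := by
  intro k A B Γ _ _ _ _ _ _ _ _ _ _ _ D e M c _ H hS hZ
  obtain ⟨S⟩ := hS
  have h0 : S.g 0 1 = 1 := by rw [S.zero]; rfl
  have h1 := hsd_one S H.basic.gr.one
  let G := gK (jK k) S.g h0 h1 (hsd_mul S)
  have hG : Function.Bijective G :=
    gK_bijective (jK k) S.g (jK_injective k) S.zero h0 h1 (hsd_mul S)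
  refine ⟨kdataK (KK k) D, hgrK (KK k) H, jK k (1 + PowerSeries.X),
    AlgEquiv.ofBijective G hG, ?_, ?_, ?_, ?_, lB_le k B (KK k)⟩
  · intro h
    have h2 := jK_injective k (h.trans (map_zero _).symm)
    have h3 := congrArg PowerSeries.constantCoeff h2
    simp at h3
  · intro n hn h
    rw [← map_pow] at h
    exact one_add_X_pow_ne_one k hn (jK_injective k (h.trans (map_one _).symm))
  · intro w h hh
    refine baseChange_induction (KK k) (p := fun h => (AlgEquiv.ofBijective G hG)
      ((kdataK (KK k) D).ι h) = jK k (1 + PowerSeries.X) ^ w • (kdataK (KK k) D).ι h)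
      (by rw [map_zero, map_zero, smul_zero]) (fun c m hm => ?_)
      (fun x y hx hy => by rw [map_add, map_add, hx, hy, smul_add]) hh
    have e1 : (kdataK (KK k) D).ι (c ⊗ₜ[k] m) = c ⊗ₜ[k] D.ι m := iotaK_tmul (KK k) D.ι c m
    rw [e1, AlgEquiv.coe_ofBijective]
    have e2 : G (c ⊗ₜ[k] D.ι m) = c • phi (jK k) S.g (D.ι m) :=
      gK_tmul (jK k) S.g h0 h1 (hsd_mul S) c (D.ι m)
    rw [e2, phi_eigen (jK k) S.g (fun n => S.ext w n m hm), mk_choose, map_pow,
      TensorProduct.smul_tmul', TensorProduct.smul_tmul', smul_eq_mul, smul_eq_mul, mul_comm]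
  · exact fun z hz => centre_baseChange (KK k) hZ hz

end Main

end Vale.P179.H445
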