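import Vale.Agent.P179.H175.GrDefs
import Vale.Agent.P179.H904.Sig2

/-!
# Module S3 of the SIGNATURE project: the twist

`B` is a finite dimensional algebra over a field `K`, `τ` a nondegenerate trace form,
`ι : H → B` an algebra map with a bimodule retraction `ρ` such that `id - ι ρ` is a relative
trace over `Γ × Γ` (Higman form) and `τ = τ ι ρ`.  If every central element of `B` is a unit or
nilpotent, `B` is graded and the socle of `H` sits in degree `N`, then the component of degree
`N` of `τ` is nondegenerate; hence `dim (e B_r f) = dim (f B_(N-r) e)`.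
-/

namespace Vale.P179.H445

open scoped BigOperators
open Vale.P179.H175 Vale.P179.H904

/-! ## Forms -/

section Form

variable {K B ι : Type*} [Field K] [Ring B] [Algebra K B]
  [DecidableEq ι] [AddCommGroup ι] (A : ι → Submodule K B) [GradedAlgebra A]

/-- the component of degree `N` of a linear form -/
noncomputable def comp (t : B →ₗ[K] K) (N : ι) : B →ₗ[K] K :=
  t ∘ₗ GradedAlgebra.proj A N

theorem comp_of_mem (t : B →ₗ[K] K) {N : ι} {x : B} (hx : x ∈ A N) : comp A t N x = t x := by
  simp only [comp, LinearMap.comp_apply, GradedAlgebra.proj_apply]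
  rw [DirectSum.decompose_of_mem_same A hx]

theorem comp_of_mem_ne (t : B →ₗ[K] K) {N r : ι} {x : B} (hx : x ∈ A r) (h : r ≠ N) :
    comp A t N x = 0 := by
  simp only [comp, LinearMap.comp_apply, GradedAlgebra.proj_apply]
  rw [DirectSum.decompose_of_mem_ne A hx h, map_zero]

/-- the component of a trace form is a trace form -/
theorem comp_mul_comm (t : B →ₗ[K] K) (ht : ∀ a b, t (a * b) = t (b * a)) (N : ι) (a b : B) :
    comp A t N (a * b) = comp A t N (b * a) := by
  classical
  induction a using DirectSum.Decomposition.inductionOn A with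
  | zero => simp
  | @homogeneous i x =>
    induction b using DirectSum.Decomposition.inductionOn A with
    | zero => simp
    | @homogeneous j y =>
      have h1 : (x : B) * (y : B) ∈ A (i + j) := SetLike.mul_mem_graded x.2 y.2
      have h2 : (y : B) * (x : B) ∈ A (i + j) := by
        rw [add_comm]; exact SetLike.mul_mem_graded y.2 x.2
      by_cases h : i + j = N
      · subst h
        rw [comp_of_mem A t h1, comp_of_mem A t h2, ht]
      · rw [comp_of_mem_ne A t h1 h, comp_of_mem_ne A t h2 h]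
    | add y y' hy hy' => rw [mul_add, add_mul, map_add, map_add, hy, hy']
  | add x x' hx hx' => rw [mul_add, add_mul, map_add, map_add, hx, hx']

/-- with a nondegenerate form every linear form is of the shape `t (z * ·)` -/
theorem exists_rep [FiniteDimensional K B] (t : B →ₗ[K] K)
    (hnd : ∀ x, (∀ y, t (x * y) = 0) → x = 0) (f : B →ₗ[K] K) :
    ∃ z : B, ∀ x, f x = t (z * x) := by
  let Φ : B →ₗ[K] Module.Dual K B :=
    { toFun := fun z => t ∘ₗ LinearMap.mulLeft K z
      map_add' := by intro a b; ext x; simp [add_mul]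
      map_smul' := by intro a b; ext x; simp }
  have hinj : Function.Injective Φ := by
    rw [injective_iff_map_eq_zero]
    intro z hz
    refine hnd z fun y => ?_
    have := congrArg (fun g => g y) hz
    simpa [Φ] using this
  have hsurj : Function.Surjective Φ :=
    (LinearMap.injective_iff_surjective_of_finrank_eq_finrank
      (by rw [Subspace.dual_finrank_eq])).1 hinj
  obtain ⟨z, hz⟩ := hsurj f
  refine ⟨z, fun x => ?_⟩
  rw [← hz]; rfl

/-- the representing element of a trace form is central -/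
theorem central_of_rep (t : B →ₗ[K] K) (ht : ∀ a b, t (a * b) = t (b * a))
    (hnd : ∀ x, (∀ y, t (x * y) = 0) → x = 0) (f : B →ₗ[K] K)
    (hf : ∀ a b, f (a * b) = f (b * a)) {z : B} (hz : ∀ x, f x = t (z * x)) (b : B) :
    z * b = b * z := by
  rw [← sub_eq_zero]
  refine hnd _ fun y => ?_
  have h1 : t (z * b * y) = f (b * y) := by rw [hz, mul_assoc]
  have h2 : t (b * z * y) = f (y * b) := by
    rw [hz, mul_assoc, ht b (z * y), mul_assoc]
  rw [sub_mul, map_sub, h1, h2, hf, sub_self]

end Form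

/-! ## The relative data -/

/-- The relative data in Higman form. -/
structure Rel {K B H Γ : Type*} [Field K] [Ring B] [Algebra K B] [Ring H] [Algebra K H]
    [Group Γ] [Fintype Γ] (u : Γ →* H) (ι : H →ₐ[K] B) (ρ : B →ₗ[K] H) (θ : B →ₗ[K] B) :
    Prop where
  ret : ∀ h, ρ (ι h) = h
  left : ∀ h b, ρ (ι h * b) = h * ρ b
  right : ∀ h b, ρ (b * ι h) = ρ b * h
  hig : ∀ b, ∑ x : Γ, ∑ y : Γ, ι (u x) * θ (ι (u x⁻¹) * b * ι (u y)) * ι (u y⁻¹) = b - ι (ρ b)

namespace Rel

variable {K B H Γ : Type*} [Field K] [Ring B] [Algebra K B] [Ring H] [Algebra K H]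
    [Group Γ] [Fintype Γ] {u : Γ →* H} {ι : H →ₐ[K] B} {ρ : B →ₗ[K] H} {θ : B →ₗ[K] B}

/-- modulo relative traces the projection is multiplicative on the centre -/
theorem rho_mul (D : Rel u ι ρ θ) {z z' : B} (hz : ∀ b, z * b = b * z)
    (hz' : ∀ b, z' * b = b * z') :
    ∃ w : H, ρ (z * z') = ρ z * ρ z' + ∑ x : Γ, u x * w * u x⁻¹ := by
  let φ : Γ → H := fun v => ρ (z * θ (z' * ι (u v)))
  refine ⟨∑ v : Γ, φ v * u v⁻¹, ?_⟩
  have h1 : ρ (z * z') - ρ z * ρ z' = ρ (z * (z' - ι (ρ z'))) := by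
    rw [mul_sub, map_sub, D.right]
  have h2 : ρ (z * (z' - ι (ρ z')))
      = ∑ x : Γ, ∑ y : Γ, u x * φ (x⁻¹ * y) * u y⁻¹ := by
    rw [← D.hig z', Finset.mul_sum, map_sum]
    refine Finset.sum_congr rfl fun x _ => ?_
    rw [Finset.mul_sum, map_sum]
    refine Finset.sum_congr rfl fun y _ => ?_
    have e1 : z * (ι (u x) * θ (ι (u x⁻¹) * z' * ι (u y)) * ι (u y⁻¹))
        = (ι (u x) * (z * θ (z' * ι (u (x⁻¹ * y))))) * ι (u y⁻¹) := by
      rw [← hz' (ι (u x⁻¹)), mul_assoc z' _ _, ← map_mul ι, ← map_mul u, ← mul_assoc z,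
        ← mul_assoc z, hz (ι (u x)), mul_assoc (ι (u x)) z]
    rw [e1, D.right, D.left]
  have h3 : ∀ x : Γ, ∑ y : Γ, u x * φ (x⁻¹ * y) * u y⁻¹
      = u x * (∑ v : Γ, φ v * u v⁻¹) * u x⁻¹ := by
    intro x
    rw [← Equiv.sum_comp (Equiv.mulLeft x) fun y => u x * φ (x⁻¹ * y) * u y⁻¹,
      Finset.mul_sum, Finset.sum_mul]
    refine Finset.sum_congr rfl fun v _ => ?_
    rw [Equiv.coe_mulLeft, inv_mul_cancel_left, mul_inv_rev, map_mul]
    simp only [mul_assoc]
  rw [← sub_eq_iff_eq_add', h1, h2]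
  exact Finset.sum_congr rfl fun x _ => h3 x

/-- a nilpotent central element has augmentation zero after projection -/
theorem aug_eq_zero (D : Rel u ι ρ θ) (aug : H →ₐ[K] K) (hcard : (Fintype.card Γ : K) = 0)
    {z : B} (hz : ∀ b, z * b = b * z) (hn : IsNilpotent z) : aug (ρ z) = 0 := by
  have hcen : ∀ h : H, ρ z * h = h * ρ z := by
    intro h
    rw [← D.right, ← D.left, hz]
  have hpow : ∀ j : ℕ, ∀ b, z ^ j * b = b * z ^ j := by
    intro j b
    exact (Commute.pow_left (show Commute z b from hz b) j).eq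
  have key : ∀ j : ℕ, ∃ w : H, ρ (z ^ (j + 1)) = ρ z ^ (j + 1) + ∑ x : Γ, u x * w * u x⁻¹ := by
    intro j
    induction j with
    | zero => exact ⟨0, by simp⟩
    | succ j ih =>
      obtain ⟨w, e⟩ := ih
      obtain ⟨w', e'⟩ := D.rho_mul hz (hpow (j + 1))
      refine ⟨ρ z * w + w', ?_⟩
      have e3 : ρ z * ∑ x : Γ, u x * w * u x⁻¹ = ∑ x : Γ, u x * (ρ z * w) * u x⁻¹ := by
        rw [Finset.mul_sum]
        refine Finset.sum_congr rfl fun x _ => ?_
        rw [← mul_assoc, ← mul_assoc, hcen (u x), mul_assoc (u x)]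
      have e4 : ∑ x : Γ, u x * (ρ z * w + w') * u x⁻¹
          = ∑ x : Γ, u x * (ρ z * w) * u x⁻¹ + ∑ x : Γ, u x * w' * u x⁻¹ := by
        rw [← Finset.sum_add_distrib]
        exact Finset.sum_congr rfl fun x _ => by rw [mul_add, add_mul]
      rw [pow_succ' z (j + 1), e', e, mul_add, e3, e4, ← pow_succ', add_assoc]
  obtain ⟨m, hm⟩ := hn
  obtain ⟨w, e⟩ := key m
  have h0 : ρ (z ^ (m + 1)) = 0 := by rw [pow_succ, hm, zero_mul, map_zero]
  rw [h0] at e
  have e5 := congrArg aug e
  have e6 : aug (∑ x : Γ, u x * w * u x⁻¹) = 0 := by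
    rw [map_sum]
    have : ∀ x : Γ, aug (u x * w * u x⁻¹) = aug w := by
      intro x
      have h1 : aug (u x) * aug (u x⁻¹) = 1 := by
        rw [← map_mul, ← map_mul, mul_inv_cancel, map_one, map_one]
      rw [map_mul, map_mul, mul_right_comm, h1, one_mul]
    rw [Finset.sum_congr rfl fun x _ => this x, Finset.sum_const, Finset.card_univ,
      nsmul_eq_mul, hcard, zero_mul]
  rw [map_zero, map_add, map_pow, e6, add_zero] at e5
  exact (pow_eq_zero_iff (Nat.succ_ne_zero m)).1 e5.symm

end Rel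

/-! ## The twist -/

section Main

variable {K B ι : Type*} [Field K] [Ring B] [Algebra K B] [FiniteDimensional K B]
  [DecidableEq ι] [AddCommGroup ι] (A : ι → Submodule K B) [GradedAlgebra A]

/-- the corner `e A_r f` -/
def corner (e f : B) (r : ι) : Submodule K B := cor2 K e f ⊓ A r

omit [FiniteDimensional K B] [DecidableEq ι] [AddCommGroup ι] [GradedAlgebra A] in
theorem mem_corner {e f : B} {r : ι} {x : B} :
    x ∈ corner A e f r ↔ (e * x = x ∧ x * f = x) ∧ x ∈ A r := Iff.rfl

/-- (T2), abstract form: a homogeneous nondegenerate trace form of degree `N` pairs `e A_r f`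
perfectly with `f A_(N-r) e`. -/
theorem finrank_corner_le (τ : B →ₗ[K] K) (hτ : ∀ a b, τ (a * b) = τ (b * a))
    (hnd : ∀ x, (∀ y, τ (x * y) = 0) → x = 0) {N : ι}
    (hdeg : ∀ r, r ≠ N → ∀ x ∈ A r, τ x = 0) {e f : B} (he : e ∈ A 0) (hf : f ∈ A 0)
    (hee : e * e = e) (hff : f * f = f) (r : ι) :
    Module.finrank K (corner A e f r) ≤ Module.finrank K (corner A f e (N - r)) := by
  let Φ : corner A e f r →ₗ[K] Module.Dual K (corner A f e (N - r)) :=
    { toFun := fun x => (τ ∘ₗ LinearMap.mulLeft K (x : B)) ∘ₗ (corner A f e (N - r)).subtype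
      map_add' := by intro a b; ext y; simp [add_mul]
      map_smul' := by intro a b; ext y; simp }
  have hΦ : ∀ x y, Φ x y = τ ((x : B) * (y : B)) := fun x y => rfl
  have hinj : Function.Injective Φ := by
    rw [injective_iff_map_eq_zero]
    intro x hx
    obtain ⟨⟨hex, hxf⟩, hxr⟩ := (mem_corner A).1 x.2
    apply Subtype.ext
    refine hnd _ fun y => ?_
    induction y using DirectSum.Decomposition.inductionOn A with
    | zero => simp
    | @homogeneous j y =>
      by_cases hj : r + j = N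
      · have hy : f * (y : B) * e ∈ corner A f e (N - r) := by
          rw [mem_corner]
          refine ⟨⟨?_, ?_⟩, ?_⟩
          · rw [← mul_assoc, ← mul_assoc, hff]
          · rw [mul_assoc, hee]
          · have h1 : f * (y : B) * e ∈ A (0 + j + 0) :=
              SetLike.mul_mem_graded (SetLike.mul_mem_graded hf y.2) he
            have h2 : (0 : ι) + j + 0 = N - r := by rw [← hj]; abel
            rwa [h2] at h1
        have h3 := hΦ x ⟨_, hy⟩
        rw [hx] at h3
        have h4 : τ ((x : B) * (f * (y : B) * e)) = τ ((x : B) * y) := by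
          have : (x : B) * (f * (y : B) * e) = (x : B) * y * e := by
            rw [← mul_assoc, ← mul_assoc, hxf]
          rw [this, hτ, ← mul_assoc, hex]
        rw [← h4]
        exact h3.symm
      · exact hdeg _ hj _ (SetLike.mul_mem_graded hxr y.2)
    | add y y' hy hy' => rw [mul_add, map_add, hy, hy', add_zero]
  calc Module.finrank K (corner A e f r)
      ≤ Module.finrank K (Module.Dual K (corner A f e (N - r))) :=
        LinearMap.finrank_le_finrank_of_injective hinj
    _ = _ := Subspace.dual_finrank_eq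

/-- (T2) `dim (e A_r f) = dim (f A_(N-r) e)` -/
theorem finrank_corner (τ : B →ₗ[K] K) (hτ : ∀ a b, τ (a * b) = τ (b * a))
    (hnd : ∀ x, (∀ y, τ (x * y) = 0) → x = 0) {N : ι}
    (hdeg : ∀ r, r ≠ N → ∀ x ∈ A r, τ x = 0) {e f : B} (he : e ∈ A 0) (hf : f ∈ A 0)
    (hee : e * e = e) (hff : f * f = f) (r : ι) :
    Module.finrank K (corner A e f r) = Module.finrank K (corner A f e (N - r)) := by
  refine le_antisymm (finrank_corner_le A τ hτ hnd hdeg he hf hee hff r) ?_
  have := finrank_corner_le A τ hτ hnd hdeg hf he hff hee (N - r)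
  rwa [sub_sub_cancel] at this

variable {H Γ : Type*} [Ring H] [Algebra K H] [Group Γ] [Fintype Γ]
  {u : Γ →* H} {io : H →ₐ[K] B} {ρ : B →ₗ[K] H} {θ : B →ₗ[K] B} {t : B →ₗ[K] K}

/-- (T1) The component of degree `N` of `t` is `t (z * ·)` with a central unit `z`. -/
theorem exists_unit (D : Rel u io ρ θ) (aug : H →ₐ[K] K) (hcard : (Fintype.card Γ : K) = 0)
    (tc : ∀ a b, t (a * b) = t (b * a)) (nd : ∀ x, (∀ y, t (x * y) = 0) → x = 0)
    (tρ : ∀ b, t (io (ρ b)) = t b)
    (hloc : ∀ z : B, (∀ b, z * b = b * z) → IsUnit z ∨ IsNilpotent z)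
    {N : ι} {s : H} (hsN : io s ∈ A N) (hts : t (io s) ≠ 0)
    (hs : ∀ h : H, h * s = aug h • s) :
    ∃ z : B, (∀ b, z * b = b * z) ∧ IsUnit z ∧ ∀ x, comp A t N x = t (z * x) := by
  obtain ⟨z, hz⟩ := exists_rep t nd (comp A t N)
  have hcen : ∀ b, z * b = b * z := fun b =>
    central_of_rep t tc nd _ (comp_mul_comm A t tc N) hz b
  refine ⟨z, hcen, (hloc z hcen).resolve_right fun hnil => ?_, hz⟩
  have h0 := D.aug_eq_zero aug hcard hcen hnil
  have h1 : t (io s) = t (io (ρ z * s)) := by
    rw [← comp_of_mem A t hsN, hz, ← tρ, D.right]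
  have h2 : ρ z * s = 0 := by rw [hs, h0, zero_smul]
  rw [h2, map_zero, map_zero] at h1
  exact hts h1

/-- (T1) The component of degree `N` of `t` is nondegenerate. -/
theorem comp_nondeg (D : Rel u io ρ θ) (aug : H →ₐ[K] K) (hcard : (Fintype.card Γ : K) = 0)
    (tc : ∀ a b, t (a * b) = t (b * a)) (nd : ∀ x, (∀ y, t (x * y) = 0) → x = 0)
    (tρ : ∀ b, t (io (ρ b)) = t b)
    (hloc : ∀ z : B, (∀ b, z * b = b * z) → IsUnit z ∨ IsNilpotent z)
    {N : ι} {s : H} (hsN : io s ∈ A N) (hts : t (io s) ≠ 0)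
    (hs : ∀ h : H, h * s = aug h • s) :
    ∀ x, (∀ y, comp A t N (x * y) = 0) → x = 0 := by
  obtain ⟨z, hcen, hu, hz⟩ := exists_unit A D aug hcard tc nd tρ hloc hsN hts hs
  intro x hx
  have : z * x = 0 := nd _ fun y => by
    have := hx y
    rw [hz, ← mul_assoc] at this
    exact this
  exact (hu.mul_right_eq_zero).1 this

end Main

end Vale.P179.H445
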