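import Mathlib

/-!
# END, part 1: weighted orbit counting and equivariant matrices

A finite `p`-group acts on finite sets, `k` is a field of characteristic `p`.  An invariant
function has the same sum over the set and over the fixed points; hence equivariant matrices
restrict multiplicatively to the fixed points.
-/

namespace Vale.P179.H445.End

open scoped BigOperators

section Orbit

variable {p : ℕ} [Fact p.Prime] {k : Type*} [Field k] [CharP k p]

/-- An invariant function has the same sum over the set and over the fixed points. -/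
theorem sum_fixedPoints {P X : Type*} [Group P] [Fintype X] [MulAction P X] (hP : IsPGroup p P)
    (f : X → k) (hf : ∀ (g : P) (x : X), f (g • x) = f x) (S : Finset X)
    (hS : ∀ x, x ∈ S ↔ x ∈ MulAction.fixedPoints P X) :
    ∑ x, f x = ∑ x ∈ S, f x := by
  classical
  let T : Finset k := Finset.univ.image f
  have h1 := Finset.sum_fiberwise_of_maps_to (s := (Finset.univ : Finset X)) (t := T) (g := f)
    (fun x _ => Finset.mem_image_of_mem f (Finset.mem_univ x)) f
  have h2 := Finset.sum_fiberwise_of_maps_to (s := S) (t := T) (g := f)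
    (fun x _ => Finset.mem_image_of_mem f (Finset.mem_univ x)) f
  rw [← h1, ← h2]
  refine Finset.sum_congr rfl fun v _ => ?_
  have e1 : ∑ x ∈ Finset.univ with f x = v, f x
      = ((Finset.univ.filter fun x => f x = v).card : k) * v := by
    rw [Finset.sum_congr rfl fun x hx => (Finset.mem_filter.1 hx).2, Finset.sum_const,
      nsmul_eq_mul]
  have e2 : ∑ x ∈ S with f x = v, f x = ((S.filter fun x => f x = v).card : k) * v := by
    rw [Finset.sum_congr rfl fun x hx => (Finset.mem_filter.1 hx).2, Finset.sum_const,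
      nsmul_eq_mul]
  rw [e1, e2]
  congr 1
  -- the fibre as a `P`-set
  let Y : Type _ := {x : X // f x = v}
  let _ : MulAction P Y :=
    { smul := fun g x => ⟨g • x.1, by rw [hf, x.2]⟩
      one_smul := fun x => Subtype.ext (one_smul P x.1)
      mul_smul := fun g h x => Subtype.ext (mul_smul g h x.1) }
  have h3 := hP.card_modEq_card_fixedPoints Y
  rw [CharP.natCast_eq_natCast k p]
  have e3 : (Finset.univ.filter fun x => f x = v).card = Nat.card Y := by
    rw [Nat.card_eq_fintype_card, Fintype.card_subtype]
  have e4 : (S.filter fun x => f x = v).card = Nat.card (MulAction.fixedPoints P Y) := by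
    let F : {x : X // x ∈ S.filter fun x => f x = v} ≃ MulAction.fixedPoints P Y :=
      { toFun := fun x => ⟨⟨x.1, (Finset.mem_filter.1 x.2).2⟩, fun g =>
          Subtype.ext ((hS x.1).1 (Finset.mem_filter.1 x.2).1 g)⟩
        invFun := fun y => ⟨y.1.1, Finset.mem_filter.2 ⟨(hS _).2 fun g =>
          congrArg Subtype.val (y.2 g), y.1.2⟩⟩
        left_inv := fun x => rfl
        right_inv := fun y => rfl }
    rw [← Nat.card_congr F, Nat.card_eq_fintype_card, Fintype.card_coe]
  rw [e3, e4]
  exact h3

variable {D : Type*} [Group D]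

/-- The fixed points of a subgroup for an action given by a homomorphism to permutations. -/
def Fx {X : Type*} (act : D →* Equiv.Perm X) (P : Subgroup D) (a : X) : Prop :=
  ∀ h ∈ P, act h a = a

theorem fx_zpowers {X : Type*} (act : D →* Equiv.Perm X) (x : D) (a : X) :
    Fx act (Subgroup.zpowers x) a ↔ act x a = a := by
  constructor
  · exact fun h => h x (Subgroup.mem_zpowers x)
  · intro h y hy
    have h1 : Subgroup.zpowers x ≤ (MulAction.stabilizer (Equiv.Perm X) a).comap act := by
      rw [Subgroup.zpowers_le, Subgroup.mem_comap, MulAction.mem_stabilizer_iff]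
      exact h
    have h2 := h1 hy
    rw [Subgroup.mem_comap, MulAction.mem_stabilizer_iff] at h2
    exact h2

theorem sum_fx {X : Type*} [Fintype X] (act : D →* Equiv.Perm X) (P : Subgroup D)
    (hP : IsPGroup p P) (f : X → k) (hf : ∀ h ∈ P, ∀ a, f (act h a) = f a) (S : Finset X)
    (hS : ∀ a, a ∈ S ↔ Fx act P a) : ∑ a, f a = ∑ a ∈ S, f a := by
  let _ : MulAction P X := MulAction.compHom X (act.comp P.subtype)
  refine sum_fixedPoints hP f (fun g x => hf g.1 g.2 x) S fun a => ?_
  rw [hS]
  exact ⟨fun h g => h g.1 g.2, fun h g hg => h ⟨g, hg⟩⟩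

open scoped Classical in
/-- composites of equivariant matrices at fixed points only see the fixed points -/
theorem mat_fixed {X Y Z : Type*} [Fintype Y] (aX : D →* Equiv.Perm X)
    (aY : D →* Equiv.Perm Y) (aZ : D →* Equiv.Perm Z) (P : Subgroup D) (hP : IsPGroup p P)
    (M : X → Y → k) (N : Y → Z → k)
    (hM : ∀ h ∈ P, ∀ a b, M (aX h a) (aY h b) = M a b)
    (hN : ∀ h ∈ P, ∀ a b, N (aY h a) (aZ h b) = N a b) (a : {a : X // Fx aX P a})
    (c : {c : Z // Fx aZ P c}) :
    ∑ b : {b : Y // Fx aY P b}, M a b * N b c = ∑ b, M a b * N b c := by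
  rw [sum_fx aY P hP (fun b => M a b * N b c) (fun h hh b => by
    show M a (aY h b) * N (aY h b) c = _
    have e1 := hM h hh a b
    have e2 := hN h hh b c
    rw [a.2 h hh] at e1
    rw [c.2 h hh] at e2
    rw [e1, e2]) (Finset.univ.filter fun b => Fx aY P b) (fun b => by simp)]
  exact (Finset.sum_subtype (Finset.univ.filter fun b => Fx aY P b) (fun b => by simp)
    (fun b => M a b * N b c)).symm

open scoped Classical in
/-- a split equivariant injection gives a bound for the number of fixed points -/
theorem card_fixed_le {X Y : Type*} [Fintype X] [Fintype Y] (aX : D →* Equiv.Perm X)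
    (aY : D →* Equiv.Perm Y) (P : Subgroup D) (hP : IsPGroup p P)
    (M : X → Y → k) (N : Y → X → k)
    (hM : ∀ h ∈ P, ∀ a b, M (aX h a) (aY h b) = M a b)
    (hN : ∀ h ∈ P, ∀ a b, N (aY h a) (aX h b) = N a b)
    (h1 : ∀ a c, ∑ b, M a b * N b c = if a = c then 1 else 0) :
    Nat.card {a : X // Fx aX P a} ≤ Nat.card {b : Y // Fx aY P b} := by
  let M' : Matrix {a : X // Fx aX P a} {b : Y // Fx aY P b} k := Matrix.of fun a b => M a b
  let N' : Matrix {b : Y // Fx aY P b} {a : X // Fx aX P a} k := Matrix.of fun b a => N b a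
  have h2 : M' * N' = 1 := by
    ext a c
    rw [Matrix.mul_apply]
    show ∑ b : {b : Y // Fx aY P b}, M a b * N b c = _
    rw [mat_fixed aX aY aX P hP M N hM hN a c, h1, Matrix.one_apply]
    simp only [Subtype.ext_iff]
  have h3 := Matrix.rank_mul_le_left M' N'
  rw [h2, Matrix.rank_one] at h3
  rw [Nat.card_eq_fintype_card, Nat.card_eq_fintype_card]
  exact h3.trans (Matrix.rank_le_card_width M')

open scoped Classical in
/-- if there are not more fixed points in the middle, the other composite is the identity at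
fixed points -/
theorem other_fixed {X Y : Type*} [Fintype X] [Fintype Y] (aX : D →* Equiv.Perm X)
    (aY : D →* Equiv.Perm Y) (P : Subgroup D) (hP : IsPGroup p P)
    (M : X → Y → k) (N : Y → X → k)
    (hM : ∀ h ∈ P, ∀ a b, M (aX h a) (aY h b) = M a b)
    (hN : ∀ h ∈ P, ∀ a b, N (aY h a) (aX h b) = N a b)
    (h1 : ∀ a c, ∑ b, M a b * N b c = if a = c then 1 else 0)
    (hle : Nat.card {b : Y // Fx aY P b} ≤ Nat.card {a : X // Fx aX P a}) (b c : Y)
    (hb : Fx aY P b) (hc : Fx aY P c) : ∑ a, N b a * M a c = if b = c then 1 else 0 := by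
  let M' : Matrix {a : X // Fx aX P a} {b : Y // Fx aY P b} k := Matrix.of fun a b => M a b
  let N' : Matrix {b : Y // Fx aY P b} {a : X // Fx aX P a} k := Matrix.of fun b a => N b a
  have h2 : M' * N' = 1 := by
    ext a c
    rw [Matrix.mul_apply]
    show ∑ b : {b : Y // Fx aY P b}, M a b * N b c = _
    rw [mat_fixed aX aY aX P hP M N hM hN a c, h1, Matrix.one_apply]
    simp only [Subtype.ext_iff]
  have h3 := card_fixed_le aX aY P hP M N hM hN h1
  have h4 : Fintype.card {a : X // Fx aX P a} = Fintype.card {b : Y // Fx aY P b} := by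
    rw [← Nat.card_eq_fintype_card, ← Nat.card_eq_fintype_card]
    exact le_antisymm h3 hle
  have h5 : N' * M' = 1 := (Matrix.mul_eq_one_comm_of_equiv (Fintype.card_eq.mp h4).some).1 h2
  have h6 := congrFun (congrFun h5 ⟨b, hb⟩) ⟨c, hc⟩
  rw [Matrix.mul_apply, Matrix.one_apply] at h6
  simp only [Subtype.mk.injEq] at h6
  rw [← h6]
  exact (mat_fixed aY aX aY P hP N M hN hM ⟨b, hb⟩ ⟨c, hc⟩).symm

end Orbit

end Vale.P179.H445.End
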