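import Vale.Agent.P179.H445.End1
import Vale.Agent.P179.H445.Twist

/-!
# END, part 2: the basis

`b` is a basis of `L` stable under left and right multiplication by the elements of the finite
abelian `p`-group `D`, the commutant of `D` is local and there are exactly `|D|` basis elements
commuting with `D`.  After multiplication by a unit of the commutant these are the elements of `D`.
-/

namespace Vale.P179.H445.End

open scoped BigOperators

section Act

variable {k L D Ω : Type*} [Field k] [Ring L] [Algebra k L] [CommGroup D]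
  {u : D →* L} (b : Module.Basis Ω k L)

theorem u_inv (u : D →* L) (x : D) : u x * u x⁻¹ = 1 := by
  rw [← map_mul, mul_inv_cancel, map_one]

theorem inv_u (u : D →* L) (x : D) : u x⁻¹ * u x = 1 := by
  rw [← map_mul, inv_mul_cancel, map_one]

/-- the action of `D × D` on the index set -/
theorem exists_act (stab : ∀ (x y : D) (ω : Ω), ∃ ω', u x * b ω * u y = b ω') :
    ∃ act : D × D →* Equiv.Perm Ω, ∀ (x y : D) (ω : Ω),
      b (act (x, y) ω) = u x * b ω * u y⁻¹ := by
  choose f hf using stab
  refine ⟨{ toFun := fun z =>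
              { toFun := fun ω => f z.1 z.2⁻¹ ω
                invFun := fun ω => f z.1⁻¹ z.2 ω
                left_inv := ?_
                right_inv := ?_ }
            map_one' := ?_
            map_mul' := ?_ }, fun x y ω => ?_⟩
  · intro ω
    apply b.injective
    rw [← hf, ← hf]
    simp only [← mul_assoc, inv_u, one_mul]
    rw [mul_assoc, inv_u, mul_one]
  · intro ω
    apply b.injective
    rw [← hf, ← hf]
    simp only [← mul_assoc, u_inv, one_mul]
    rw [mul_assoc, u_inv, mul_one]
  · ext ω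
    apply b.injective
    show b (f 1 (1 : D)⁻¹ ω) = b ω
    rw [← hf]
    simp
  · intro z w
    ext ω
    apply b.injective
    show b (f (z * w).1 (z * w).2⁻¹ ω) = b (f z.1 z.2⁻¹ (f w.1 w.2⁻¹ ω))
    rw [← hf, ← hf, ← hf]
    simp only [Prod.fst_mul, Prod.snd_mul, mul_inv_rev, map_mul, mul_assoc]
  · show b (f x y⁻¹ ω) = _
    rw [← hf]

variable {b}
variable {act : D × D →* Equiv.Perm Ω}
  (hact : ∀ (x y : D) (ω : Ω), b (act (x, y) ω) = u x * b ω * u y⁻¹)

include hact in
/-- equivariance of the coordinates -/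
theorem repr_act (x y : D) (v : L) (ω : Ω) :
    b.repr (u x * v * u y⁻¹) (act (x, y) ω) = b.repr v ω := by
  classical
  let F : L →ₗ[k] k := (b.coord (act (x, y) ω)) ∘ₗ (LinearMap.mulRight k (u y⁻¹)) ∘ₗ
    (LinearMap.mulLeft k (u x))
  have h : F = b.coord ω := by
    refine b.ext fun η => ?_
    show b.repr (u x * b η * u y⁻¹) (act (x, y) ω) = b.repr (b η) ω
    rw [← hact, b.repr_self, b.repr_self, Finsupp.single_apply, Finsupp.single_apply]
    simp only [EmbeddingLike.apply_eq_iff_eq]
  exact LinearMap.congr_fun h v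

include hact in
theorem act_eq_iff (x y : D) (ω : Ω) :
    act (x, y) ω = ω ↔ u x * b ω = b ω * u y := by
  rw [← b.injective.eq_iff, hact]
  constructor
  · intro h
    have h2 : u x * b ω * u y⁻¹ * u y = b ω * u y := congrArg (fun v => v * u y) h
    rw [mul_assoc, inv_u, mul_one] at h2
    exact h2
  · intro h
    rw [h, mul_assoc, u_inv, mul_one]

/-- the action `x ↦ (x, σ x)` -/
def tact (act : D × D →* Equiv.Perm Ω) (σ : D →* D) : D →* Equiv.Perm Ω :=
  act.comp ((MonoidHom.id D).prod σ)

theorem tact_apply (σ : D →* D) (x : D) (ω : Ω) : tact act σ x ω = act (x, σ x) ω := rfl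

/-- the diagonal action -/
abbrev dact (act : D × D →* Equiv.Perm Ω) : D →* Equiv.Perm Ω := tact act (MonoidHom.id D)

theorem dact_apply (x : D) (ω : Ω) : dact act x ω = act (x, x) ω := rfl

include hact in
theorem fx_tact (σ : D →* D) (X : Subgroup D) (ω : Ω) :
    Fx (tact act σ) X ω ↔ ∀ x ∈ X, u x * b ω = b ω * u (σ x) := by
  constructor
  · intro h x hx
    exact (act_eq_iff hact x (σ x) ω).1 (h x hx)
  · intro h x hx
    exact (act_eq_iff hact x (σ x) ω).2 (h x hx)

include hact in
/-- coordinates of an element commuting with `D` -/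
theorem repr_comm {v : L} (hv : ∀ x, u x * v = v * u x) (x : D) (ω : Ω) :
    b.repr v (dact act x ω) = b.repr v ω := by
  have h := repr_act hact x x v ω
  rwa [hv x, mul_assoc, u_inv, mul_one] at h

variable {p : ℕ} [Fact p.Prime] [CharP k p] [Fintype Ω]

include hact in
/-- the coordinates at the fixed points vanish on an ideal -/
theorem repr_mul_eq_zero (hD : IsPGroup p D) {v w : L}
    (hv : ∀ x, u x * v = v * u x) (hw : ∀ x, u x * w = w * u x)
    (h0 : ∀ ω, (∀ x, u x * b ω = b ω * u x) → b.repr v ω = 0)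
    (ω : Ω) (hω : ∀ x, u x * b ω = b ω * u x) : b.repr (v * w) ω = 0 := by
  classical
  have h1 : v * w = ∑ η, b.repr v η • (b η * w) := by
    conv_lhs => rw [← b.sum_repr v, Finset.sum_mul]
    exact Finset.sum_congr rfl fun η _ => by rw [smul_mul_assoc]
  rw [h1, map_sum, Finsupp.finsetSum_apply]
  simp only [map_smul, Finsupp.smul_apply, smul_eq_mul]
  rw [sum_fx (dact act) ⊤ (hD.to_subgroup ⊤)
    (fun η => b.repr v η * b.repr (b η * w) ω) ?_
    (Finset.univ.filter fun η => Fx (dact act) ⊤ η) (fun η => by simp)]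
  · refine Finset.sum_eq_zero fun η hη => ?_
    rw [Finset.mem_filter] at hη
    have h5 := (fx_tact hact _ ⊤ η).1 hη.2
    rw [h0 η fun x => h5 x trivial, zero_mul]
  · intro x _ η
    rw [repr_comm hact hv]
    congr 1
    have h2 := repr_act hact x x (b η * w) ω
    have h3 : act (x, x) ω = ω := (act_eq_iff hact x x ω).2 (hω x)
    rw [h3] at h2
    rw [← h2]
    congr 2
    rw [dact_apply, hact, mul_assoc _ _ w, hw x⁻¹]
    simp only [mul_assoc]

include hact in
/-- one of the basis elements commuting with `D` is a unit, the others are its translates -/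
theorem exists_unit_basis (hD : IsPGroup p D) [Finite D]
    (free : ∀ ω x, u x * b ω = b ω → x = 1)
    (cnt : Nat.card {ω // ∀ x, u x * b ω = b ω * u x} = Nat.card D)
    (loc : ∀ a : L, (∀ x, u x * a = a * u x) → IsUnit a ∨ IsNilpotent a) :
    ∃ ω₀, (∀ x, u x * b ω₀ = b ω₀ * u x) ∧ IsUnit (b ω₀) ∧
      ∀ ω, (∀ x, u x * b ω = b ω * u x) → ∃ x, b ω = u x * b ω₀ := by
  classical
  have : Fintype D := Fintype.ofFinite D
  have hpos : 0 < Nat.card {ω // ∀ x, u x * b ω = b ω * u x} := by
    rw [cnt]; exact Nat.card_pos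
  obtain ⟨ω₀, hω₀⟩ := (Nat.card_pos_iff.1 hpos).1
  -- the translates
  have he : ∀ x : D, b (act (x, 1) ω₀) = u x * b ω₀ := by
    intro x
    rw [hact, inv_one, map_one, mul_one]
  have htr : ∀ x y : D, u y * b (act (x, 1) ω₀) = b (act (x, 1) ω₀) * u y := by
    intro x y
    rw [he, ← mul_assoc, ← map_mul, mul_comm y x, map_mul, mul_assoc, hω₀ y, mul_assoc]
  let F : D → {ω // ∀ x, u x * b ω = b ω * u x} := fun x => ⟨act (x, 1) ω₀, htr x⟩
  have hFinj : Function.Injective F := by
    intro x y hxy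
    have h1 : b (act (x, 1) ω₀) = b (act (y, 1) ω₀) := congrArg (fun z => b z.1) hxy
    rw [he, he] at h1
    have h2 : u (y⁻¹ * x) * b ω₀ = b ω₀ := by
      rw [map_mul, mul_assoc, h1, ← mul_assoc, inv_u, one_mul]
    exact (inv_mul_eq_one.1 (free ω₀ _ h2)).symm
  have hFsurj : Function.Surjective F :=
    ((Nat.bijective_iff_injective_and_card F).2 ⟨hFinj, cnt.symm⟩).2
  have hall : ∀ ω, (∀ x, u x * b ω = b ω * u x) → ∃ x : D, ω = act (x, 1) ω₀ := by
    intro ω hω
    obtain ⟨x, hx⟩ := hFsurj ⟨ω, hω⟩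
    exact ⟨x, (congrArg Subtype.val hx).symm⟩
  refine ⟨ω₀, hω₀, ?_, fun ω hω => ?_⟩
  · refine (loc _ hω₀).resolve_right fun hnil => ?_
    -- the part of `1` at the fixed points
    let s : L := ∑ x : D, b.repr 1 (act (x, 1) ω₀) • u x
    have hsc : ∀ y, u y * s = s * u y := by
      intro y
      rw [Finset.mul_sum, Finset.sum_mul]
      refine Finset.sum_congr rfl fun x _ => ?_
      rw [mul_smul_comm, smul_mul_assoc, ← map_mul, ← map_mul, mul_comm y x]
    have hsb : Commute s (b ω₀) := by
      show s * b ω₀ = b ω₀ * s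
      rw [Finset.mul_sum, Finset.sum_mul]
      refine Finset.sum_congr rfl fun x _ => ?_
      rw [mul_smul_comm, smul_mul_assoc, hω₀ x]
    have hzn : IsNilpotent (s * b ω₀) := hsb.isNilpotent_mul_left hnil
    have hzc : ∀ y, u y * (s * b ω₀) = s * b ω₀ * u y := by
      intro y
      rw [← mul_assoc, hsc y, mul_assoc, hω₀ y, mul_assoc]
    let v : L := 1 - s * b ω₀
    have hvc : ∀ y, u y * v = v * u y := by
      intro y
      show u y * (1 - s * b ω₀) = (1 - s * b ω₀) * u y
      rw [mul_sub, sub_mul, hzc y, mul_one, one_mul]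
    have hvu : IsUnit v := hzn.isUnit_one_sub
    have hsrepr : s * b ω₀ = ∑ x : D, b.repr 1 (act (x, 1) ω₀) • b (act (x, 1) ω₀) := by
      rw [Finset.sum_mul]
      refine Finset.sum_congr rfl fun x _ => ?_
      rw [smul_mul_assoc, he]
    have hinj : ∀ x y : D, act (x, 1) ω₀ = act (y, 1) ω₀ → x = y := by
      intro x y hxy
      exact hFinj (Subtype.ext hxy)
    have hv0 : ∀ ω, (∀ x, u x * b ω = b ω * u x) → b.repr v ω = 0 := by
      intro ω hω
      obtain ⟨y, rfl⟩ := hall ω hω
      show b.repr (1 - s * b ω₀) (act (y, 1) ω₀) = 0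
      rw [map_sub, Finsupp.sub_apply, hsrepr, map_sum, Finsupp.finsetSum_apply,
        Finset.sum_eq_single y]
      · rw [map_smul, b.repr_self, Finsupp.smul_apply, Finsupp.single_eq_same, smul_eq_mul,
          mul_one, sub_self]
      · intro x _ hxy
        rw [map_smul, b.repr_self, Finsupp.smul_apply, Finsupp.single_apply, if_neg, smul_zero]
        exact fun h => hxy (hinj _ _ h)
      · intro h
        exact absurd (Finset.mem_univ _) h
    obtain ⟨w, hw⟩ := hvu
    have hwc : ∀ y, u y * (↑w⁻¹ : L) = (↑w⁻¹ : L) * u y := by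
      intro y
      have : Commute (u y) (w : L) := by
        show u y * (w : L) = w * u y
        rw [hw]; exact hvc y
      exact this.units_inv_right.eq
    have h1 : ∀ ω, (∀ x, u x * b ω = b ω * u x) → b.repr (1 : L) ω = 0 := by
      intro ω hω
      have := repr_mul_eq_zero hact hD hvc hwc hv0 ω hω
      rwa [← hw, w.mul_inv] at this
    have h2 := repr_mul_eq_zero hact hD (v := 1) (w := b ω₀) (fun x => by rw [mul_one, one_mul])
      hω₀ h1 ω₀ hω₀
    rw [one_mul, b.repr_self, Finsupp.single_eq_same] at h2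
    exact one_ne_zero h2
  · obtain ⟨x, rfl⟩ := hall ω hω
    exact ⟨x, he x⟩

/-- **Normalisation**: the basis can be chosen so that it contains the elements of `D` and no
other element commuting with `D`. -/
theorem exists_normal (b : Module.Basis Ω k L)
    (stab : ∀ (x y : D) (ω : Ω), ∃ ω', u x * b ω * u y = b ω') (hD : IsPGroup p D) [Finite D]
    (free : ∀ ω x, u x * b ω = b ω → x = 1)
    (cnt : Nat.card {ω // ∀ x, u x * b ω = b ω * u x} = Nat.card D)
    (loc : ∀ a : L, (∀ x, u x * a = a * u x) → IsUnit a ∨ IsNilpotent a) :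
    ∃ (c : Module.Basis Ω k L) (ω₀ : Ω),
      (∀ (x y : D) (ω : Ω), ∃ ω', u x * c ω * u y = c ω') ∧
      (∀ x y ω, u x * c ω = c ω * u y ↔ u x * b ω = b ω * u y) ∧ c ω₀ = 1 ∧
      ∀ ω, (∀ x, u x * c ω = c ω * u x) → ∃ x, c ω = u x := by
  obtain ⟨act, hact⟩ := exists_act b stab
  obtain ⟨ω₀, h1, ⟨w, hw⟩, h3⟩ := exists_unit_basis hact hD free cnt loc
  have hwc : ∀ y, u y * (↑w⁻¹ : L) = (↑w⁻¹ : L) * u y := by
    intro y
    have : Commute (u y) (w : L) := by
      show u y * (w : L) = w * u y
      rw [hw]; exact h1 y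
    exact this.units_inv_right.eq
  let R : L ≃ₗ[k] L := LinearEquiv.ofLinearMap (LinearMap.mulRight k (↑w⁻¹ : L))
    (LinearMap.mulRight k (w : L)) (by ext v; simp) (by ext v; simp)
  have hR : ∀ v, R v = v * (↑w⁻¹ : L) := fun v => rfl
  have hc : ∀ ω, (b.map R) ω = b ω * (↑w⁻¹ : L) := fun ω => by rw [Module.Basis.map_apply, hR]
  have hiff : ∀ x y ω, u x * (b.map R) ω = (b.map R) ω * u y ↔ u x * b ω = b ω * u y := by
    intro x y ω
    rw [hc, mul_assoc (b ω), ← hwc y, ← mul_assoc, ← mul_assoc]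
    constructor
    · intro h
      have := congrArg (fun v => v * (w : L)) h
      simpa [mul_assoc] using this
    · intro h
      rw [h]
  refine ⟨b.map R, ω₀, fun x y ω => ?_, hiff, ?_, fun ω hω => ?_⟩
  · obtain ⟨ω', h⟩ := stab x y ω
    refine ⟨ω', ?_⟩
    rw [hc, hc, ← h, mul_assoc, mul_assoc, ← hwc y]
    simp only [mul_assoc]
  · rw [hc, ← hw, w.mul_inv]
  · obtain ⟨x, hx⟩ := h3 ω fun x => (hiff x x ω).1 (hω x)
    refine ⟨x, ?_⟩
    rw [hc, hx, mul_assoc, ← hw, w.mul_inv, mul_one]

end Act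

end Vale.P179.H445.End
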