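import Vale.Agent.P179.H445.End2
import Vale.Agent.P179.H875.Perm1

/-!
# END, part 3: the form is nondegenerate on `kΓ`
-/

namespace Vale.P179.H445.End

open scoped BigOperators

section Nondeg

variable {k L D Γ Ω : Type*} [Field k] [Ring L] [Algebra k L] [CommGroup D] [Group Γ]
  {u : D →* L} {b : Module.Basis Ω k L} {act : D × D →* Equiv.Perm Ω}
  {p : ℕ} [Fact p.Prime] [CharP k p] [Fintype Ω]

/-- the form does not vanish on the sum of the elements of `D` -/
theorem t_norm_ne_zero (hact : ∀ (x y : D) (ω : Ω), b (act (x, y) ω) = u x * b ω * u y⁻¹)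
    (hD : IsPGroup p D) [Fintype D] (ω₀ : Ω) (h1 : b ω₀ = 1)
    (hfix : ∀ ω, (∀ x, u x * b ω = b ω * u x) → ∃ x, b ω = u x)
    (free : ∀ ω x, u x * b ω = b ω → x = 1) (t : L →ₗ[k] k)
    (tc : ∀ x y, t (x * y) = t (y * x)) (nd : ∀ x, (∀ y, t (x * y) = 0) → x = 0) :
    t (∑ x : D, u x) ≠ 0 := by
  classical
  intro h0
  have : FiniteDimensional k L := Module.Finite.of_basis b
  obtain ⟨z, hz⟩ := exists_rep t nd (b.coord ω₀)
  have hω₀ : ∀ x, act (x, x) ω₀ = ω₀ := fun x =>
    (act_eq_iff hact x x ω₀).2 (by rw [h1, mul_one, one_mul])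
  have hzc : ∀ x, u x * z = z * u x := by
    intro x
    rw [← sub_eq_zero]
    refine nd _ fun y => ?_
    rw [sub_mul, map_sub, mul_assoc, tc, mul_assoc z y, ← hz, mul_assoc z, ← hz, sub_eq_zero]
    show b.repr (y * u x) ω₀ = b.repr (u x * y) ω₀
    have h2 := repr_act hact x x (y * u x) ω₀
    rw [hω₀] at h2
    rw [← h2]
    congr 2
    rw [mul_assoc, mul_assoc, u_inv, mul_one]
  have h2 : b.coord ω₀ (∑ x : D, u x) = 1 := by
    rw [map_sum, Finset.sum_eq_single (1 : D)]
    · rw [map_one, ← h1]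
      show b.repr (b ω₀) ω₀ = 1
      rw [b.repr_self, Finsupp.single_eq_same]
    · intro x _ hx
      have h3 : u x = b (act (x, 1) ω₀) := by
        rw [hact, h1, mul_one, inv_one, map_one, mul_one]
      show b.repr (u x) ω₀ = 0
      rw [h3, b.repr_self, Finsupp.single_apply, if_neg]
      intro h4
      have h5 := (act_eq_iff hact x 1 ω₀).1 h4
      rw [map_one, mul_one] at h5
      exact hx (free ω₀ x h5)
    · intro h; exact absurd (Finset.mem_univ _) h
  rw [hz] at h2
  have h3 : z * ∑ x : D, u x = ∑ η, b.repr z η • (b η * ∑ x : D, u x) := by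
    conv_lhs => rw [← b.sum_repr z, Finset.sum_mul]
    exact Finset.sum_congr rfl fun η _ => by rw [smul_mul_assoc]
  rw [h3, map_sum] at h2
  simp only [map_smul, smul_eq_mul] at h2
  rw [sum_fx (dact act) ⊤ (hD.to_subgroup ⊤)
    (fun η => b.repr z η * t (b η * ∑ x : D, u x)) ?_
    (Finset.univ.filter fun η => Fx (dact act) ⊤ η) (fun η => by simp)] at h2
  · apply zero_ne_one (α := k)
    rw [← h2]
    symm
    refine Finset.sum_eq_zero fun η hη => ?_
    rw [Finset.mem_filter] at hη
    have h5 := (fx_tact hact _ ⊤ η).1 hη.2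
    obtain ⟨x, hx⟩ := hfix η fun x => h5 x trivial
    have h6 : u x * ∑ y : D, u y = ∑ y : D, u y := by
      rw [Finset.mul_sum, ← Equiv.sum_comp (Equiv.mulLeft x) u]
      exact Finset.sum_congr rfl fun y _ => by rw [Equiv.coe_mulLeft, map_mul]
    rw [hx, h6, h0, mul_zero]
  · intro x _ η
    rw [repr_comm hact hzc]
    congr 1
    have e1 : u x⁻¹ * ∑ y : D, u y = ∑ y : D, u y := by
      rw [Finset.mul_sum, ← Equiv.sum_comp (Equiv.mulLeft x⁻¹) u]
      exact Finset.sum_congr rfl fun y _ => by rw [Equiv.coe_mulLeft, map_mul]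
    have e2 : (∑ y : D, u y) * u x = ∑ y : D, u y := by
      rw [Finset.sum_mul, ← Equiv.sum_comp (Equiv.mulRight x) u]
      exact Finset.sum_congr rfl fun y _ => by rw [Equiv.coe_mulRight, map_mul]
    rw [dact_apply, hact, mul_assoc (u x * b η), e1, mul_assoc (u x), tc, mul_assoc, e2]

omit [CharP k p] [Fact p.Prime] [Fintype Ω] in
/-- the form is constant on the cosets of `D` other than `D` -/
theorem t_coset [Finite D] (i : D →* Γ) (c : Γ →* L) (t : L →ₗ[k] k)
    (tc : ∀ x y, t (x * y) = t (y * x))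
    (hnorm : ∀ (g : Γ) (x : D), ∃ y : D, g * i x * g⁻¹ = i y) {g : Γ}
    (hg : ∀ y : D, i y * g = g * i y → y = 1) (x : D) :
    t (c (i x * g)) = t (c g) := by
  choose σ hσ using fun y : D => hnorm g y⁻¹
  let F : D → D := fun y => y * σ y
  have hF : ∀ y, i (F y) = i y * g * i y⁻¹ * g⁻¹ := by
    intro y
    show i (y * σ y) = _
    rw [map_mul, ← hσ]
    simp only [mul_assoc]
  have hinj : Function.Injective F := by
    intro y y' h
    have h1 : i (F y) = i (F y') := by rw [h]
    rw [hF, hF, mul_left_inj] at h1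
    have h2 : i (y'⁻¹ * y) * g = g * i (y'⁻¹ * y) := by
      have h3 : i y'⁻¹ * (i y * g * i y⁻¹) * i y = i y'⁻¹ * (i y' * g * i y'⁻¹) * i y :=
        congrArg (fun v => i y'⁻¹ * v * i y) h1
      have e1 : i y'⁻¹ * (i y * g * i y⁻¹) * i y = i (y'⁻¹ * y) * g := by
        rw [map_mul, map_inv i y]; group
      have e2 : i y'⁻¹ * (i y' * g * i y'⁻¹) * i y = g * i (y'⁻¹ * y) := by
        rw [map_mul, map_inv i y']; group
      rw [← e1, ← e2]
      exact h3
    exact (inv_mul_eq_one.1 (hg _ h2)).symm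
  obtain ⟨y, hy⟩ := (Finite.injective_iff_surjective.1 hinj) x
  rw [← hy, hF]
  have e : i y * g * i y⁻¹ * g⁻¹ * g = i y * (g * i y⁻¹) := by group
  rw [e, map_mul, tc, ← map_mul]
  congr 2
  rw [map_inv]; group

/-- **The form is nondegenerate on `kΓ`.** -/
theorem nd_group [Fintype Γ] [Fintype D] [Nontrivial D] (hD : IsPGroup p D) (i : D →* Γ)
    (c : Γ →* L) (hc : ∀ x, c (i x) = u x) (t : L →ₗ[k] k) (tc : ∀ x y, t (x * y) = t (y * x))
    (hnorm : ∀ (g : Γ) (x : D), ∃ y : D, g * i x * g⁻¹ = i y)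
    (hfree : ∀ g : Γ, g ∉ i.range → ∀ y : D, i y * g = g * i y → y = 1)
    (hi : Function.Injective i) (hN : t (∑ x : D, u x) ≠ 0)
    (ι : MonoidAlgebra k Γ →ₐ[k] L) (hι : ∀ g, ι (MonoidAlgebra.of k Γ g) = c g)
    (a : MonoidAlgebra k Γ) (ha : ∀ a', t (ι (a * a')) = 0) : a = 0 := by
  classical
  by_contra hne
  let R : Submodule k (MonoidAlgebra k Γ) :=
    { carrier := {a | ∀ a', t (ι (a * a')) = 0}
      add_mem' := fun {v w} hv hw a' => by rw [add_mul, map_add, map_add, hv, hw, add_zero]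
      zero_mem' := fun a' => by rw [zero_mul, map_zero, map_zero]
      smul_mem' := fun r v hv a' => by rw [smul_mul_assoc, map_smul, map_smul, hv, smul_zero] }
  have hRne : R ≠ ⊥ := (Submodule.ne_bot_iff R).2 ⟨a, ha, hne⟩
  let l : D →* Module.End k (MonoidAlgebra k Γ) :=
    { toFun := fun x => LinearMap.mulLeft k (MonoidAlgebra.of k Γ (i x))
      map_one' := by ext; simp
      map_mul' := fun x y => by
        refine LinearMap.ext fun v => ?_
        show MonoidAlgebra.of k Γ (i (x * y)) * v =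
          MonoidAlgebra.of k Γ (i x) * (MonoidAlgebra.of k Γ (i y) * v)
        rw [map_mul, map_mul, mul_assoc] }
  obtain ⟨w, hw, hw0, hwf⟩ := Vale.P179.H875.Perm.exists_fixed hD l R (fun x v hv a' => by
    show t (ι (MonoidAlgebra.of k Γ (i x) * v * a')) = 0
    rw [mul_assoc, map_mul, tc, ← map_mul, mul_assoc]
    exact hv _) hRne
  have hcoef : ∀ (x : D) (h : Γ), w.coeff (i x * h) = w.coeff h := by
    intro x h
    have h1 : MonoidAlgebra.of k Γ (i x) * w = w := hwf x
    conv_lhs => rw [← h1]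
    rw [MonoidAlgebra.of_apply,
      MonoidAlgebra.coeff_single_mul_eq_mul_coeff h (fun m' _ => by simp), one_mul]
  obtain ⟨g, hg⟩ : ∃ g, w.coeff g ≠ 0 := by
    by_contra hno
    push Not at hno
    exact hw0 (by ext g; rw [hno g]; rfl)
  have h0 := hw (MonoidAlgebra.of k Γ g⁻¹)
  -- expansion
  have hexp : ∀ v : MonoidAlgebra k Γ, t (ι v) = ∑ h : Γ, v.coeff h * t (c h) := by
    intro v
    have h2 : v = ∑ h : Γ, v.coeff h • MonoidAlgebra.of k Γ h := by
      ext h
      rw [MonoidAlgebra.coeff_sum, Finsupp.finsetSum_apply, Finset.sum_eq_single h]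
      · simp
      · intro g _ hg
        simp [MonoidAlgebra.of_apply, hg]
      · intro h'; exact absurd (Finset.mem_univ _) h'
    conv_lhs => rw [h2, map_sum, map_sum]
    exact Finset.sum_congr rfl fun h _ => by rw [map_smul, map_smul, hι, smul_eq_mul]
  have hcoef2 : ∀ h, (w * MonoidAlgebra.of k Γ g⁻¹).coeff h = w.coeff (h * g) := by
    intro h
    rw [MonoidAlgebra.of_apply,
      MonoidAlgebra.coeff_mul_single_eq_coeff_mul (h * g) (fun m' _ => by
        rw [mul_inv_eq_iff_eq_mul]), mul_one]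
  rw [hexp] at h0
  simp only [hcoef2] at h0
  let f : Γ → k := fun h => w.coeff (h * g) * t (c h)
  have hsplit : ∑ h, f h = (∑ h, if h ∈ i.range then f h else 0) +
      ∑ h, if h ∈ i.range then 0 else f h := by
    rw [← Finset.sum_add_distrib]
    refine Finset.sum_congr rfl fun h _ => ?_
    split_ifs <;> simp
  -- the part outside `D`
  let lact : D →* Equiv.Perm Γ :=
    { toFun := fun x => Equiv.mulLeft (i x)
      map_one' := by ext; simp
      map_mul' := fun x y => by ext; simp }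
  have hla : ∀ x h, lact x h = i x * h := fun x h => rfl
  have hout : (∑ h, if h ∈ i.range then 0 else f h) = 0 := by
    rw [sum_fx lact ⊤ (hD.to_subgroup ⊤) (fun h => if h ∈ i.range then 0 else f h) ?_
      (Finset.univ.filter fun h => Fx lact ⊤ h) (fun h => by simp)]
    · refine Finset.sum_eq_zero fun h hh => ?_
      rw [Finset.mem_filter] at hh
      obtain ⟨x, hx⟩ := exists_ne (1 : D)
      have h2 := hh.2 x trivial
      rw [hla, mul_eq_right] at h2
      exact absurd (hi (h2.trans (map_one i).symm)) hx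
    · intro x _ h
      rw [hla]
      have h2 : i x * h ∈ i.range ↔ h ∈ i.range :=
        i.range.mul_mem_cancel_left (MonoidHom.mem_range.2 ⟨x, rfl⟩)
      simp only [h2]
      split_ifs with h3
      · rfl
      · show w.coeff (i x * h * g) * t (c (i x * h)) = w.coeff (h * g) * t (c h)
        rw [mul_assoc, hcoef, t_coset i c t tc hnorm (hfree h h3)]
  have hin : (∑ h, if h ∈ i.range then f h else 0) = w.coeff g * t (∑ x : D, u x) := by
    rw [← Finset.sum_filter, map_sum, Finset.mul_sum]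
    symm
    refine Finset.sum_nbij (fun x => i x) (fun x _ => ?_) (fun x _ y _ h => hi h) (fun h hh => ?_)
      (fun x _ => ?_)
    · rw [Finset.mem_filter]
      exact ⟨Finset.mem_univ _, MonoidHom.mem_range.2 ⟨x, rfl⟩⟩
    · rw [Finset.coe_filter] at hh
      obtain ⟨x, hx⟩ := MonoidHom.mem_range.1 hh.2
      exact ⟨x, by simp, hx⟩
    · show _ = w.coeff (i x * g) * t (c (i x))
      rw [hcoef, hc]
  have h0' : ∑ h, f h = 0 := h0
  rw [hsplit, hout, hin, add_zero] at h0'
  rcases mul_eq_zero.1 h0' with h | h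
  · exact hg h
  · exact hN h

end Nondeg

end Vale.P179.H445.End
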