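import Vale.Agent.P179.H445.End3
import Vale.Agent.P179.H875.S0cHigman

/-!
# END, part 4: the projection onto `kΓ` and Higman's form
-/

namespace Vale.P179.H445.End

open scoped BigOperators

section Rho

variable {k L A : Type*} [Field k] [Ring L] [Algebra k L] [Ring A] [Algebra k A]
  [FiniteDimensional k A]

/-- the orthogonal projection onto a subalgebra on which the form is nondegenerate -/
theorem exists_rho (ι : A →ₐ[k] L) (t : L →ₗ[k] k) (tc : ∀ x y, t (x * y) = t (y * x))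
    (nd : ∀ a : A, (∀ a', t (ι (a * a')) = 0) → a = 0) :
    ∃ ρ : L →ₗ[k] A, (∀ h, ρ (ι h) = h) ∧ (∀ h v, ρ (ι h * v) = h * ρ v) ∧
      (∀ h v, ρ (v * ι h) = ρ v * h) ∧ ∀ v, t (ι (ρ v)) = t v := by
  let Φ : A →ₗ[k] Module.Dual k A :=
    { toFun := fun z => t ∘ₗ ι.toLinearMap ∘ₗ LinearMap.mulLeft k z
      map_add' := by intro a b; ext x; simp [add_mul]
      map_smul' := by intro a b; ext x; simp }
  have hΦ : ∀ z a, Φ z a = t (ι (z * a)) := fun z a => rfl
  have hinj : Function.Injective Φ := by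
    rw [injective_iff_map_eq_zero]
    intro z hz
    refine nd z fun y => ?_
    rw [← hΦ, hz]; rfl
  have hsurj : Function.Surjective Φ :=
    (LinearMap.injective_iff_surjective_of_finrank_eq_finrank
      (by rw [Subspace.dual_finrank_eq])).1 hinj
  let Ψ : L →ₗ[k] Module.Dual k A :=
    { toFun := fun v => t ∘ₗ LinearMap.mulLeft k v ∘ₗ ι.toLinearMap
      map_add' := by intro a b; ext x; simp [add_mul]
      map_smul' := by intro a b; ext x; simp }
  let E : A ≃ₗ[k] Module.Dual k A := LinearEquiv.ofBijective Φ ⟨hinj, hsurj⟩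
  let ρ : L →ₗ[k] A := E.symm.toLinearMap ∘ₗ Ψ
  have hρ : ∀ v a, t (ι (ρ v * a)) = t (v * ι a) := by
    intro v a
    have h1 : Φ (ρ v) = Ψ v := E.apply_symm_apply (Ψ v)
    rw [← hΦ, h1]; rfl
  have uniq : ∀ x y : A, (∀ a, t (ι (x * a)) = t (ι (y * a))) → x = y := by
    intro x y h
    rw [← sub_eq_zero]
    refine nd _ fun a => ?_
    rw [sub_mul, map_sub, map_sub, h, sub_self]
  refine ⟨ρ, fun h => uniq _ _ fun a => ?_, fun h v => uniq _ _ fun a => ?_,
    fun h v => uniq _ _ fun a => ?_, fun v => ?_⟩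
  · rw [hρ, map_mul ι]
  · rw [hρ, mul_assoc h, map_mul ι h, tc (ι h) (ι (ρ v * a)), ← map_mul ι, mul_assoc (ρ v), hρ,
      mul_assoc, tc, map_mul ι, mul_assoc]
  · rw [hρ, mul_assoc (ρ v), hρ, map_mul ι, mul_assoc]
  · have := hρ v 1
    rwa [mul_one, map_one, mul_one] at this

end Rho

section Theta

variable {k L D Γ Ω : Type*} [Field k] [Ring L] [Algebra k L] [CommGroup D] [Group Γ]
  {u : D →* L} {b : Module.Basis Ω k L} {act : D × D →* Equiv.Perm Ω}
  {p : ℕ} [Fact p.Prime] [CharP k p] [Fintype Ω]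

/-- a linear form in coordinates -/
theorem sum_repr_form (f : L →ₗ[k] k) (v : L) : ∑ ω, b.repr v ω * f (b ω) = f v := by
  conv_rhs => rw [← b.sum_repr v, map_sum]
  exact Finset.sum_congr rfl fun ω _ => by rw [map_smul, smul_eq_mul]

open scoped Classical in
/-- the number of fixed points of a twisted diagonal subgroup -/
theorem card_twisted_le (hact : ∀ (x y : D) (ω : Ω), b (act (x, y) ω) = u x * b ω * u y⁻¹)
    (hD : IsPGroup p D) (σ : D →* D) (m m' : L) (hm : m * m' = 1) (hm' : m' * m = 1)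
    (hmu : ∀ x, m * u x = u (σ x) * m) (P : Subgroup D) :
    Nat.card {ω : Ω // Fx (tact act σ) P ω} ≤ Nat.card {ω : Ω // Fx (dact act) P ω} := by
  have hmu2 : ∀ x, m' * u (σ x) = u x * m' := by
    intro x
    have h1 : m' * (m * u x) * m' = m' * (u (σ x) * m) * m' := by rw [hmu]
    rw [← mul_assoc m' m, hm', one_mul, mul_assoc m', mul_assoc _ m m', hm, mul_one] at h1
    exact h1.symm
  refine card_fixed_le (tact act σ) (dact act) P (hD.to_subgroup P)
    (fun ω ω' => b.repr (b ω * m) ω') (fun ω' ω => b.repr (b ω' * m') ω) ?_ ?_ ?_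
  · intro h _ ω ω'
    show b.repr (b (act (h, σ h) ω) * m) (act (h, h) ω') = b.repr (b ω * m) ω'
    have e : b (act (h, σ h) ω) * m = u h * (b ω * m) * u h⁻¹ := by
      have h2 : u (σ h)⁻¹ * m = m * u h⁻¹ := by rw [hmu, map_inv σ]
      rw [hact, mul_assoc _ _ m, h2]
      simp only [mul_assoc]
    rw [e, repr_act hact]
  · intro h _ ω ω'
    show b.repr (b (act (h, h) ω) * m') (act (h, σ h) ω') = b.repr (b ω * m') ω'
    have e : b (act (h, h) ω) * m' = u h * (b ω * m') * u (σ h)⁻¹ := by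
      have h2 : u h⁻¹ * m' = m' * u (σ h)⁻¹ := by rw [← hmu2, map_inv σ]
      rw [hact, mul_assoc _ _ m', h2]
      simp only [mul_assoc]
    rw [e, repr_act hact]
  · intro ω ω'
    have h1 := sum_repr_form (b := b) (b.coord ω' ∘ₗ LinearMap.mulRight k m') (b ω * m)
    have h2 : (b.coord ω' ∘ₗ LinearMap.mulRight k m') (b ω * m) = if ω = ω' then 1 else 0 := by
      show b.repr (b ω * m * m') ω' = _
      rw [mul_assoc, hm, mul_one, b.repr_self, Finsupp.single_apply]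
    rw [h2] at h1
    exact h1

/-- Higman's form over `D × D` from the vanishing of the entries with non trivial stabiliser -/
theorem exists_theta [Fintype D]
    (hact : ∀ (x y : D) (ω : Ω), b (act (x, y) ω) = u x * b ω * u y⁻¹)
    (φ : L →ₗ[k] L) (hl : ∀ x v, φ (u x * v) = u x * φ v) (hr : ∀ x v, φ (v * u x) = φ v * u x)
    (h0 : ∀ x y ω ω', (x ≠ 1 ∨ y ≠ 1) → u x * b ω = b ω * u y → u x * b ω' = b ω' * u y →
      b.repr (φ (b ω)) ω' = 0) :
    ∃ θ : L →ₗ[k] L, ∀ v, φ v = ∑ z : D × D, u z.1 * θ (u z.1⁻¹ * v * u z.2) * u z.2⁻¹ := by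
  classical
  obtain ⟨T, hT⟩ := Vale.P179.H875.higman_matrix act (fun ω ω' => b.repr (φ (b ω)) ω')
    (by
      rintro ⟨x, y⟩ ω ω'
      show b.repr (φ (b (act (x, y) ω))) (act (x, y) ω') = _
      rw [hact, hr, hl, repr_act hact])
    (by
      rintro ⟨x, y⟩ hxy ω ω' h1 h2
      refine h0 x y ω ω' ?_ ((act_eq_iff hact x y ω).1 h1) ((act_eq_iff hact x y ω').1 h2)
      by_contra hc
      push Not at hc
      exact hxy (Prod.ext hc.1 hc.2))
  let θ : L →ₗ[k] L := b.constr k fun ω => ∑ ω', T ω ω' • b ω'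
  have hθ : ∀ ω, θ (b ω) = ∑ ω', T ω ω' • b ω' := fun ω => b.constr_basis _ _ _
  refine ⟨θ, fun v => ?_⟩
  let Θ : L →ₗ[k] L := ∑ z : D × D, (LinearMap.mulRight k (u z.2⁻¹)) ∘ₗ
    (LinearMap.mulLeft k (u z.1)) ∘ₗ θ ∘ₗ (LinearMap.mulRight k (u z.2)) ∘ₗ
    (LinearMap.mulLeft k (u z.1⁻¹))
  have hΘ : ∀ v, Θ v = ∑ z : D × D, u z.1 * θ (u z.1⁻¹ * v * u z.2) * u z.2⁻¹ := by
    intro v
    simp only [Θ, LinearMap.sum_apply]
    rfl
  rw [← hΘ]
  suffices h : φ = Θ by rw [← h]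
  refine b.ext fun ω => ?_
  rw [hΘ]
  have h1 : φ (b ω) = ∑ ω', b.repr (φ (b ω)) ω' • b ω' := (b.sum_repr _).symm
  rw [h1]
  have h2 : ∀ z : D × D, u z.1 * θ (u z.1⁻¹ * b ω * u z.2) * u z.2⁻¹
      = ∑ ω', T (act z⁻¹ ω) (act z⁻¹ ω') • b ω' := by
    rintro ⟨x, y⟩
    have e1 : u x⁻¹ * b ω * u y = b (act (x, y)⁻¹ ω) := by
      have : ((x, y) : D × D)⁻¹ = (x⁻¹, y⁻¹) := rfl
      rw [this, hact, inv_inv]
    show u x * θ (u x⁻¹ * b ω * u y) * u y⁻¹ = _
    rw [e1, hθ, Finset.mul_sum, Finset.sum_mul,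
      ← Equiv.sum_comp (act (x, y)) fun ω' => T (act (x, y)⁻¹ ω) (act (x, y)⁻¹ ω') • b ω']
    refine Finset.sum_congr rfl fun ω' _ => ?_
    have e3 : (act (x, y)⁻¹) (act (x, y) ω') = ω' := by
      rw [map_inv act]; exact Equiv.symm_apply_apply _ _
    rw [mul_smul_comm, smul_mul_assoc, hact, e3]
  rw [Finset.sum_congr rfl fun z _ => h2 z, Finset.sum_comm]
  refine Finset.sum_congr rfl fun ω' _ => ?_
  rw [hT ω ω', Finset.sum_smul]

/-- raising the trace form from `D × D` to `Γ × Γ` -/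
theorem raise [Fintype D] [Fintype Γ] (i : D →* Γ) (hi : Function.Injective i)
    (c : Γ →* L) (hc : ∀ x, c (i x) = u x) (φ : L →ₗ[k] L)
    (hl : ∀ g v, φ (c g * v) = c g * φ v) (hr : ∀ g v, φ (v * c g) = φ v * c g)
    (θ : L →ₗ[k] L) (hθ : ∀ v, φ v = ∑ z : D × D, u z.1 * θ (u z.1⁻¹ * v * u z.2) * u z.2⁻¹)
    (hidx : (i.range.index : k) ≠ 0) :
    ∃ θ' : L →ₗ[k] L, ∀ v, φ v = ∑ x : Γ, ∑ y : Γ, c x * θ' (c x⁻¹ * v * c y) * c y⁻¹ := by
  classical
  let D' : Subgroup (Γ × Γ) := i.range.prod i.range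
  have hD' : (D'.index : k) ≠ 0 := by
    rw [Subgroup.index_prod]
    push_cast
    exact mul_ne_zero hidx hidx
  have : Fintype D' := Fintype.ofFinite D'
  let r : Γ × Γ →* Module.End k L :=
    { toFun := fun z => (LinearMap.mulRight k (c z.2⁻¹)) ∘ₗ (LinearMap.mulLeft k (c z.1))
      map_one' := by
        refine LinearMap.ext fun v => ?_
        show c 1 * v * c (1 : Γ)⁻¹ = v
        rw [inv_one, map_one, one_mul, mul_one]
      map_mul' := fun z w => by
        refine LinearMap.ext fun v => ?_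
        show c (z.1 * w.1) * v * c (z.2 * w.2)⁻¹ = c z.1 * (c w.1 * v * c w.2⁻¹) * c z.2⁻¹
        rw [mul_inv_rev, map_mul, map_mul]
        simp only [mul_assoc] }
  have hrr : ∀ z v, r z v = c z.1 * v * c z.2⁻¹ := fun z v => rfl
  let F : D × D ≃ D' := Equiv.ofBijective
    (fun z => ⟨(i z.1, i z.2), Subgroup.mem_prod.2
      ⟨MonoidHom.mem_range.2 ⟨z.1, rfl⟩, MonoidHom.mem_range.2 ⟨z.2, rfl⟩⟩⟩) (by
    constructor
    · rintro ⟨x, y⟩ ⟨x', y'⟩ h
      have h1 : (i x, i y) = (i x', i y') := congrArg Subtype.val h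
      rw [Prod.mk.injEq] at h1
      exact Prod.ext (hi h1.1) (hi h1.2)
    · rintro ⟨⟨a, b'⟩, h⟩
      obtain ⟨h1, h2⟩ := Subgroup.mem_prod.1 h
      obtain ⟨x, hx⟩ := MonoidHom.mem_range.1 h1
      obtain ⟨y, hy⟩ := MonoidHom.mem_range.1 h2
      exact ⟨(x, y), Subtype.ext (Prod.ext hx hy)⟩)
  refine ⟨(D'.index : k)⁻¹ • θ, fun v => ?_⟩
  have h1 := Vale.P179.H875.trace_up D' r φ θ (fun e v => by rw [hrr, hrr, hr, hl])
    (fun v => by
      rw [hθ v]
      refine Fintype.sum_equiv F _ _ fun z => ?_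
      show u z.1 * θ (u z.1⁻¹ * v * u z.2) * u z.2⁻¹ =
        r (i z.1, i z.2) (θ (r (i z.1, i z.2)⁻¹ v))
      rw [hrr, Prod.inv_mk, hrr]
      show _ = c (i z.1) * θ (c (i z.1)⁻¹ * v * c ((i z.2)⁻¹)⁻¹) * c (i z.2)⁻¹
      rw [inv_inv, ← map_inv i, ← map_inv i]
      simp only [hc]) hD' v
  rw [h1, Fintype.sum_prod_type]
  refine Finset.sum_congr rfl fun x _ => Finset.sum_congr rfl fun y _ => ?_
  rw [hrr, Prod.inv_mk, hrr, inv_inv]

end Theta

end Vale.P179.H445.End
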