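import Vale.Agent.P179.H445.Sep

/-!
# SEPREL: automatic separability for the relative data

`D1` is a normal subgroup of `Γ` with `|D1| = 0` in `K`, `Γ = D1 Z`; `id - ι ρ` is a relative trace
over `D1 × D1` of a `Z`-linear map, `B` is projective as a right module over the algebra spanned by
`Γ`, and there is a symmetrising form with `t = t ι ρ`.  Then the relative Casimir element gives a
separability element as soon as the centre of `B` is local.
-/

namespace Vale.P179.H445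

open scoped TensorProduct BigOperators

section SepR

variable {K B H Γ : Type*} [Field K] [Ring B] [Algebra K B] [FiniteDimensional K B]
  [Ring H] [Algebra K H] [Group Γ] [Fintype Γ]
  {u : Γ →* H} {ι : H →ₐ[K] B} {ρ : B →ₗ[K] H} {θ : B →ₗ[K] B} {t : B →ₗ[K] K}

/-- relative dual basis from projectivity -/
theorem exists_dual_of_proj (hspan : Submodule.span K (Set.range u) = ⊤)
    (hr : ∀ h b, ρ (b * ι h) = ρ b * h)
    (nd : ∀ x, (∀ y, t (x * y) = 0) → x = 0) (tρ : ∀ b, t (ι (ρ b)) = t b)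
    (hproj : ∃ η : B →ₗ[K] B, ∀ b, ∑ g : Γ, η (b * ι (u g)) * ι (u g⁻¹) = b) :
    ∃ (n : ℕ) (s s' : Fin n → B), ∀ b, b = ∑ l, s l * ι (ρ (s' l * b)) := by
  obtain ⟨η, hη⟩ := hproj
  let bas := Module.finBasis K B
  have hrep : ∀ m, ∃ y : B, ∀ b, bas.repr (η b) m = t (y * b) := fun m =>
    exists_rep t nd ((Finsupp.lapply m ∘ₗ bas.repr.toLinearMap) ∘ₗ η)
  choose y hy using hrep
  refine ⟨_, fun m => bas m * ι (casC u ι t 1), y, fun b => ?_⟩
  conv_lhs => rw [← hη b]
  have h2 : ∀ g : Γ, η (b * ι (u g)) = ∑ m, t (y m * (b * ι (u g))) • bas m := by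
    intro g
    conv_lhs => rw [← bas.sum_repr (η (b * ι (u g)))]
    exact Finset.sum_congr rfl fun m _ => by rw [hy]
  simp only [h2, Finset.sum_mul]
  rw [Finset.sum_comm]
  refine Finset.sum_congr rfl fun m _ => ?_
  have h3 : ι (casC u ι t 1) * ι (ρ (y m * b)) = ∑ h : Γ, t (y m * (b * ι (u h))) • ι (u h⁻¹) := by
    rw [← map_mul, ← casC_eq hspan, casC_apply, map_sum]
    refine Finset.sum_congr rfl fun h _ => ?_
    rw [map_smul, map_mul]
    congr 1
    rw [← map_mul, ← hr, tρ, mul_assoc]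
  rw [mul_assoc, h3, Finset.mul_sum]
  refine Finset.sum_congr rfl fun h _ => ?_
  rw [smul_mul_assoc, mul_smul_comm]

omit [FiniteDimensional K B] in
/-- the other dual basis identity -/
theorem dual_swap (hl : ∀ h b, ρ (ι h * b) = h * ρ b)
    (tc : ∀ a b, t (a * b) = t (b * a))
    (nd : ∀ x, (∀ y, t (x * y) = 0) → x = 0) (tρ : ∀ b, t (ι (ρ b)) = t b)
    {n : ℕ} {s s' : Fin n → B} (h1 : ∀ b, b = ∑ l, s l * ι (ρ (s' l * b))) (b : B) :
    b = ∑ l, ι (ρ (b * s l)) * s' l := by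
  rw [← sub_eq_zero]
  refine nd _ fun b' => ?_
  rw [sub_mul, map_sub, sub_eq_zero, tc b b']
  conv_lhs => rw [h1 b', Finset.sum_mul, map_sum]
  rw [Finset.sum_mul, map_sum]
  refine Finset.sum_congr rfl fun l _ => ?_
  have tl : ∀ (h : H) (a : B), t (ι h * ι (ρ a)) = t (ι h * a) := by
    intro h a
    rw [← map_mul, ← hl, tρ]
  have e1 : t (s l * ι (ρ (s' l * b')) * b) = t (ι (ρ (s' l * b')) * (b * s l)) := by
    rw [mul_assoc, tc, mul_assoc]
  have e2 : t (ι (ρ (b * s l)) * s' l * b') = t (ι (ρ (b * s l)) * (s' l * b')) := by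
    rw [mul_assoc]
  rw [e1, e2, ← tl (ρ (s' l * b')) (b * s l), ← tl (ρ (b * s l)) (s' l * b'), tc]

omit [FiniteDimensional K B] in
/-- elements slide through the Casimir element -/
theorem casimir_slide {n : ℕ} {s s' : Fin n → B}
    (h1 : ∀ b, b = ∑ l, s l * ι (ρ (s' l * b))) (h2 : ∀ b, b = ∑ l, ι (ρ (b * s l)) * s' l)
    (f : B →ₗ[K] B) (hf : ∀ b h, f (b * ι h) = f b * ι h) (a : B) :
    ∑ m, f (a * s m) * s' m = (∑ m, f (s m) * s' m) * a := by
  have e1 : ∀ m, f (a * s m) = ∑ l, f (s l) * ι (ρ (s' l * (a * s m))) := by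
    intro m
    conv_lhs => rw [h1 (a * s m), map_sum]
    exact Finset.sum_congr rfl fun l _ => hf _ _
  simp only [e1, Finset.sum_mul]
  rw [Finset.sum_comm]
  refine Finset.sum_congr rfl fun l _ => ?_
  rw [mul_assoc (f (s l)) (s' l) a]
  conv_rhs => rw [h2 (s' l * a), Finset.mul_sum]
  exact Finset.sum_congr rfl fun m _ => by rw [mul_assoc, mul_assoc (s' l)]

/-- **Automatic separability, relative form.** -/
theorem exists_sep_rel (D1 Z : Subgroup Γ) [D1.Normal] [Fintype D1] (hsup : D1 ⊔ Z = ⊤)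
    (R : Rel (u.comp D1.subtype) ι ρ θ)
    (hθ : ∀ z ∈ Z, ∀ b, θ (b * ι (u z)) = θ b * ι (u z))
    (hspan : Submodule.span K (Set.range u) = ⊤)
    (aug : H →ₐ[K] K) (hcard : (Fintype.card D1 : K) = 0)
    (tc : ∀ a b, t (a * b) = t (b * a))
    (nd : ∀ x, (∀ y, t (x * y) = 0) → x = 0) (tρ : ∀ b, t (ι (ρ b)) = t b)
    (hproj : ∃ η : B →ₗ[K] B, ∀ b, ∑ g : Γ, η (b * ι (u g)) * ι (u g⁻¹) = b)
    (hloc : ∀ z : B, (∀ b, z * b = b * z) → IsUnit z ∨ IsNilpotent z) :
    ∃ (n : ℕ) (s s' : Fin n → B), ∑ i, s i * s' i = 1 ∧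
      ∀ b : B, (∑ i, (b * s i) ⊗ₜ[K] s' i) - (∑ i, s i ⊗ₜ[K] (s' i * b)) ∈
        Submodule.span K {z : B ⊗[K] B | ∃ (x y : B) (h : H),
          z = (x * ι h) ⊗ₜ[K] y - x ⊗ₜ[K] (ι h * y)} := by
  classical
  obtain ⟨n, s, s', h1⟩ := exists_dual_of_proj hspan R.right nd tρ hproj
  have h2 := dual_swap R.left tc nd tρ h1
  set c : B := ∑ l, s l * s' l with hc
  have hcen : ∀ b, c * b = b * c := by
    intro b
    have := casimir_slide (K := K) h1 h2 LinearMap.id (fun b h => rfl) b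
    simp only [LinearMap.id_apply] at this
    rw [hc, ← this, Finset.mul_sum]
    exact Finset.sum_congr rfl fun m _ => by rw [mul_assoc]
  -- the right linear half of the trace form
  let f : B →ₗ[K] B := ∑ y : D1, (LinearMap.mulRight K (ι (u (y : Γ)⁻¹))) ∘ₗ θ ∘ₗ
    (LinearMap.mulRight K (ι (u y)))
  have hf : ∀ b, f b = ∑ y : D1, θ (b * ι (u y)) * ι (u (y : Γ)⁻¹) := by
    intro b
    simp only [f, LinearMap.sum_apply]
    rfl
  have huu : ∀ a b : Γ, ι (u a) * ι (u b) = ι (u (a * b)) := fun a b => by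
    rw [← map_mul, ← map_mul]
  have hfD : ∀ d ∈ D1, ∀ b, f (b * ι (u d)) = f b * ι (u d) := by
    intro d hd b
    rw [hf, hf, Finset.sum_mul]
    refine Fintype.sum_equiv (Equiv.mulLeft (⟨d, hd⟩ : D1)) _ _ fun y => ?_
    show θ (b * ι (u d) * ι (u y)) * ι (u (y : Γ)⁻¹) =
      θ (b * ι (u (d * y))) * ι (u (d * (y : Γ))⁻¹) * ι (u d)
    rw [mul_assoc b, huu, mul_assoc _ (ι (u (d * (y : Γ))⁻¹)), huu]
    congr 3
    group
  have hfZ : ∀ z ∈ Z, ∀ b, f (b * ι (u z)) = f b * ι (u z) := by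
    intro z hz b
    rw [hf, hf, Finset.sum_mul]
    let F : D1 ≃ D1 :=
      { toFun := fun y => ⟨z * y * z⁻¹, ‹D1.Normal›.conj_mem y y.2 z⟩
        invFun := fun y => ⟨z⁻¹ * y * z, by
          have := ‹D1.Normal›.conj_mem y y.2 z⁻¹
          rwa [inv_inv] at this⟩
        left_inv := fun y => Subtype.ext (by
          show z⁻¹ * (z * y * z⁻¹) * z = y
          group)
        right_inv := fun y => Subtype.ext (by
          show z * (z⁻¹ * y * z) * z⁻¹ = y
          group) }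
    refine Fintype.sum_equiv F _ _ fun y => ?_
    show θ (b * ι (u z) * ι (u y)) * ι (u (y : Γ)⁻¹) =
      θ (b * ι (u (z * y * z⁻¹))) * ι (u (z * y * z⁻¹)⁻¹) * ι (u z)
    have e1 : b * ι (u z) * ι (u y) = b * ι (u (z * y * z⁻¹)) * ι (u z) := by
      rw [mul_assoc, huu, mul_assoc, huu]
      congr 3
      group
    rw [e1, hθ z hz, mul_assoc (θ _), huu, mul_assoc (θ _), huu]
    congr 3
    group
  have hfG : ∀ g : Γ, ∀ b, f (b * ι (u g)) = f b * ι (u g) := by
    intro g b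
    have hg : g ∈ D1 ⊔ Z := by rw [hsup]; trivial
    obtain ⟨d, hd, z, hz, rfl⟩ := Subgroup.mem_sup_of_normal_left.1 hg
    rw [← huu, ← mul_assoc, hfZ z hz, hfD d hd, mul_assoc]
  have hfH : ∀ b h, f (b * ι h) = f b * ι h := by
    intro b h
    have hh : h ∈ Submodule.span K (Set.range u) := by rw [hspan]; trivial
    induction hh using Submodule.span_induction with
    | mem v hv =>
      obtain ⟨g, rfl⟩ := hv
      exact hfG g b
    | zero => simp
    | add v w _ _ hv hw => rw [map_add, mul_add, map_add, hv, hw, mul_add]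
    | smul r v _ hv => rw [map_smul, mul_smul_comm, map_smul, hv, mul_smul_comm]
  set W : B := ∑ m, f (s m) * s' m with hW
  have hρc : ρ c = 1 + ∑ x : D1, u x * ρ W * u (x : Γ)⁻¹ := by
    have e1 : ∀ m, s m = ι (ρ (s m)) + ∑ x : D1, ι (u x) * f (ι (u (x : Γ)⁻¹) * s m) := by
      intro m
      have h3 := R.hig (s m)
      rw [eq_sub_iff_add_eq'] at h3
      conv_lhs => rw [← h3]
      congr 1
      refine Finset.sum_congr rfl fun x _ => ?_
      rw [hf, Finset.mul_sum]
      refine Finset.sum_congr rfl fun y _ => ?_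
      rw [← mul_assoc]
      rfl
    have e2 : c = (∑ m, ι (ρ (s m)) * s' m) +
        ∑ x : D1, ι (u x) * (W * ι (u (x : Γ)⁻¹)) := by
      have e3 : ∀ x : D1, ι (u x) * (W * ι (u (x : Γ)⁻¹))
          = ∑ m, ι (u x) * f (ι (u (x : Γ)⁻¹) * s m) * s' m := by
        intro x
        rw [hW, ← casimir_slide h1 h2 f hfH, Finset.mul_sum]
        exact Finset.sum_congr rfl fun m _ => by rw [mul_assoc]
      simp only [e3]
      rw [Finset.sum_comm, ← Finset.sum_add_distrib, hc]
      refine Finset.sum_congr rfl fun m _ => ?_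
      conv_lhs => rw [e1 m]
      rw [add_mul, Finset.sum_mul]
    have e4 : ∑ m, ι (ρ (s m)) * s' m = 1 := by
      have := h2 1
      simp only [one_mul] at this
      exact this.symm
    have hρ1 : ρ (1 : B) = 1 := by rw [← map_one ι, R.ret]
    rw [e2, e4, map_add, hρ1, map_sum]
    congr 1
    refine Finset.sum_congr rfl fun x _ => ?_
    rw [R.left, R.right, mul_assoc]
  have hnil : ¬ IsNilpotent c := by
    intro hn
    have h4 := R.aug_eq_zero aug hcard hcen hn
    rw [hρc, map_add, map_one, map_sum] at h4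
    have h5 : ∀ g : D1, aug (u g * ρ W * u (g : Γ)⁻¹) = aug (ρ W) := by
      intro g
      have : aug (u g) * aug (u (g : Γ)⁻¹) = 1 := by
        rw [← map_mul, ← map_mul, mul_inv_cancel, map_one, map_one]
      rw [map_mul, map_mul, mul_right_comm, this, one_mul]
    rw [Finset.sum_congr rfl fun g _ => h5 g, Finset.sum_const, Finset.card_univ,
      nsmul_eq_mul, hcard, zero_mul, add_zero] at h4
    exact one_ne_zero h4
  obtain ⟨d, hd⟩ := (hloc c hcen).resolve_right hnil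
  have hdc : ((d⁻¹ : Bˣ) : B) * c = 1 := by rw [← hd]; exact d.inv_mul
  have hdcen : ∀ b : B, ((d⁻¹ : Bˣ) : B) * b = b * ((d⁻¹ : Bˣ) : B) := by
    intro b
    have : Commute (d : B) b := by
      show (d : B) * b = b * d
      rw [hd]; exact hcen b
    exact this.units_inv_left.eq
  refine ⟨n, fun i => ((d⁻¹ : Bˣ) : B) * s i, s', ?_, fun b => ?_⟩
  · rw [← hdc, hc, Finset.mul_sum]
    exact Finset.sum_congr rfl fun i _ => by rw [mul_assoc]
  · have e1 : ∑ l, (b * (((d⁻¹ : Bˣ) : B) * s l)) ⊗ₜ[K] s' l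
        = ∑ l, ∑ m, ((((d⁻¹ : Bˣ) : B) * s m) * ι (ρ (s' m * (b * s l)))) ⊗ₜ[K] s' l := by
      refine Finset.sum_congr rfl fun l _ => ?_
      rw [← mul_assoc b, ← hdcen b, mul_assoc _ b, ← TensorProduct.sum_tmul]
      congr 1
      conv_lhs => rw [h1 (b * s l), Finset.mul_sum]
      exact Finset.sum_congr rfl fun m _ => by rw [mul_assoc]
    have e2 : ∑ m, (((d⁻¹ : Bˣ) : B) * s m) ⊗ₜ[K] (s' m * b)
        = ∑ l, ∑ m, (((d⁻¹ : Bˣ) : B) * s m) ⊗ₜ[K] (ι (ρ (s' m * (b * s l))) * s' l) := by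
      rw [Finset.sum_comm]
      refine Finset.sum_congr rfl fun m _ => ?_
      rw [← TensorProduct.tmul_sum]
      congr 1
      conv_lhs => rw [h2 (s' m * b)]
      exact Finset.sum_congr rfl fun l _ => by rw [mul_assoc (s' m)]
    rw [e1, e2, ← Finset.sum_sub_distrib]
    refine Submodule.sum_mem _ fun l _ => ?_
    rw [← Finset.sum_sub_distrib]
    exact Submodule.sum_mem _ fun m _ => Submodule.subset_span ⟨_, _, _, rfl⟩

end SepR

end Vale.P179.H445
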