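import Vale.Agent.P179.H445.RFld1
import Vale.Agent.P179.H445.SepR
import Vale.Agent.P179.Rel.Defs

/-!
# Modules SEPR and FLDR
-/

namespace Vale.P179.H445

open scoped TensorProduct BigOperators PowerSeries
open Module Vale.P179.H175 Vale.P179.H904 Vale.P179.Sgn P179H342 Vale.P179.Rel

theorem card_eq_zero_of_pgroup {p : ℕ} [Fact p.Prime] (k : Type) [Field k] [CharP k p]
    {D : Type} [Group D] [Finite D] (h : IsPGroup p D) (hne : Nontrivial D) :
    (Nat.card D : k) = 0 := by
  obtain ⟨n, hn0, hn⟩ := (IsPGroup.nontrivial_iff_card h).1 hne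
  rw [hn, Nat.cast_pow, CharP.cast_eq_zero k p, zero_pow hn0.ne']

/-- **MODULE SEPR.** -/
theorem sepr : SEPR := by
  intro p _ k Γ B _ _ _ _ _ _ _ D1 D2 t e _ _ F ι ρ θ τ hR hl hr hproj tc nd tρ hZ
  classical
  have : D1.Normal := F.n1
  have hne : Nontrivial D1 := (Subgroup.nontrivial_iff_ne_bot D1).2 F.ne
  refine exists_sep_rel D1 (D2 ⊔ Subgroup.zpowers t) ?_ hR hr ?_ (MonoidAlgebra.lift k k Γ 1) ?_
    tc nd tρ hproj hZ
  · rw [← sup_assoc]
    exact F.compl.sup_eq_top
  · rw [eq_top_iff]
    intro a _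
    induction a using MonoidAlgebra.induction_on with
    | of g => exact Submodule.subset_span ⟨g, rfl⟩
    | add x y hx hy => exact Submodule.add_mem _ (hx trivial) (hy trivial)
    | smul r x hx => exact Submodule.smul_mem _ _ (hx trivial)
  · rw [← Nat.card_eq_fintype_card]
    exact card_eq_zero_of_pgroup k F.p1 hne

section FLD

variable {k : Type} [Field k] (K : Type) [Field K] [Algebra k K]

theorem spanK {A Γ : Type} [Ring A] [Algebra k A] [Group Γ] {γ : Γ →* A}
    (h : Submodule.span k (Set.range γ) = ⊤) :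
    Submodule.span K (Set.range (gammaK (k := k) K γ)) = ⊤ := by
  rw [eq_top_iff]
  rintro x -
  induction x using TensorProduct.induction_on with
  | zero => exact Submodule.zero_mem _
  | tmul c a =>
    have ha : a ∈ Submodule.span k (Set.range γ) := by rw [h]; trivial
    induction ha using Submodule.span_induction with
    | mem a ha =>
      obtain ⟨x, rfl⟩ := ha
      have : c ⊗ₜ[k] γ x = c • gammaK (k := k) K γ x := by
        rw [gammaK_apply, TensorProduct.smul_tmul', smul_eq_mul, mul_one]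
      rw [this]
      exact Submodule.smul_mem _ _ (Submodule.subset_span ⟨x, rfl⟩)
    | zero => rw [TensorProduct.tmul_zero]; exact Submodule.zero_mem _
    | add a b _ _ ha hb => rw [TensorProduct.tmul_add]; exact Submodule.add_mem _ ha hb
    | smul r a _ ha =>
      rw [← TensorProduct.smul_tmul, ← TensorProduct.smul_tmul']
      have : r • c ⊗ₜ[k] a = algebraMap k K r • c ⊗ₜ[k] a := (algebraMap_smul K r _).symm
      rw [this]
      exact Submodule.smul_mem _ _ ha
  | add x y hx hy => exact Submodule.add_mem _ hx hy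

theorem sepK {A B : Type} [Ring A] [Algebra k A] [Ring B] [Algebra k B] {ι : A →ₐ[k] B} {m : ℕ}
    {s r : Fin m → B}
    (h : ∀ v : B, (∑ i, (v * s i) ⊗ₜ[k] r i) - (∑ i, s i ⊗ₜ[k] (r i * v)) ∈
      Submodule.span k {z : B ⊗[k] B | ∃ (x y : B) (h : A),
        z = (x * ι h) ⊗ₜ[k] y - x ⊗ₜ[k] (ι h * y)}) (b : K ⊗[k] B) :
    (∑ i, (b * ((1 : K) ⊗ₜ[k] s i)) ⊗ₜ[K] ((1 : K) ⊗ₜ[k] r i)) -
      (∑ i, ((1 : K) ⊗ₜ[k] s i) ⊗ₜ[K] (((1 : K) ⊗ₜ[k] r i) * b)) ∈
      Submodule.span K {z : (K ⊗[k] B) ⊗[K] (K ⊗[k] B) |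
        ∃ (x y : K ⊗[k] B) (h : K ⊗[k] A),
          z = (x * iotaK K ι h) ⊗ₜ[K] y - x ⊗ₜ[K] (iotaK K ι h * y)} := by
  set S := Submodule.span K {z : (K ⊗[k] B) ⊗[K] (K ⊗[k] B) |
    ∃ (x y : K ⊗[k] B) (h : K ⊗[k] A),
      z = (x * iotaK K ι h) ⊗ₜ[K] y - x ⊗ₜ[K] (iotaK K ι h * y)} with hS
  have h1 : ∀ z ∈ Submodule.span k {z : B ⊗[k] B | ∃ (x y : B) (h : A),
      z = (x * ι h) ⊗ₜ[k] y - x ⊗ₜ[k] (ι h * y)}, dbl k B K z ∈ S := by
    intro z hz
    induction hz using Submodule.span_induction with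
    | mem z hz =>
      obtain ⟨x, y, h, rfl⟩ := hz
      refine Submodule.subset_span ⟨1 ⊗ₜ x, 1 ⊗ₜ y, 1 ⊗ₜ h, ?_⟩
      simp
    | zero => rw [map_zero]; exact Submodule.zero_mem _
    | add a b _ _ ha hb => rw [map_add]; exact Submodule.add_mem _ ha hb
    | smul r a _ ha =>
      rw [map_smul, ← algebraMap_smul K r]
      exact Submodule.smul_mem _ _ ha
  induction b using TensorProduct.induction_on with
  | zero => simp
  | tmul c b =>
    have h2 := Submodule.smul_mem S c (h1 _ (h b))
    convert h2 using 1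
    rw [map_sub, map_sum, map_sum, smul_sub, Finset.smul_sum, Finset.smul_sum]
    congr 1
    · refine Finset.sum_congr rfl fun i _ => ?_
      rw [dbl_tmul, TensorProduct.smul_tmul', Algebra.TensorProduct.tmul_mul_tmul, mul_one,
        TensorProduct.smul_tmul', smul_eq_mul, mul_one]
    · refine Finset.sum_congr rfl fun i _ => ?_
      rw [dbl_tmul, ← TensorProduct.tmul_smul, Algebra.TensorProduct.tmul_mul_tmul, one_mul,
        TensorProduct.smul_tmul', smul_eq_mul, mul_one]
  | add x y hx hy =>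
    have h2 := Submodule.add_mem _ hx hy
    convert h2 using 1
    simp only [add_mul, mul_add, TensorProduct.add_tmul, TensorProduct.tmul_add,
      Finset.sum_add_distrib]
    abel

/-- **Base change of the relative data.** -/
noncomputable def rkdataK {A B Γ : Type} [Ring A] [Algebra k A] [Ring B] [Algebra k B]
    [FiniteDimensional k B] [Group Γ] [Fintype Γ] {D1 D2 : Subgroup Γ} {t : Γ}
    (D : RKData k A B Γ D1 D2 t) : RKData K (K ⊗[k] A) (K ⊗[k] B) Γ D1 D2 t where
  γ := gammaK K D.γ
  aug := (Algebra.TensorProduct.rid k K K).toAlgHom.comp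
    (Algebra.TensorProduct.map (AlgHom.id K K) D.aug)
  ι := iotaK K D.ι
  ρ := D.ρ.baseChange K
  θ := D.θ.baseChange K
  m := D.m
  s := fun i => 1 ⊗ₜ D.s i
  r := fun i => 1 ⊗ₜ D.r i
  τ := formK K D.τ
  I := D.I
  fin := D.fin
  b := D.b.baseChange K
  span := spanK K D.span
  augγ g := by simp [D.augγ]
  nz := by
    have h1 : ∑ g, gammaK K D.γ g = (1 : K) ⊗ₜ[k] (∑ g, D.γ g) := by
      rw [TensorProduct.tmul_sum]; rfl
    rw [h1]
    intro h
    exact D.nz (Algebra.TensorProduct.includeRight_injective (R := k) (A := K) (B := A)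
      (algebraMap k K).injective (by rw [map_zero]; exact h))
  card0 := by
    have := congrArg (algebraMap k K) D.card0
    simpa using this
  rel := relK K D.rel
  θl x hx v := by
    induction v using TensorProduct.induction_on with
    | zero => simp
    | tmul c b =>
      rw [gammaK_apply, iotaK_tmul, Algebra.TensorProduct.tmul_mul_tmul, one_mul,
        LinearMap.baseChange_tmul, LinearMap.baseChange_tmul, D.θl x hx,
        Algebra.TensorProduct.tmul_mul_tmul, one_mul]
    | add a b ha hb => rw [mul_add, map_add, ha, hb, map_add, mul_add]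
  θr x hx v := by
    induction v using TensorProduct.induction_on with
    | zero => simp
    | tmul c b =>
      rw [gammaK_apply, iotaK_tmul, Algebra.TensorProduct.tmul_mul_tmul, mul_one,
        LinearMap.baseChange_tmul, LinearMap.baseChange_tmul, D.θr x hx,
        Algebra.TensorProduct.tmul_mul_tmul, mul_one]
    | add a b ha hb => rw [add_mul, map_add, ha, hb, map_add, add_mul]
  projl := by
    obtain ⟨η, hη⟩ := D.projl
    refine ⟨η.baseChange K, fun v => ?_⟩
    induction v using TensorProduct.induction_on with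
    | zero => simp
    | tmul c b =>
      have h1 : ∀ g : Γ, iotaK K D.ι (gammaK (k := k) K D.γ g) *
          (η.baseChange K) (iotaK K D.ι (gammaK (k := k) K D.γ g⁻¹) * c ⊗ₜ[k] b)
          = c ⊗ₜ[k] (D.ι (D.γ g) * η (D.ι (D.γ g⁻¹) * b)) := by
        intro g
        rw [gammaK_apply, gammaK_apply, iotaK_tmul, iotaK_tmul,
          Algebra.TensorProduct.tmul_mul_tmul, one_mul, LinearMap.baseChange_tmul,
          Algebra.TensorProduct.tmul_mul_tmul, one_mul]
      rw [Finset.sum_congr rfl fun x _ => h1 x, ← TensorProduct.tmul_sum, hη]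
    | add x y hx hy =>
      conv_rhs => rw [← hx, ← hy]
      rw [← Finset.sum_add_distrib]
      refine Finset.sum_congr rfl fun z _ => ?_
      rw [mul_add, map_add, mul_add]
  projr := by
    obtain ⟨η, hη⟩ := D.projr
    refine ⟨η.baseChange K, fun v => ?_⟩
    induction v using TensorProduct.induction_on with
    | zero => simp
    | tmul c b =>
      have h1 : ∀ g : Γ, (η.baseChange K) (c ⊗ₜ[k] b * iotaK K D.ι (gammaK (k := k) K D.γ g)) *
          iotaK K D.ι (gammaK (k := k) K D.γ g⁻¹)
          = c ⊗ₜ[k] (η (b * D.ι (D.γ g)) * D.ι (D.γ g⁻¹)) := by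
        intro g
        rw [gammaK_apply, gammaK_apply, iotaK_tmul, iotaK_tmul,
          Algebra.TensorProduct.tmul_mul_tmul, mul_one, LinearMap.baseChange_tmul,
          Algebra.TensorProduct.tmul_mul_tmul, mul_one]
      rw [Finset.sum_congr rfl fun x _ => h1 x, ← TensorProduct.tmul_sum, hη]
    | add x y hx hy =>
      conv_rhs => rw [← hx, ← hy]
      rw [← Finset.sum_add_distrib]
      refine Finset.sum_congr rfl fun z _ => ?_
      rw [add_mul, map_add, add_mul]
  st := by
    have := congrArg (fun z => (1 : K) ⊗ₜ[k] z) D.st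
    simp only [TensorProduct.tmul_sum] at this
    simpa [Algebra.TensorProduct.one_def] using this
  sep := sepK K D.sep
  tc a b := by
    induction a using TensorProduct.induction_on with
    | zero => simp
    | tmul c a =>
      induction b using TensorProduct.induction_on with
      | zero => simp
      | tmul d b =>
        rw [Algebra.TensorProduct.tmul_mul_tmul, Algebra.TensorProduct.tmul_mul_tmul, formK_tmul,
          formK_tmul, D.tc, mul_comm]
      | add b b' hb hb' => rw [mul_add, map_add, hb, hb', add_mul, map_add]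
    | add x y hx hy => rw [add_mul, map_add, hx, hy, mul_add, map_add]
  nd := formK_nd K D.τ D.nd
  tρ b := by
    induction b using TensorProduct.induction_on with
    | zero => simp
    | tmul c b => simp [D.tρ]
    | add x y hx hy => rw [map_add, map_add, map_add, hx, hy, map_add]
  stab x hx y hy i := by
    obtain ⟨j, hj⟩ := D.stab x hx y hy i
    refine ⟨j, ?_⟩
    rw [Module.Basis.baseChange_apply, Module.Basis.baseChange_apply, gammaK_apply, gammaK_apply,
      iotaK_tmul, iotaK_tmul, Algebra.TensorProduct.tmul_mul_tmul,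
      Algebra.TensorProduct.tmul_mul_tmul, hj, one_mul, one_mul]
  tw i := by
    obtain ⟨l, hl⟩ := D.tw i
    refine ⟨l, fun x hx y hy h => hl x hx y hy ?_⟩
    rw [Module.Basis.baseChange_apply, gammaK_apply, gammaK_apply,
      iotaK_tmul, iotaK_tmul, Algebra.TensorProduct.tmul_mul_tmul,
      Algebra.TensorProduct.tmul_mul_tmul, one_mul] at h
    exact Algebra.TensorProduct.includeRight_injective (R := k) (A := K) (B := B)
      (algebraMap k K).injective h

end FLD

/-- the scaling automorphism over `K` from a Hasse–Schmidt derivation -/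
theorem exists_scaling {k A B : Type} [Field k] [Ring A] [Algebra k A] [Ring B] [Algebra k B]
    [FiniteDimensional k B] {ι : A →ₐ[k] B} {W : ℚ → Submodule k A} (S : HSD k ι W)
    (hW1 : (1 : A) ∈ W 0) :
    ∃ (l : KK k) (g : (KK k ⊗[k] B) ≃ₐ[KK k] (KK k ⊗[k] B)),
      l ≠ 0 ∧ (∀ n : ℕ, 0 < n → l ^ n ≠ 1) ∧
      ∀ (w : ℕ) (h : KK k ⊗[k] A), h ∈ WK (KK k) W w →
        g (iotaK (KK k) ι h) = l ^ w • iotaK (KK k) ι h := by
  have h0 : S.g 0 1 = 1 := by rw [S.zero]; rfl
  have h1 := hsd_one S hW1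
  let G := gK (jK k) S.g h0 h1 (hsd_mul S)
  have hG : Function.Bijective G :=
    gK_bijective (jK k) S.g (jK_injective k) S.zero h0 h1 (hsd_mul S)
  refine ⟨jK k (1 + PowerSeries.X), AlgEquiv.ofBijective G hG, ?_, ?_, ?_⟩
  · intro h
    have h2 := jK_injective k (h.trans (map_zero _).symm)
    have h3 := congrArg PowerSeries.constantCoeff h2
    simp at h3
  · intro n hn h
    rw [← map_pow] at h
    exact one_add_X_pow_ne_one k hn (jK_injective k (h.trans (map_one _).symm))
  · intro w h hh
    refine baseChange_induction (KK k) (p := fun h => (AlgEquiv.ofBijective G hG)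
      (iotaK (KK k) ι h) = jK k (1 + PowerSeries.X) ^ w • iotaK (KK k) ι h)
      (by rw [map_zero, map_zero, smul_zero]) (fun c m hm => ?_)
      (fun x y hx hy => by rw [map_add, map_add, hx, hy, smul_add]) hh
    rw [iotaK_tmul, AlgEquiv.coe_ofBijective]
    have e2 : G (c ⊗ₜ[k] ι m) = c • phi (jK k) S.g (ι m) :=
      gK_tmul (jK k) S.g h0 h1 (hsd_mul S) c (ι m)
    rw [e2, phi_eigen (jK k) S.g (fun n => S.ext w n m hm), mk_choose, map_pow,
      TensorProduct.smul_tmul', TensorProduct.smul_tmul', smul_eq_mul, smul_eq_mul, mul_comm]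

/-- **MODULE FLDR.** -/
theorem fldr : FLDR := by
  intro p _ k A B A1 Γ _ _ _ _ _ _ _ _ _ _ _ _ _ _ _ D1 D2 t _ e M c _ F X hS hZ
  obtain ⟨S⟩ := hS
  obtain ⟨l, g, hl0, hl, hg⟩ := exists_scaling S X.H.basic.gr.one
  refine ⟨⟨rkdataK (KK k) X.D, rgrK (KK k) X.H, gammaK (KK k) X.γ1, rgr1K (KK k) X.G1,
    spanK (KK k) X.span1⟩, l, g, hl0, hl, hg,
    fun z hz => centre_baseChange (KK k) hZ hz, lB_le k B (KK k)⟩

end Vale.P179.H445
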