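import Vale.Agent.P179.H445.RelEnd4
import Vale.Agent.P179.H445.RFld2

/-!
# MODULE ENDPR
-/

namespace Vale.P179.H445.End

open Vale.P179.Allb Vale.P179.Rel Vale.P179.Sgn P179H342
open scoped BigOperators

theorem AX_zloc {k D Λ : Type} [Field k] [CommGroup D] [Ring Λ] [Algebra k Λ] {τ : MulAut D}
    {e : ℕ} (A : AX k D Λ τ e) : ZLoc Λ :=
  fun z hz => A.loc z fun x => (hz (A.u x)).symm

/-- **MODULE ENDPR.** -/
theorem endpr : ENDPR := by
  classical
  intro p _ k _ _ _ D _ _ τ e _ D1 D2 T Λ _ _ A hgood Γ _ _ i g G F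
  have : Fintype D := Fintype.ofFinite D
  have : Fintype A.I := A.fin
  have hfin : FiniteDimensional k Λ := Module.Finite.of_basis A.b
  have hZ := AX_zloc A
  obtain ⟨ι, ρ, θ, hιi, hιg, ret, left, right, tρ, hig, θl, θr, θnl, θnr⟩ :=
    end_rel p k D τ e T.toTW0 D1 D2 T.s1 T.s2 T.dis T.sup T.ne T.free1 Λ A hgood Γ i g G
  let γ : Γ →* MonoidAlgebra k Γ := MonoidAlgebra.of k Γ
  let c : Γ →* Λ := (ι : MonoidAlgebra k Γ →* Λ).comp γ
  have hc : ∀ x, c (i x) = A.u x := hιi
  have hcc : ∀ x, c x = ι (γ x) := fun x => rfl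
  have hpl := proj_left p k D τ e T.toTW0 Λ A Γ i g G c hc
  have hpr := proj_right p k D τ e T.toTW0 Λ A Γ i g G c hc
  -- the relative data over `D1.map i`
  have hrel : ∀ [Fintype (D1.map i)], H445.Rel (γ.comp (D1.map i).subtype) ι ρ θ := by
    intro _
    have : Fintype D1 := Fintype.ofFinite D1
    refine ⟨ret, left, right, fun v => ?_⟩
    rw [hig v, finsum_eq_sum_of_fintype]
    let E : D1 ≃ D1.map i := (D1.equivMapOfInjective i G.inj).toEquiv
    have hE : ∀ x : D1, ((E x : D1.map i) : Γ) = i x := fun x => rfl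
    have hu : ∀ x : D1, ι ((γ.comp (D1.map i).subtype) (E x)) = A.u x := fun x => hιi x
    have hu' : ∀ x : D1, ι ((γ.comp (D1.map i).subtype) (E x)⁻¹) = A.u (x : D)⁻¹ := by
      intro x
      have h1 : (γ.comp (D1.map i).subtype) (E x)⁻¹ = γ (i (x : D)⁻¹) := by
        show γ (((E x)⁻¹ : D1.map i) : Γ) = _
        rw [Subgroup.coe_inv, hE, map_inv i]
      rw [h1]
      exact hιi _
    symm
    refine Fintype.sum_equiv E _ _ fun x => ?_
    rw [finsum_eq_sum_of_fintype]
    refine Fintype.sum_equiv E _ _ fun y => ?_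
    rw [hu, hu, hu', hu']
  -- linearity of θ
  let Sl : Subgroup Γ :=
    { carrier := {x | ∀ v, θ (ι (γ x) * v) = ι (γ x) * θ v}
      one_mem' := fun v => by rw [map_one, map_one, one_mul, one_mul]
      mul_mem' := fun {x y} hx hy v => by
        show θ (ι (γ (x * y)) * v) = ι (γ (x * y)) * θ v
        rw [map_mul γ, map_mul ι, mul_assoc, hx, hy, mul_assoc]
      inv_mem' := fun {x} hx v => by
        show θ (ι (γ x⁻¹) * v) = ι (γ x⁻¹) * θ v
        have h1 := hx (ι (γ x⁻¹) * v)
        have h2 : ι (γ x) * ι (γ x⁻¹) = 1 := by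
          rw [← map_mul, ← map_mul, mul_inv_cancel, map_one, map_one]
        have h3 : ι (γ x⁻¹) * ι (γ x) = 1 := by
          rw [← map_mul, ← map_mul, inv_mul_cancel, map_one, map_one]
        rw [← mul_assoc, h2, one_mul] at h1
        rw [h1, ← mul_assoc, h3, one_mul] }
  let Sr : Subgroup Γ :=
    { carrier := {x | ∀ v, θ (v * ι (γ x)) = θ v * ι (γ x)}
      one_mem' := fun v => by rw [map_one, map_one, mul_one, mul_one]
      mul_mem' := fun {x y} hx hy v => by
        show θ (v * ι (γ (x * y))) = θ v * ι (γ (x * y))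
        rw [map_mul γ, map_mul ι, ← mul_assoc, hy, hx, mul_assoc]
      inv_mem' := fun {x} hx v => by
        show θ (v * ι (γ x⁻¹)) = θ v * ι (γ x⁻¹)
        have h1 := hx (v * ι (γ x⁻¹))
        have h2 : ι (γ x) * ι (γ x⁻¹) = 1 := by
          rw [← map_mul, ← map_mul, mul_inv_cancel, map_one, map_one]
        have h3 : ι (γ x⁻¹) * ι (γ x) = 1 := by
          rw [← map_mul, ← map_mul, inv_mul_cancel, map_one, map_one]
        rw [mul_assoc, h3, mul_one] at h1
        rw [h1, mul_assoc, h2, mul_one] }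
  have hSl : D2.map i ⊔ Subgroup.zpowers g ≤ Sl := by
    refine sup_le ?_ ?_
    · rintro _ ⟨x, hx, rfl⟩ v
      have h1 : ι (γ (i x)) = A.u x := hιi x
      rw [h1]
      exact θl x hx v
    · rw [Subgroup.zpowers_le]
      intro v
      have h1 : ι (γ g) = A.n := hιg
      rw [h1]
      exact θnl v
  have hSr : D2.map i ⊔ Subgroup.zpowers g ≤ Sr := by
    refine sup_le ?_ ?_
    · rintro _ ⟨x, hx, rfl⟩ v
      have h1 : ι (γ (i x)) = A.u x := hιi x
      rw [h1]
      exact θr x hx v
    · rw [Subgroup.zpowers_le]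
      intro v
      have h1 : ι (γ g) = A.n := hιg
      rw [h1]
      exact θnr v
  have hmem : ∀ x ∈ D1.map i ⊔ D2.map i, ∃ x' : D, i x' = x := by
    intro x hx
    rw [← Subgroup.map_sup] at hx
    obtain ⟨x', -, h⟩ := Subgroup.mem_map.1 hx
    exact ⟨x', h⟩
  have hD1 : Fintype (D1.map i) := Fintype.ofFinite _
  obtain ⟨m, s, r, hst, hsep⟩ := sepr p k Γ Λ (D1.map i) (D2.map i) g e F ι ρ θ A.t hrel
    (fun x hx => hSl hx) (fun x hx => hSr hx) hpr A.tc A.nd tρ hZ
  have hne : Nontrivial (D1.map i) := (Subgroup.nontrivial_iff_ne_bot _).2 F.ne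
  exact ⟨{
    γ := γ
    aug := MonoidAlgebra.lift k k Γ 1
    ι := ι
    ρ := ρ
    θ := θ
    m := m
    s := s
    r := r
    τ := A.t
    I := A.I
    fin := A.fin
    b := A.b
    span := by
      rw [eq_top_iff]
      intro a _
      induction a using MonoidAlgebra.induction_on with
      | of g => exact Submodule.subset_span ⟨g, rfl⟩
      | add x y hx hy => exact Submodule.add_mem _ (hx trivial) (hy trivial)
      | smul r x hx => exact Submodule.smul_mem _ _ (hx trivial)
    augγ := fun g => by simp [γ]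
    nz := by
      intro h
      have h1 := congrArg (fun a => a.coeff (1 : Γ)) h
      simp [γ, MonoidAlgebra.coeff_sum, MonoidAlgebra.of_apply, Finsupp.single_apply] at h1
    card0 := card_eq_zero_of_pgroup k F.p1 hne
    rel := hrel
    θl := fun x hx => hSl hx
    θr := fun x hx => hSr hx
    projl := hpl
    projr := hpr
    st := hst
    sep := hsep
    tc := A.tc
    nd := A.nd
    tρ := tρ
    stab := by
      intro x hx y hy j
      obtain ⟨x', rfl⟩ := hmem x hx
      obtain ⟨y', rfl⟩ := hmem y hy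
      have h1 : ι (γ (i x')) = A.u x' := hιi x'
      have h2 : ι (γ (i y')) = A.u y' := hιi y'
      rw [h1, h2]
      exact A.stab x' y' j
    tw := by
      intro j
      obtain ⟨l, hl⟩ := A.tw j
      refine ⟨l, fun x hx y hy h => ?_⟩
      obtain ⟨x', rfl⟩ := hmem x hx
      obtain ⟨y', rfl⟩ := hmem y hy
      have h1 : ι (γ (i x')) = A.u x' := hιi x'
      have h2 : ι (γ (i y')) = A.u y' := hιi y'
      rw [h1, h2] at h
      rw [hl x' y' h, gx_pow G, mul_inv_cancel_right] }, rfl, hZ⟩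

end Vale.P179.H445.End
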