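import Mathlib

/-!
# FLD, part F1: from a Hasse-Schmidt derivation to an automorphism after a field extension
-/

namespace Vale.P179.H445

open scoped TensorProduct BigOperators PowerSeries

section HS

variable {k B : Type*} [Field k] [Ring B] [Algebra k B] [FiniteDimensional k B]
  {K : Type*} [Field K] [Algebra k K] (j : k⟦X⟧ →ₐ[k] K) (g : ℕ → B →ₗ[k] B)

/-- the coordinate series of `∑ g_n(b) X^n` -/
noncomputable def crd (i : Fin (Module.finrank k B)) (b : B) : k⟦X⟧ :=
  PowerSeries.mk fun n => (Module.finBasis k B).repr (g n b) i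

theorem coeff_crd (i : Fin (Module.finrank k B)) (b : B) (n : ℕ) :
    PowerSeries.coeff n (crd g i b) = (Module.finBasis k B).repr (g n b) i := by
  simp [crd]

/-- the coordinate series as a linear map -/
noncomputable def crdL (i : Fin (Module.finrank k B)) : B →ₗ[k] k⟦X⟧ where
  toFun := crd g i
  map_add' a b := by
    ext n
    simp [coeff_crd]
  map_smul' c b := by
    ext n
    simp [coeff_crd]

/-- the map `b ↦ ∑ g_n(b) X^n` into `K ⊗ B` -/
noncomputable def phi : B →ₗ[k] K ⊗[k] B :=
  ∑ i, (TensorProduct.mk k K B).flip (Module.finBasis k B i) ∘ₗ j.toLinearMap ∘ₗ crdL g i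

theorem phi_apply (b : B) :
    phi j g b = ∑ i, j (crd g i b) ⊗ₜ[k] (Module.finBasis k B i) := by
  simp [phi, crdL]

/-- the coordinates of a product -/
theorem repr_mul (m : Fin (Module.finrank k B)) (x y : B) :
    (Module.finBasis k B).repr (x * y) m
      = ∑ i, ∑ i', ((Module.finBasis k B).repr
        (Module.finBasis k B i * Module.finBasis k B i') m) *
        ((Module.finBasis k B).repr x i * (Module.finBasis k B).repr y i') := by
  conv_lhs => rw [← (Module.finBasis k B).sum_repr x, ← (Module.finBasis k B).sum_repr y]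
  simp only [Finset.sum_mul, Finset.mul_sum, smul_mul_assoc, mul_smul_comm, map_sum, map_smul,
    Finsupp.coe_finsetSum, Finset.sum_apply, Finsupp.smul_apply, smul_eq_mul]
  rw [Finset.sum_comm]
  refine Finset.sum_congr rfl fun i _ => Finset.sum_congr rfl fun i' _ => ?_
  ring

theorem crd_mul (hmul : ∀ n a b, g n (a * b)
      = ∑ p ∈ Finset.HasAntidiagonal.antidiagonal n, g p.1 a * g p.2 b)
    (m : Fin (Module.finrank k B)) (a b : B) :
    crd g m (a * b) = ∑ i, ∑ i', ((Module.finBasis k B).repr
      (Module.finBasis k B i * Module.finBasis k B i') m) • (crd g i a * crd g i' b) := by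
  ext n
  rw [coeff_crd, hmul, map_sum, map_sum, Finsupp.coe_finsetSum, Finset.sum_apply]
  simp only [map_sum, map_smul, PowerSeries.coeff_mul, coeff_crd, smul_eq_mul, Finset.mul_sum]
  rw [Finset.sum_congr rfl fun p _ => repr_mul m (g p.1 a) (g p.2 b), Finset.sum_comm]
  refine Finset.sum_congr rfl fun i _ => ?_
  rw [Finset.sum_comm]

/-- `φ` is multiplicative -/
theorem phi_mul (hmul : ∀ n a b, g n (a * b)
      = ∑ p ∈ Finset.HasAntidiagonal.antidiagonal n, g p.1 a * g p.2 b) (a b : B) :
    phi j g (a * b) = phi j g a * phi j g b := by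
  rw [phi_apply, phi_apply, phi_apply, Finset.sum_mul_sum]
  simp only [Algebra.TensorProduct.tmul_mul_tmul]
  have h1 : ∀ i i', (j (crd g i a) * j (crd g i' b)) ⊗ₜ[k]
      (Module.finBasis k B i * Module.finBasis k B i')
      = ∑ m, (j (((Module.finBasis k B).repr
      (Module.finBasis k B i * Module.finBasis k B i') m) • (crd g i a * crd g i' b)))
        ⊗ₜ[k] (Module.finBasis k B m) := by
    intro i i'
    conv_lhs => rw [← (Module.finBasis k B).sum_repr (Module.finBasis k B i *
      Module.finBasis k B i'), TensorProduct.tmul_sum]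
    refine Finset.sum_congr rfl fun m _ => ?_
    rw [map_smul, map_mul j, TensorProduct.smul_tmul]
  simp only [h1]
  rw [Finset.sum_congr rfl fun i _ => Finset.sum_comm, Finset.sum_comm]
  refine Finset.sum_congr rfl fun m _ => ?_
  rw [crd_mul g hmul, map_sum, TensorProduct.sum_tmul]
  refine Finset.sum_congr rfl fun i _ => ?_
  rw [map_sum, TensorProduct.sum_tmul]

/-- if `g_n h = c_n h` with `∑ c_n X^n = l` then `φ h = l ⊗ h` -/
theorem phi_eigen {h : B} {c : ℕ → k} (hg : ∀ n, g n h = c n • h) :
    phi j g h = j (PowerSeries.mk c) ⊗ₜ[k] h := by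
  rw [phi_apply]
  have h1 : ∀ i, crd g i h = ((Module.finBasis k B).repr h i) • PowerSeries.mk c := by
    intro i
    ext n
    rw [coeff_crd, hg]
    simp [mul_comm]
  conv_rhs => rw [← (Module.finBasis k B).sum_repr h, TensorProduct.tmul_sum]
  refine Finset.sum_congr rfl fun i _ => ?_
  rw [h1, map_smul, TensorProduct.smul_tmul]

theorem phi_one (h0 : g 0 1 = 1) (h1 : ∀ n, 1 ≤ n → g n 1 = 0) : phi j g 1 = 1 := by
  have : ∀ n, g n (1 : B) = (if n = 0 then (1 : k) else 0) • (1 : B) := by
    intro n
    by_cases hn : n = 0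
    · subst hn; simp [h0]
    · simp [hn, h1 n (Nat.one_le_iff_ne_zero.2 hn)]
  rw [phi_eigen j g this]
  have h2 : (PowerSeries.mk fun n => if n = 0 then (1 : k) else 0) = 1 := by
    ext n; simp [PowerSeries.coeff_one]
  rw [h2, map_one]; rfl

/-- `φ` as an algebra map -/
noncomputable def phiAlg (h0 : g 0 1 = 1) (h1 : ∀ n, 1 ≤ n → g n 1 = 0)
    (hmul : ∀ n a b, g n (a * b)
      = ∑ p ∈ Finset.HasAntidiagonal.antidiagonal n, g p.1 a * g p.2 b) :
    B →ₐ[k] K ⊗[k] B :=
  AlgHom.ofLinearMap (phi j g) (phi_one j g h0 h1) (phi_mul j g hmul)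

/-- the extension of `φ` to `K ⊗ B` -/
noncomputable def gK (h0 : g 0 1 = 1) (h1 : ∀ n, 1 ≤ n → g n 1 = 0)
    (hmul : ∀ n a b, g n (a * b)
      = ∑ p ∈ Finset.HasAntidiagonal.antidiagonal n, g p.1 a * g p.2 b) :
    K ⊗[k] B →ₐ[K] K ⊗[k] B :=
  Algebra.TensorProduct.lift (Algebra.ofId K (K ⊗[k] B)) (phiAlg j g h0 h1 hmul)
    (fun x _ => Algebra.commutes x _)

theorem gK_tmul (h0 : g 0 1 = 1) (h1 : ∀ n, 1 ≤ n → g n 1 = 0)
    (hmul : ∀ n a b, g n (a * b)
      = ∑ p ∈ Finset.HasAntidiagonal.antidiagonal n, g p.1 a * g p.2 b) (c : K) (b : B) :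
    gK j g h0 h1 hmul (c ⊗ₜ b) = c • phi j g b := by
  simp [gK, phiAlg, Algebra.ofId_apply, Algebra.smul_def]

/-- the extension is bijective if `g 0 = id` -/
theorem gK_bijective (hj : Function.Injective j) (hg0 : g 0 = LinearMap.id)
    (h0 : g 0 1 = 1) (h1 : ∀ n, 1 ≤ n → g n 1 = 0)
    (hmul : ∀ n a b, g n (a * b)
      = ∑ p ∈ Finset.HasAntidiagonal.antidiagonal n, g p.1 a * g p.2 b) :
    Function.Bijective (gK j g h0 h1 hmul) := by
  classical
  let bas := Module.finBasis k B
  let basK : Module.Basis _ K (K ⊗[k] B) := bas.baseChange K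
  let M : Matrix (Fin (Module.finrank k B)) (Fin (Module.finrank k B)) k⟦X⟧ :=
    Matrix.of fun i i' => crd g i (bas i')
  have hM : LinearMap.toMatrix basK basK (gK j g h0 h1 hmul).toLinearMap
      = M.map j := by
    ext i i'
    rw [LinearMap.toMatrix_apply]
    simp only [basK, Module.Basis.baseChange_apply, AlgHom.toLinearMap_apply, gK_tmul, one_smul,
      phi_apply, map_sum, Finsupp.coe_finsetSum, Finset.sum_apply,
      Module.Basis.baseChange_repr_tmul, Matrix.map_apply, M, Matrix.of_apply, bas,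
      Module.Basis.repr_self]
    rw [Finset.sum_eq_single i]
    · simp
    · intro b _ hb
      simp [hb]
    · simp
  have hdet : M.det ≠ 0 := by
    intro h
    have h2 : PowerSeries.constantCoeff M.det = 1 := by
      rw [RingHom.map_det]
      have : (PowerSeries.constantCoeff (R := k)).mapMatrix M = 1 := by
        ext i i'
        rw [RingHom.mapMatrix_apply, Matrix.map_apply, ← PowerSeries.coeff_zero_eq_constantCoeff_apply]
        simp only [M, Matrix.of_apply, coeff_crd, hg0, LinearMap.id_apply, bas,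
          Module.Basis.repr_self]
        rw [Finsupp.single_apply, Matrix.one_apply]
        simp [eq_comm]
      rw [this, Matrix.det_one]
    rw [h, map_zero] at h2
    exact zero_ne_one h2
  have hunit : IsUnit (LinearMap.det (gK j g h0 h1 hmul).toLinearMap) := by
    rw [← LinearMap.det_toMatrix basK, hM, isUnit_iff_ne_zero]
    have : (M.map j).det = j M.det := by
      rw [AlgHom.map_det]; rfl
    rw [this]
    exact fun h => hdet (hj (by rw [h, map_zero]))
  have := (LinearMap.equivOfDetNeZero (gK j g h0 h1 hmul).toLinearMap hunit.ne_zero).bijective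
  exact this

end HS

end Vale.P179.H445
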