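import Vale.Agent.P179.Sgn.Defs

/-!
# FLD, part F2: base change of the relative data
-/

namespace Vale.P179.H445

open scoped TensorProduct BigOperators
open Module Vale.P179.H175 Vale.P179.Sgn

section Nd

variable {k : Type*} [Field k] {B : Type*} [Ring B] [Algebra k B]
  (K : Type*) [Field K] [Algebra k K]

/-- the base change of a linear form -/
noncomputable def formK (τ : B →ₗ[k] k) : K ⊗[k] B →ₗ[K] K :=
  (TensorProduct.AlgebraTensorModule.rid k K K).toLinearMap ∘ₗ τ.baseChange K

@[simp] theorem formK_tmul (τ : B →ₗ[k] k) (c : K) (b : B) :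
    formK K τ (c ⊗ₜ b) = τ b • c := by
  simp [formK]

/-- nondegeneracy is preserved -/
theorem formK_nd (τ : B →ₗ[k] k) (nd : ∀ a, (∀ b, τ (a * b) = 0) → a = 0) (a : K ⊗[k] B)
    (ha : ∀ b, formK K τ (a * b) = 0) : a = 0 := by
  classical
  let κ := Module.Basis.ofVectorSpace k K
  let E := TensorProduct.equivFinsuppOfBasisLeft (N := B) κ
  have h1 : ∀ (x : B) (w : K ⊗[k] B) i,
      κ.repr (formK K τ (w * ((1 : K) ⊗ₜ[k] x))) i = τ (E w i * x) := by
    intro x w i
    induction w using TensorProduct.induction_on with
    | zero => simp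
    | tmul a b =>
      rw [Algebra.TensorProduct.tmul_mul_tmul, mul_one]
      simp [E, mul_comm]
    | add w w' h h' => rw [add_mul, map_add, map_add, Finsupp.add_apply, h, h', map_add,
        Finsupp.add_apply, add_mul, map_add]
  apply E.injective
  rw [map_zero]
  ext i
  rw [Finsupp.coe_zero, Pi.zero_apply]
  refine nd _ fun x => ?_
  rw [← h1, ha, map_zero, Finsupp.coe_zero, Pi.zero_apply]

end Nd

section KD

variable {k A B Γ : Type} [Field k] [Ring A] [Algebra k A] [Ring B] [Algebra k B]
  [Group Γ] [Fintype Γ] (K : Type) [Field K] [Algebra k K]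

/-- the base change of the algebra map -/
noncomputable def iotaK (ι : A →ₐ[k] B) : K ⊗[k] A →ₐ[K] K ⊗[k] B :=
  Algebra.TensorProduct.map (AlgHom.id K K) ι

@[simp] theorem iotaK_tmul (ι : A →ₐ[k] B) (c : K) (a : A) :
    iotaK K ι (c ⊗ₜ a) = c ⊗ₜ ι a := by simp [iotaK]

/-- the group elements in `K ⊗ A` -/
noncomputable def gammaK (γ : Γ →* A) : Γ →* K ⊗[k] A :=
  (Algebra.TensorProduct.includeRight : A →ₐ[k] K ⊗[k] A).toMonoidHom.comp γ

omit [Fintype Γ] in
@[simp] theorem gammaK_apply (γ : Γ →* A) (x : Γ) : gammaK (k := k) K γ x = 1 ⊗ₜ γ x := rfl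

theorem relK {γ : Γ →* A} {ι : A →ₐ[k] B} {ρ : B →ₗ[k] A} {θ : B →ₗ[k] B}
    (h : Rel γ ι ρ θ) :
    Rel (gammaK (k := k) K γ) (iotaK K ι) (ρ.baseChange K) (θ.baseChange K) where
  ret x := by
    induction x using TensorProduct.induction_on with
    | zero => simp
    | tmul c a => simp [h.ret]
    | add x y hx hy => rw [map_add, map_add, hx, hy]
  left x b := by
    induction x using TensorProduct.induction_on with
    | zero => simp
    | tmul c a =>
      induction b using TensorProduct.induction_on with
      | zero => simp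
      | tmul d b => simp [h.left]
      | add b b' hb hb' => rw [mul_add, map_add, map_add, mul_add, hb, hb']
    | add x y hx hy => rw [map_add, add_mul, map_add, hx, hy, add_mul]
  right x b := by
    induction x using TensorProduct.induction_on with
    | zero => simp
    | tmul c a =>
      induction b using TensorProduct.induction_on with
      | zero => simp
      | tmul d b => simp [h.right]
      | add b b' hb hb' => rw [add_mul, map_add, map_add, add_mul, hb, hb']
    | add x y hx hy => rw [map_add, mul_add, map_add, hx, hy, mul_add]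
  hig b := by
    induction b using TensorProduct.induction_on with
    | zero => simp
    | tmul c b =>
      have h1 := congrArg (fun z => c ⊗ₜ[k] z) (h.hig b)
      simp only [TensorProduct.tmul_sum, TensorProduct.tmul_sub] at h1
      simpa using h1
    | add b b' hb hb' =>
      have e1 : ∀ x y : Γ, iotaK K ι (gammaK (k := k) K γ x) * (θ.baseChange K)
          (iotaK K ι (gammaK (k := k) K γ x⁻¹) * (b + b') * iotaK K ι (gammaK (k := k) K γ y)) *
          iotaK K ι (gammaK (k := k) K γ y⁻¹)
          = iotaK K ι (gammaK (k := k) K γ x) * (θ.baseChange K)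
          (iotaK K ι (gammaK (k := k) K γ x⁻¹) * b * iotaK K ι (gammaK (k := k) K γ y)) *
          iotaK K ι (gammaK (k := k) K γ y⁻¹) +
          iotaK K ι (gammaK (k := k) K γ x) * (θ.baseChange K)
          (iotaK K ι (gammaK (k := k) K γ x⁻¹) * b' * iotaK K ι (gammaK (k := k) K γ y)) *
          iotaK K ι (gammaK (k := k) K γ y⁻¹) := by
        intro x y
        rw [mul_add, add_mul, map_add, mul_add, add_mul]
      simp only [e1, Finset.sum_add_distrib]
      rw [hb, hb', map_add, map_add]
      abel

/-- the map `B ⊗ B → (K ⊗ B) ⊗ (K ⊗ B)` -/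
noncomputable def dbl (k B : Type) [Field k] [Ring B] [Algebra k B] (K : Type) [Field K]
    [Algebra k K] : B ⊗[k] B →ₗ[k] (K ⊗[k] B) ⊗[K] (K ⊗[k] B) :=
  TensorProduct.lift (LinearMap.mk₂ k
    (fun x y => ((1 : K) ⊗ₜ[k] x) ⊗ₜ[K] ((1 : K) ⊗ₜ[k] y))
    (by intro x y z; rw [TensorProduct.tmul_add, TensorProduct.add_tmul])
    (by intro r x y
        rw [TensorProduct.tmul_smul]
        exact (TensorProduct.smul_tmul' r _ _).symm)
    (by intro x y z; rw [TensorProduct.tmul_add, TensorProduct.tmul_add])
    (by intro r x y
        rw [TensorProduct.tmul_smul, ← algebraMap_smul K r ((1 : K) ⊗ₜ[k] y),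
          TensorProduct.tmul_smul, algebraMap_smul]))

@[simp] theorem dbl_tmul (x y : B) :
    dbl k B K (x ⊗ₜ y) = ((1 : K) ⊗ₜ[k] x) ⊗ₜ[K] ((1 : K) ⊗ₜ[k] y) := by
  simp [dbl]

/-- **Base change of the relative data.** -/
noncomputable def kdataK (D : KData k A B Γ) : KData K (K ⊗[k] A) (K ⊗[k] B) Γ where
  γ := gammaK K D.γ
  aug := (Algebra.TensorProduct.rid k K K).toAlgHom.comp
    (Algebra.TensorProduct.map (AlgHom.id K K) D.aug)
  ι := iotaK K D.ι
  ρ := D.ρ.baseChange K
  θ := D.θ.baseChange K
  m := D.m
  s := fun i => 1 ⊗ₜ D.s i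
  t := fun i => 1 ⊗ₜ D.t i
  τ := formK K D.τ
  span := by
    rw [eq_top_iff]
    rintro x -
    induction x using TensorProduct.induction_on with
    | zero => exact Submodule.zero_mem _
    | tmul c a =>
      have ha : a ∈ Submodule.span k (Set.range D.γ) := by rw [D.span]; trivial
      induction ha using Submodule.span_induction with
      | mem a ha =>
        obtain ⟨x, rfl⟩ := ha
        have : c ⊗ₜ[k] D.γ x = c • gammaK K D.γ x := by
          rw [gammaK_apply, TensorProduct.smul_tmul', smul_eq_mul, mul_one]
        rw [this]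
        exact Submodule.smul_mem _ _ (Submodule.subset_span ⟨x, rfl⟩)
      | zero => rw [TensorProduct.tmul_zero]; exact Submodule.zero_mem _
      | add a b _ _ ha hb => rw [TensorProduct.tmul_add]; exact Submodule.add_mem _ ha hb
      | smul r a _ ha =>
        rw [← TensorProduct.smul_tmul, ← TensorProduct.smul_tmul']
        have : r • c ⊗ₜ[k] a = algebraMap k K r • c ⊗ₜ[k] a := (algebraMap_smul K r _).symm
        rw [this]
        exact Submodule.smul_mem _ _ ha
    | add x y hx hy => exact Submodule.add_mem _ hx hy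
  augγ g := by simp [D.augγ]
  nz := by
    have h1 : ∑ g, gammaK K D.γ g = (1 : K) ⊗ₜ[k] (∑ g, D.γ g) := by
      rw [TensorProduct.tmul_sum]; rfl
    rw [h1]
    intro h
    exact D.nz (Algebra.TensorProduct.includeRight_injective (R := k) (A := K) (B := A)
      (algebraMap k K).injective (by rw [map_zero]; exact h))
  card0 := by
    have := congrArg (algebraMap k K) D.card0
    simpa using this
  rel := relK K D.rel
  st := by
    have := congrArg (fun z => (1 : K) ⊗ₜ[k] z) D.st
    simp only [TensorProduct.tmul_sum] at this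
    simpa [Algebra.TensorProduct.one_def] using this
  sep b := by
    set S := Submodule.span K {z : (K ⊗[k] B) ⊗[K] (K ⊗[k] B) |
      ∃ (x y : K ⊗[k] B) (h : K ⊗[k] A),
        z = (x * iotaK K D.ι h) ⊗ₜ[K] y - x ⊗ₜ[K] (iotaK K D.ι h * y)} with hS
    have h1 : ∀ z ∈ Submodule.span k {z : B ⊗[k] B | ∃ (x y : B) (h : A),
        z = (x * D.ι h) ⊗ₜ[k] y - x ⊗ₜ[k] (D.ι h * y)}, dbl k B K z ∈ S := by
      intro z hz
      induction hz using Submodule.span_induction with
      | mem z hz =>
        obtain ⟨x, y, h, rfl⟩ := hz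
        refine Submodule.subset_span ⟨1 ⊗ₜ x, 1 ⊗ₜ y, 1 ⊗ₜ h, ?_⟩
        simp
      | zero => rw [map_zero]; exact Submodule.zero_mem _
      | add a b _ _ ha hb => rw [map_add]; exact Submodule.add_mem _ ha hb
      | smul r a _ ha =>
        rw [map_smul, ← algebraMap_smul K r]
        exact Submodule.smul_mem _ _ ha
    induction b using TensorProduct.induction_on with
    | zero => simp
    | tmul c b =>
      have h2 := Submodule.smul_mem S c (h1 _ (D.sep b))
      convert h2 using 1
      rw [map_sub, map_sum, map_sum, smul_sub, Finset.smul_sum, Finset.smul_sum]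
      congr 1
      · refine Finset.sum_congr rfl fun i _ => ?_
        rw [dbl_tmul, TensorProduct.smul_tmul', Algebra.TensorProduct.tmul_mul_tmul, mul_one,
          TensorProduct.smul_tmul', smul_eq_mul, mul_one]
      · refine Finset.sum_congr rfl fun i _ => ?_
        rw [dbl_tmul, ← TensorProduct.tmul_smul, Algebra.TensorProduct.tmul_mul_tmul, one_mul,
          TensorProduct.smul_tmul', smul_eq_mul, mul_one]
    | add x y hx hy =>
      have h2 := Submodule.add_mem _ hx hy
      convert h2 using 1
      simp only [add_mul, mul_add, TensorProduct.add_tmul, TensorProduct.tmul_add,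
        Finset.sum_add_distrib]
      abel
  tc a b := by
    induction a using TensorProduct.induction_on with
    | zero => simp
    | tmul c a =>
      induction b using TensorProduct.induction_on with
      | zero => simp
      | tmul d b =>
        rw [Algebra.TensorProduct.tmul_mul_tmul, Algebra.TensorProduct.tmul_mul_tmul, formK_tmul,
          formK_tmul, D.tc, mul_comm]
      | add b b' hb hb' => rw [mul_add, map_add, hb, hb', add_mul, map_add]
    | add x y hx hy => rw [add_mul, map_add, hx, hy, mul_add, map_add]
  nd := formK_nd K D.τ D.nd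
  tρ b := by
    induction b using TensorProduct.induction_on with
    | zero => simp
    | tmul c b => simp [D.tρ]
    | add x y hx hy => rw [map_add, map_add, map_add, hx, hy, map_add]

end KD

end Vale.P179.H445
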