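import Vale.Agent.P179.H445.Fld
import Vale.Agent.P179.H342.R5

/-!
# FLDREL, part 1: base change of `RGr` and `RGr1`
-/

namespace Vale.P179.H445

open scoped TensorProduct BigOperators
open Module Vale.P179.H175 Vale.P179.H904 Vale.P179.Sgn P179H342

section

variable {k : Type} [Field k] (K : Type) [Field K] [Algebra k K]

/-- the base change of a linear map over `k` -/
noncomputable def lK {A B : Type} [AddCommGroup A] [Module k A] [AddCommGroup B] [Module k B]
    (l : A →ₗ[k] B) : K ⊗[k] A →ₗ[K] K ⊗[k] B := l.baseChange K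

/-- **Base change of `RGr`.** -/
noncomputable def rgrK {A Γ : Type} [Ring A] [Algebra k A] [FiniteDimensional k A] [Group Γ]
    [Fintype Γ] {γ : Γ →* A} {D2 : Subgroup Γ} {t : Γ} {e M c : ℕ} [NeZero e]
    (H : RGr k A Γ γ D2 t e M c) :
    RGr K (K ⊗[k] A) Γ (gammaK (k := k) K γ) D2 t e M c where
  W := WK K H.W
  J := H.J.baseChange K
  ε := fun a => 1 ⊗ₜ H.ε a
  P := H.P
  hM := H.hM
  basic := basicK K H.basic
  sum := by
    rw [← TensorProduct.tmul_sum, H.sum]; rfl
  orth a b hab := by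
    rw [Algebra.TensorProduct.tmul_mul_tmul, H.orth a b hab, TensorProduct.tmul_zero]
  supp r hr := by
    unfold WK
    rw [H.supp r hr, Submodule.baseChange_bot]
  hP := H.hP
  dim a b := by
    rw [gd_cor2K K H.basic.gr (H.basic.deg a) (H.basic.deg b) (H.basic.idem a) (H.basic.idem b)]
    exact H.dim a b
  top := by
    have h1 : ∑ g, gammaK (k := k) K γ g = (1 : K) ⊗ₜ[k] (∑ g, γ g) := by
      rw [TensorProduct.tmul_sum]; rfl
    rw [h1]
    exact Submodule.tmul_mem_baseChange_of_mem 1 H.top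
  deg0 x hx := Submodule.tmul_mem_baseChange_of_mem 1 (H.deg0 x hx)
  degt := Submodule.tmul_mem_baseChange_of_mem 1 H.degt

/-- **Base change of `RGr1`.** -/
noncomputable def rgr1K {A A1 Γ Γ1 : Type} [Ring A] [Algebra k A] [FiniteDimensional k A]
    [Ring A1] [Algebra k A1] [FiniteDimensional k A1]
    [Group Γ] [Fintype Γ] [Group Γ1] [Fintype Γ1] {γ : Γ →* A} {γ1 : Γ1 →* A1} {i1 : Γ1 →* Γ}
    {D2 : Subgroup Γ} {t : Γ} {e M c : ℕ} [NeZero e] {R : RGr k A Γ γ D2 t e M c}
    (S : RGr1 k A A1 Γ Γ1 γ γ1 i1 D2 t e M c R) :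
    RGr1 K (K ⊗[k] A) (K ⊗[k] A1) Γ Γ1 (gammaK (k := k) K γ) (gammaK (k := k) K γ1) i1 D2 t e M c
      (rgrK K R) where
  H1 := hgrK K S.H1
  κ := iotaK K S.κ
  κγ x := by
    rw [gammaK_apply, iotaK_tmul, S.κγ]; rfl
  κW r h hh := by
    refine baseChange_induction K (p := fun h => iotaK K S.κ h ∈ (rgrK K R).W r)
      (by rw [map_zero]; exact Submodule.zero_mem _) (fun a m hm => ?_)
      (fun x y hx hy => by rw [map_add]; exact Submodule.add_mem _ hx hy) hh
    rw [iotaK_tmul]
    exact Submodule.tmul_mem_baseChange_of_mem a (S.κW r m hm)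
  κε a := by
    show iotaK K S.κ (1 ⊗ₜ S.H1.ε a) = 1 ⊗ₜ R.ε a
    rw [iotaK_tmul, S.κε]
  free := by
    obtain ⟨l, hl⟩ := S.free
    refine ⟨l.baseChange K, fun a => ?_⟩
    induction a using TensorProduct.induction_on with
    | zero => simp
    | tmul c a =>
      have h1 : ∀ x : Γ1, gammaK (k := k) K γ (i1 x) *
          (l.baseChange K) (gammaK (k := k) K γ (i1 x⁻¹) * c ⊗ₜ[k] a)
          = c ⊗ₜ[k] (γ (i1 x) * l (γ (i1 x⁻¹) * a)) := by
        intro x
        rw [gammaK_apply, gammaK_apply, Algebra.TensorProduct.tmul_mul_tmul, one_mul,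
          LinearMap.baseChange_tmul, Algebra.TensorProduct.tmul_mul_tmul, one_mul]
      rw [Finset.sum_congr rfl fun x _ => h1 x, ← TensorProduct.tmul_sum, hl]
    | add x y hx hy =>
      conv_rhs => rw [← hx, ← hy]
      rw [← Finset.sum_add_distrib]
      refine Finset.sum_congr rfl fun z _ => ?_
      rw [mul_add, map_add, mul_add]

end

end Vale.P179.H445
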