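import Vale.Agent.P179.H445.End4

/-!
# ENDREL, part 1: relative Higman form

* `higman_rel`: a matrix invariant under a finite commutative group `E`, whose nonzero entries have
  their stabiliser in `N`, is a relative trace from `N`;
* `avg`: averaging over a group of order prime to `p`;
* `nd_group'`: the form is nondegenerate on `kΓ` when `C_Γ(D) = D`.
-/

namespace Vale.P179.H445.End

open scoped BigOperators

section Higman

variable {k : Type*} [Field k] {E X : Type*} [CommGroup E] [Fintype E]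

/-- relative Higman criterion, matrix form -/
theorem higman_rel (act : E →* Equiv.Perm X) (N C : Subgroup E) [Fintype C]
    (hdis : N ⊓ C = ⊥) (hsup : N ⊔ C = ⊤) (M : X → X → k)
    (hinv : ∀ (e : E) (a b : X), M (act e a) (act e b) = M a b)
    (hst : ∀ e : E, e ∉ N → ∀ a b : X, act e a = a → act e b = b → M a b = 0) :
    ∃ T : X → X → k, (∀ n ∈ N, ∀ a b, T (act n a) (act n b) = T a b) ∧
      ∀ a b, M a b = ∑ c : C, T (act (c : E)⁻¹ a) (act (c : E)⁻¹ b) := by
  classical
  let _ : MulAction E X := MulAction.compHom X act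
  have hact : ∀ (e : E) (x : X), act e x = e • x := fun e x => rfl
  simp only [hact] at hinv hst ⊢
  let q : X × X → Quotient (MulAction.orbitRel E (X × X)) := fun z => Quotient.mk _ z
  let r : X × X → X × X := fun z => (q z).out
  have hr : ∀ z, ∃ e : E, z = e • r z := by
    intro z
    have h : (MulAction.orbitRel E (X × X)).r (r z) z := Quotient.exact (Quotient.out_eq (q z))
    obtain ⟨e, he⟩ := h
    exact ⟨e⁻¹, by rw [← he, inv_smul_smul]⟩
  have hrE : ∀ (e : E) z, r (e • z) = r z := by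
    intro e z
    have h : q (e • z) = q z := Quotient.sound ⟨e, rfl⟩
    show (q (e • z)).out = (q z).out
    rw [h]
  let S : X × X → Prop := fun z => ∃ n ∈ N, z = n • r z
  have hSN : ∀ n ∈ N, ∀ z, S (n • z) ↔ S z := by
    intro n hn z
    constructor
    · rintro ⟨m, hm, h⟩
      rw [hrE] at h
      refine ⟨n⁻¹ * m, N.mul_mem (N.inv_mem hn) hm, ?_⟩
      rw [mul_smul, ← h, inv_smul_smul]
    · rintro ⟨m, hm, h⟩
      refine ⟨n * m, N.mul_mem hn hm, ?_⟩
      rw [hrE, mul_smul, ← h]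
  refine ⟨fun a b => if S (a, b) then M a b else 0, fun n hn a b => ?_, fun a b => ?_⟩
  · have h1 : ((n • a, n • b) : X × X) = n • ((a, b) : X × X) := rfl
    simp only [h1, hSN n hn, hinv]
  · have h1 : ∀ c : C, (if S ((c : E)⁻¹ • a, (c : E)⁻¹ • b) then
        M ((c : E)⁻¹ • a) ((c : E)⁻¹ • b) else 0) =
        if S ((c : E)⁻¹ • ((a, b) : X × X)) then M a b else 0 := by
      intro c
      rw [hinv]; rfl
    simp only [h1]
    by_cases hM : M a b = 0
    · simp [hM]
    · obtain ⟨e₀, he₀⟩ := hr (a, b)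
      have hstab : ∀ e : E, e • ((a, b) : X × X) = (a, b) → e ∈ N := by
        intro e he
        by_contra hne
        exact hM (hst e hne a b (congrArg Prod.fst he) (congrArg Prod.snd he))
      have he₀' : e₀ ∈ N ⊔ C := by rw [hsup]; trivial
      obtain ⟨n₀, hn₀, c₀, hc₀, rfl⟩ := Subgroup.mem_sup.1 he₀'
      have huniq : ∀ c : C, S ((c : E)⁻¹ • ((a, b) : X × X)) ↔ c = ⟨c₀, hc₀⟩ := by
        intro c
        constructor
        · rintro ⟨n, hn, h⟩
          rw [hrE] at h
          -- c⁻¹ • z = n • r z, z = (n₀ c₀) • r z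
          have h3 : r (a, b) = (n₀ * c₀)⁻¹ • ((a, b) : X × X) := by
            conv_rhs => rw [he₀, inv_smul_smul]
          rw [h3, smul_smul] at h
          have h4 : (c * (n * (n₀ * c₀)⁻¹)) • ((a, b) : X × X) = (a, b) := by
            rw [mul_smul, ← h, smul_inv_smul]
          have h5 := hstab _ h4
          have h6 : (c : E) * c₀⁻¹ ∈ N := by
            have h7 : (c : E) * c₀⁻¹ = (c * (n * (n₀ * c₀)⁻¹)) * (n⁻¹ * n₀) := by
              rw [mul_inv]
              have : (c : E) * (n * (n₀⁻¹ * c₀⁻¹)) * (n⁻¹ * n₀)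
                = (c : E) * c₀⁻¹ * ((n * n⁻¹) * (n₀⁻¹ * n₀)) := by
                simp only [mul_comm, mul_left_comm, mul_assoc]
              rw [this, mul_inv_cancel, inv_mul_cancel, mul_one, mul_one]
            rw [h7]
            exact N.mul_mem h5 (N.mul_mem (N.inv_mem hn) hn₀)
          have h8 : (c : E) * c₀⁻¹ ∈ N ⊓ C := ⟨h6, C.mul_mem c.2 (C.inv_mem hc₀)⟩
          rw [hdis, Subgroup.mem_bot, mul_inv_eq_one] at h8
          exact Subtype.ext h8
        · rintro rfl
          refine ⟨n₀, hn₀, ?_⟩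
          rw [hrE]
          show (c₀ : E)⁻¹ • ((a, b) : X × X) = _
          conv_lhs => rw [he₀]
          rw [smul_smul, mul_comm n₀, inv_mul_cancel_left]
      simp only [huniq]
      simp

/-- averaging a relative trace form -/
theorem avg {L : Type*} [AddCommGroup L] [Module k L] {E' : Type*} [Group E']
    (r : E' →* Module.End k L) (C Q : Subgroup E') [Fintype C] [Fintype Q]
    (hQ : (Fintype.card Q : k) ≠ 0) (hCQ : ∀ q ∈ Q, ∀ c ∈ C, q * c * q⁻¹ ∈ C)
    (φ θ : L →ₗ[k] L) (hφ : ∀ q ∈ Q, ∀ v, φ (r q v) = r q (φ v))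
    (h : ∀ v, φ v = ∑ c : C, r c (θ (r (c : E')⁻¹ v))) :
    ∃ θ' : L →ₗ[k] L, (∀ v, φ v = ∑ c : C, r c (θ' (r (c : E')⁻¹ v))) ∧
      (∀ q ∈ Q, ∀ v, θ' (r q v) = r q (θ' v)) ∧
      ∀ N : Subgroup E', (∀ n ∈ N, ∀ v, θ (r n v) = r n (θ v)) →
        (∀ q ∈ Q, ∀ n ∈ N, q * n * q⁻¹ ∈ N) → ∀ n ∈ N, ∀ v, θ' (r n v) = r n (θ' v) := by
  classical
  let θ' : L →ₗ[k] L := (Fintype.card Q : k)⁻¹ • ∑ q : Q, (r q) ∘ₗ θ ∘ₗ (r (q : E')⁻¹)
  have hθ' : ∀ v, θ' v = (Fintype.card Q : k)⁻¹ • ∑ q : Q, r q (θ (r (q : E')⁻¹ v)) := by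
    intro v
    show ((Fintype.card Q : k)⁻¹ • ∑ q : Q, (r q) ∘ₗ θ ∘ₗ (r (q : E')⁻¹)) v = _
    rw [LinearMap.smul_apply, LinearMap.sum_apply]
    rfl
  have hrm : ∀ a b v, r a (r b v) = r (a * b) v := fun a b v => by rw [map_mul]; rfl
  refine ⟨θ', fun v => ?_, fun q hq v => ?_, fun N hN hQN n hn v => ?_⟩
  · have h1 : ∀ q : Q, φ v = ∑ c : C, r c (r q (θ (r (q : E')⁻¹ (r (c : E')⁻¹ v)))) := by
      intro q
      have h2 : φ v = r q (φ (r (q : E')⁻¹ v)) := by
        rw [hφ _ (Q.inv_mem q.2), hrm, mul_inv_cancel, map_one]; rfl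
      rw [h2, h, map_sum]
      let F : C ≃ C :=
        { toFun := fun c => ⟨q * c * (q : E')⁻¹, hCQ q q.2 c c.2⟩
          invFun := fun c => ⟨(q : E')⁻¹ * c * q, by
            have := hCQ _ (Q.inv_mem q.2) c c.2
            rwa [inv_inv] at this⟩
          left_inv := fun c => Subtype.ext (by
            show (q : E')⁻¹ * (q * c * (q : E')⁻¹) * q = c
            group)
          right_inv := fun c => Subtype.ext (by
            show (q : E') * ((q : E')⁻¹ * c * q) * (q : E')⁻¹ = c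
            group) }
      refine Fintype.sum_equiv F _ _ fun c => ?_
      show r q (r c (θ (r (c : E')⁻¹ (r (q : E')⁻¹ v)))) =
        r (q * c * (q : E')⁻¹) (r q (θ (r (q : E')⁻¹ (r (q * c * (q : E')⁻¹)⁻¹ v))))
      have e1 : r (c : E')⁻¹ (r (q : E')⁻¹ v)
          = r (q : E')⁻¹ (r ((q : E') * c * (q : E')⁻¹)⁻¹ v) := by
        rw [hrm, hrm]
        congr 2
        group
      have e2 : ∀ w, r (q : E') (r (c : E') w) = r ((q : E') * c * (q : E')⁻¹) (r (q : E') w) := by
        intro w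
        rw [hrm, hrm]
        congr 2
        group
      rw [e1, e2]
    have h3 : (Fintype.card Q : k) • φ v = ∑ q : Q, ∑ c : C,
        r c (r q (θ (r (q : E')⁻¹ (r (c : E')⁻¹ v)))) := by
      rw [← Finset.sum_congr rfl fun q _ => h1 q, Finset.sum_const, Finset.card_univ,
        Nat.cast_smul_eq_nsmul]
    rw [Finset.sum_comm] at h3
    have h4 : φ v = (Fintype.card Q : k)⁻¹ • ∑ c : C, ∑ q : Q,
        r c (r q (θ (r (q : E')⁻¹ (r (c : E')⁻¹ v)))) := by
      rw [← h3, inv_smul_smul₀ hQ]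
    rw [h4, Finset.smul_sum]
    refine Finset.sum_congr rfl fun c _ => ?_
    rw [hθ', map_smul, map_sum]
  · rw [hθ', hθ', map_smul, map_sum]
    congr 1
    refine Fintype.sum_equiv (Equiv.mulLeft (⟨q, hq⟩ : Q)⁻¹) _ _ fun x => ?_
    show r x (θ (r (x : E')⁻¹ (r q v))) =
      r q (r ((q : E')⁻¹ * x) (θ (r ((q : E')⁻¹ * x)⁻¹ v)))
    rw [hrm, hrm]
    congr 3
    · group
    · group
  · rw [hθ', hθ', map_smul, map_sum]
    congr 1
    refine Finset.sum_congr rfl fun q _ => ?_
    have h1 : (q : E')⁻¹ * n * q ∈ N := by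
      have := hQN _ (Q.inv_mem q.2) n hn
      rwa [inv_inv] at this
    have h2 : r (q : E')⁻¹ (r n v) = r ((q : E')⁻¹ * n * q) (r (q : E')⁻¹ v) := by
      rw [hrm, hrm]
      congr 2
      group
    rw [h2, hN _ h1, hrm, hrm]
    congr 2
    group

end Higman

section Nondeg

variable {k L D Γ : Type*} [Field k] [Ring L] [Algebra k L] [CommGroup D] [Group Γ]
  {u : D →* L} {p : ℕ} [Fact p.Prime] [CharP k p]

/-- **The form is nondegenerate on `kΓ`**, `C_Γ(D) = D`. -/
theorem nd_group' [Fintype Γ] [Fintype D] (hD : IsPGroup p D) (i : D →* Γ)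
    (c : Γ →* L) (hc : ∀ x, c (i x) = u x) (t : L →ₗ[k] k) (tc : ∀ x y, t (x * y) = t (y * x))
    (hnorm : ∀ (g : Γ) (x : D), ∃ y : D, g * i x * g⁻¹ = i y)
    (hfaith : ∀ g : Γ, (∀ y : D, i y * g = g * i y) → g ∈ i.range)
    (hi : Function.Injective i) (hN : t (∑ x : D, u x) ≠ 0)
    (ι : MonoidAlgebra k Γ →ₐ[k] L) (hι : ∀ g, ι (MonoidAlgebra.of k Γ g) = c g)
    (a : MonoidAlgebra k Γ) (ha : ∀ a', t (ι (a * a')) = 0) : a = 0 := by
  classical
  by_contra hne
  let R : Submodule k (MonoidAlgebra k Γ) :=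
    { carrier := {a | ∀ a', t (ι (a * a')) = 0}
      add_mem' := fun {v w} hv hw a' => by rw [add_mul, map_add, map_add, hv, hw, add_zero]
      zero_mem' := fun a' => by rw [zero_mul, map_zero, map_zero]
      smul_mem' := fun r v hv a' => by rw [smul_mul_assoc, map_smul, map_smul, hv, smul_zero] }
  have hRne : R ≠ ⊥ := (Submodule.ne_bot_iff R).2 ⟨a, ha, hne⟩
  let l : D →* Module.End k (MonoidAlgebra k Γ) :=
    { toFun := fun x => LinearMap.mulLeft k (MonoidAlgebra.of k Γ (i x))
      map_one' := by ext; simp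
      map_mul' := fun x y => by
        refine LinearMap.ext fun v => ?_
        show MonoidAlgebra.of k Γ (i (x * y)) * v =
          MonoidAlgebra.of k Γ (i x) * (MonoidAlgebra.of k Γ (i y) * v)
        rw [map_mul, map_mul, mul_assoc] }
  obtain ⟨w, hw, hw0, hwf⟩ := Vale.P179.H875.Perm.exists_fixed hD l R (fun x v hv a' => by
    show t (ι (MonoidAlgebra.of k Γ (i x) * v * a')) = 0
    rw [mul_assoc, map_mul, tc, ← map_mul, mul_assoc]
    exact hv _) hRne
  have hcoef : ∀ (x : D) (h : Γ), w.coeff (i x * h) = w.coeff h := by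
    intro x h
    have h1 : MonoidAlgebra.of k Γ (i x) * w = w := hwf x
    conv_lhs => rw [← h1]
    rw [MonoidAlgebra.of_apply,
      MonoidAlgebra.coeff_single_mul_eq_mul_coeff h (fun m' _ => by simp), one_mul]
  obtain ⟨g, hg⟩ : ∃ g, w.coeff g ≠ 0 := by
    by_contra hno
    push Not at hno
    exact hw0 (by ext g; rw [hno g]; rfl)
  have h0 := hw (MonoidAlgebra.of k Γ g⁻¹)
  -- expansion
  have hexp : ∀ v : MonoidAlgebra k Γ, t (ι v) = ∑ h : Γ, v.coeff h * t (c h) := by
    intro v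
    have h2 : v = ∑ h : Γ, v.coeff h • MonoidAlgebra.of k Γ h := by
      ext h
      rw [MonoidAlgebra.coeff_sum, Finsupp.finsetSum_apply, Finset.sum_eq_single h]
      · simp
      · intro g _ hg
        simp [MonoidAlgebra.of_apply, hg]
      · intro h'; exact absurd (Finset.mem_univ _) h'
    conv_lhs => rw [h2, map_sum, map_sum]
    exact Finset.sum_congr rfl fun h _ => by rw [map_smul, map_smul, hι, smul_eq_mul]
  have hcoef2 : ∀ h, (w * MonoidAlgebra.of k Γ g⁻¹).coeff h = w.coeff (h * g) := by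
    intro h
    rw [MonoidAlgebra.of_apply,
      MonoidAlgebra.coeff_mul_single_eq_coeff_mul (h * g) (fun m' _ => by
        rw [mul_inv_eq_iff_eq_mul]), mul_one]
  rw [hexp] at h0
  simp only [hcoef2] at h0
  let f : Γ → k := fun h => w.coeff (h * g) * t (c h)
  have hsplit : ∑ h, f h = (∑ h, if h ∈ i.range then f h else 0) +
      ∑ h, if h ∈ i.range then 0 else f h := by
    rw [← Finset.sum_add_distrib]
    refine Finset.sum_congr rfl fun h _ => ?_
    split_ifs <;> simp
  -- the part outside `D`, by conjugation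
  let lact : D →* Equiv.Perm Γ :=
    { toFun := fun x => (MulAut.conj (i x)).toEquiv
      map_one' := by ext; simp
      map_mul' := fun x y => by ext; simp [mul_assoc] }
  have hla : ∀ x h, lact x h = i x * h * (i x)⁻¹ := fun x h => rfl
  have hout : (∑ h, if h ∈ i.range then 0 else f h) = 0 := by
    rw [sum_fx lact ⊤ (hD.to_subgroup ⊤) (fun h => if h ∈ i.range then 0 else f h) ?_
      (Finset.univ.filter fun h => Fx lact ⊤ h) (fun h => by simp)]
    · refine Finset.sum_eq_zero fun h hh => ?_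
      rw [Finset.mem_filter] at hh
      rw [if_pos]
      refine hfaith h fun y => ?_
      have h2 := hh.2 y trivial
      rw [hla, mul_inv_eq_iff_eq_mul] at h2
      exact h2
    · intro x _ h
      rw [hla]
      have h2 : i x * h * (i x)⁻¹ ∈ i.range ↔ h ∈ i.range := by
        rw [i.range.mul_mem_cancel_right (i.range.inv_mem (MonoidHom.mem_range.2 ⟨x, rfl⟩)),
          i.range.mul_mem_cancel_left (MonoidHom.mem_range.2 ⟨x, rfl⟩)]
      simp only [h2]
      split_ifs with h3
      · rfl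
      · show w.coeff (i x * h * (i x)⁻¹ * g) * t (c (i x * h * (i x)⁻¹)) = w.coeff (h * g) * t (c h)
        obtain ⟨y, hy⟩ := hnorm h x⁻¹
        have e1 : i x * h * (i x)⁻¹ * g = i x * (i y * (h * g)) := by
          rw [← hy, map_inv]; group
        have e2 : t (c (i x * h * (i x)⁻¹)) = t (c h) := by
          rw [map_mul, tc, ← map_mul, ← mul_assoc, inv_mul_cancel, one_mul]
        rw [e1, e2, hcoef, hcoef]
  have hin : (∑ h, if h ∈ i.range then f h else 0) = w.coeff g * t (∑ x : D, u x) := by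
    rw [← Finset.sum_filter, map_sum, Finset.mul_sum]
    symm
    refine Finset.sum_nbij (fun x => i x) (fun x _ => ?_) (fun x _ y _ h => hi h) (fun h hh => ?_)
      (fun x _ => ?_)
    · rw [Finset.mem_filter]
      exact ⟨Finset.mem_univ _, MonoidHom.mem_range.2 ⟨x, rfl⟩⟩
    · rw [Finset.coe_filter] at hh
      obtain ⟨x, hx⟩ := MonoidHom.mem_range.1 hh.2
      exact ⟨x, by simp, hx⟩
    · show _ = w.coeff (i x * g) * t (c (i x))
      rw [hcoef, hc]
  have h0' : ∑ h, f h = 0 := h0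
  rw [hsplit, hout, hin, add_zero] at h0'
  rcases mul_eq_zero.1 h0' with h | h
  · exact hg h
  · exact hN h

end Nondeg

end Vale.P179.H445.End
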