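import Vale.Agent.P179.H445.RelEnd1
import Vale.Agent.P179.H445.End5
import Vale.Agent.P179.Allb.DefsR

/-!
# ENDREL, part 2

`D = D1 × D2`, both stable under `τ`, which acts freely on `D1 - 1`; all subgroups not contained in
`D2` are good.  Then the complement of `kΓ` in `Λ` is relatively `D2 × D2`-projective.
-/

namespace Vale.P179.H445.End

open Vale.P179.Allb
open scoped BigOperators

section Theta

variable {k L D Ω : Type*} [Field k] [Ring L] [Algebra k L] [CommGroup D]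
  {u : D →* L} {b : Module.Basis Ω k L} {act : D × D →* Equiv.Perm Ω} [Fintype Ω]

/-- relative Higman form over `D × D` -/
theorem exists_theta_rel [Fintype D] (D1 D2 : Subgroup D) [Fintype D1]
    (hdis : D2 ⊓ D1 = ⊥) (hsup : D2 ⊔ D1 = ⊤)
    (hact : ∀ (x y : D) (ω : Ω), b (act (x, y) ω) = u x * b ω * u y⁻¹)
    (φ : L →ₗ[k] L) (hl : ∀ x v, φ (u x * v) = u x * φ v) (hr : ∀ x v, φ (v * u x) = φ v * u x)
    (h0 : ∀ x y ω ω', (x ∉ D2 ∨ y ∉ D2) → u x * b ω = b ω * u y → u x * b ω' = b ω' * u y →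
      b.repr (φ (b ω)) ω' = 0) :
    ∃ θ : L →ₗ[k] L, (∀ x ∈ D2, ∀ y ∈ D2, ∀ v, θ (u x * v * u y) = u x * θ v * u y) ∧
      ∀ v, φ v = ∑ x : D1, ∑ y : D1, u x * θ (u (x : D)⁻¹ * v * u y) * u (y : D)⁻¹ := by
  classical
  have hfin : Fintype (D1.prod D1) := Fintype.ofFinite _
  have hd2 : (D2.prod D2) ⊓ (D1.prod D1) = ⊥ := by
    rw [eq_bot_iff]
    rintro ⟨x, y⟩ hz
    obtain ⟨h1, h2⟩ := Subgroup.mem_inf.1 hz
    rw [Subgroup.mem_prod] at h1 h2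
    have e1 : x ∈ D2 ⊓ D1 := ⟨h1.1, h2.1⟩
    have e2 : y ∈ D2 ⊓ D1 := ⟨h1.2, h2.2⟩
    rw [hdis, Subgroup.mem_bot] at e1 e2
    rw [Subgroup.mem_bot, e1, e2]
    rfl
  have hs2 : (D2.prod D2) ⊔ (D1.prod D1) = ⊤ := by
    rw [eq_top_iff]
    rintro ⟨x, y⟩ -
    have hx : x ∈ D2 ⊔ D1 := by rw [hsup]; trivial
    have hy : y ∈ D2 ⊔ D1 := by rw [hsup]; trivial
    obtain ⟨x2, hx2, x1, hx1, rfl⟩ := Subgroup.mem_sup.1 hx
    obtain ⟨y2, hy2, y1, hy1, rfl⟩ := Subgroup.mem_sup.1 hy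
    refine Subgroup.mem_sup.2 ⟨(x2, y2), Subgroup.mem_prod.2 ⟨hx2, hy2⟩, (x1, y1),
      Subgroup.mem_prod.2 ⟨hx1, hy1⟩, rfl⟩
  obtain ⟨T, hTN, hT⟩ := higman_rel act (D2.prod D2) (D1.prod D1) hd2 hs2
    (fun ω ω' => b.repr (φ (b ω)) ω')
    (by
      rintro ⟨x, y⟩ ω ω'
      show b.repr (φ (b (act (x, y) ω))) (act (x, y) ω') = _
      rw [hact, hr, hl, repr_act hact])
    (by
      rintro ⟨x, y⟩ hxy ω ω' h1 h2
      refine h0 x y ω ω' ?_ ((act_eq_iff hact x y ω).1 h1) ((act_eq_iff hact x y ω').1 h2)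
      by_contra hc
      push Not at hc
      exact hxy (Subgroup.mem_prod.2 hc))
  let θ : L →ₗ[k] L := b.constr k fun ω => ∑ ω', T ω ω' • b ω'
  have hθ : ∀ ω, θ (b ω) = ∑ ω', T ω ω' • b ω' := fun ω => b.constr_basis _ _ _
  refine ⟨θ, fun x hx y hy v => ?_, fun v => ?_⟩
  · let F : L →ₗ[k] L := θ ∘ₗ (LinearMap.mulRight k (u y)) ∘ₗ (LinearMap.mulLeft k (u x))
    let F' : L →ₗ[k] L := (LinearMap.mulRight k (u y)) ∘ₗ (LinearMap.mulLeft k (u x)) ∘ₗ θ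
    suffices h : F = F' from LinearMap.congr_fun h v
    refine b.ext fun ω => ?_
    show θ (u x * b ω * u y) = u x * θ (b ω) * u y
    have e1 : ∀ η, u x * b η * u y = b (act (x, y⁻¹) η) := fun η => by rw [hact, inv_inv]
    rw [e1, hθ, hθ, Finset.mul_sum, Finset.sum_mul,
      ← Equiv.sum_comp (act (x, y⁻¹)) fun ω' => T (act (x, y⁻¹) ω) ω' • b ω']
    refine Finset.sum_congr rfl fun ω' _ => ?_
    rw [hTN _ (Subgroup.mem_prod.2 ⟨hx, D2.inv_mem hy⟩), mul_smul_comm, smul_mul_assoc, e1]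
  · let Θ : L →ₗ[k] L := ∑ x : D1, ∑ y : D1, (LinearMap.mulRight k (u (y : D)⁻¹)) ∘ₗ
      (LinearMap.mulLeft k (u x)) ∘ₗ θ ∘ₗ (LinearMap.mulRight k (u y)) ∘ₗ
      (LinearMap.mulLeft k (u (x : D)⁻¹))
    have hΘ : ∀ v, Θ v = ∑ x : D1, ∑ y : D1,
        u x * θ (u (x : D)⁻¹ * v * u y) * u (y : D)⁻¹ := by
      intro v
      simp only [Θ, LinearMap.sum_apply]
      rfl
    rw [← hΘ]
    suffices h : φ = Θ by rw [← h]
    refine b.ext fun ω => ?_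
    rw [hΘ]
    have h1 : φ (b ω) = ∑ ω', b.repr (φ (b ω)) ω' • b ω' := (b.sum_repr _).symm
    rw [h1]
    have h2 : ∀ x y : D1, u x * θ (u (x : D)⁻¹ * b ω * u y) * u (y : D)⁻¹
        = ∑ ω', T (act ((x : D), (y : D))⁻¹ ω) (act ((x : D), (y : D))⁻¹ ω') • b ω' := by
      intro x y
      have e1 : u (x : D)⁻¹ * b ω * u y = b (act ((x : D), (y : D))⁻¹ ω) := by
        have : (((x : D), (y : D)) : D × D)⁻¹ = ((x : D)⁻¹, (y : D)⁻¹) := rfl
        rw [this, hact, inv_inv]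
      rw [e1, hθ, Finset.mul_sum, Finset.sum_mul,
        ← Equiv.sum_comp (act ((x : D), (y : D))) fun ω' =>
          T (act ((x : D), (y : D))⁻¹ ω) (act ((x : D), (y : D))⁻¹ ω') • b ω']
      refine Finset.sum_congr rfl fun ω' _ => ?_
      have e3 : (act ((x : D), (y : D))⁻¹) (act ((x : D), (y : D)) ω') = ω' := by
        rw [map_inv act]; exact Equiv.symm_apply_apply _ _
      rw [mul_smul_comm, smul_mul_assoc, hact, e3]
    let eqv : D1 × D1 ≃ D1.prod D1 :=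
      { toFun := fun z => ⟨(z.1, z.2), Subgroup.mem_prod.2 ⟨z.1.2, z.2.2⟩⟩
        invFun := fun z => (⟨z.1.1, (Subgroup.mem_prod.1 z.2).1⟩, ⟨z.1.2, (Subgroup.mem_prod.1 z.2).2⟩)
        left_inv := fun z => rfl
        right_inv := fun z => rfl }
    simp only [h2]
    rw [← Fintype.sum_prod_type' (f := fun x y : D1 => ∑ ω',
      T (act ((x : D), (y : D))⁻¹ ω) (act ((x : D), (y : D))⁻¹ ω') • b ω'), Finset.sum_comm]
    refine Finset.sum_congr rfl fun ω' _ => ?_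
    rw [hT ω ω', Finset.sum_smul]
    symm
    refine Fintype.sum_equiv eqv _ _ fun z => ?_
    show _ = T (act ((z.1 : D), (z.2 : D))⁻¹ ω) (act ((z.1 : D), (z.2 : D))⁻¹ ω') • b ω'
    rfl

end Theta

end Vale.P179.H445.End
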