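import Vale.Agent.P179.H445.RelEnd2

/-!
# ENDREL, part 3: the theorem
-/

namespace Vale.P179.H445.End

open Vale.P179.Allb
open scoped BigOperators

/-- The common part of END1 and ENDREL: the retraction onto `kΓ`, and its matrix at pairs of basis
elements fixed by `(x, τ^s x)` with `⟨x⟩` good. -/
theorem end_core (p : ℕ) [Fact p.Prime] (k : Type) [Field k] [CharP k p]
    (D : Type) [CommGroup D] [Finite D] (τ : MulAut D) (e : ℕ) [NeZero e] (T : TW0 p D τ e)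
    (hF : Fr τ e ⊤) (Λ : Type) [Ring Λ] [Algebra k Λ] (A : AX k D Λ τ e)
    (Γ : Type) [Group Γ] [Fintype Γ] (i : D →* Γ) (g : Γ) (G : GX D Γ τ e i g) :
    ∃ (b : Module.Basis A.I k Λ) (act : D × D →* Equiv.Perm A.I) (c : Γ →* Λ)
      (ι : MonoidAlgebra k Γ →ₐ[k] Λ) (ρ : Λ →ₗ[k] MonoidAlgebra k Γ),
      (∀ (x y : D) (ω : A.I), b (act (x, y) ω) = A.u x * b ω * A.u y⁻¹) ∧
      (∀ x y ω, A.u x * b ω = b ω * A.u y ↔ A.u x * A.b ω = A.b ω * A.u y) ∧
      (∀ x, c (i x) = A.u x) ∧ c g = A.n ∧ (∀ γ, ι (MonoidAlgebra.of k Γ γ) = c γ) ∧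
      (∀ h, ρ (ι h) = h) ∧ (∀ h v, ρ (ι h * v) = h * ρ v) ∧ (∀ h v, ρ (v * ι h) = ρ v * h) ∧
      (∀ v, A.t (ι (ρ v)) = A.t v) ∧
      ∀ (x : D) (s : ℕ) (ω ω' : A.I), A.cnt (Subgroup.zpowers x) = Nat.card D →
        A.u x * b ω = b ω * A.u ((τ ^ s) x) → A.u x * b ω' = b ω' * A.u ((τ ^ s) x) →
        ∀ [Decidable (ω = ω')], b.repr (ι (ρ (b ω))) ω' = if ω = ω' then 1 else 0 := by
  classical
  have : Fintype D := Fintype.ofFinite D
  have : Fintype A.I := A.fin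
  -- the normalised basis
  have hfree0 : ∀ (ω : A.I) (x : D), A.u x * A.b ω = A.b ω → x = 1 := by
    intro ω x h
    obtain ⟨s, hs⟩ := A.tw ω
    have h1 := hs x 1 (by rw [h, map_one, mul_one])
    have h2 : (τ ^ s) x = (τ ^ s) 1 := by rw [← h1, map_one]
    exact (τ ^ s).injective h2
  have hcnt : Nat.card {ω // ∀ x, A.u x * A.b ω = A.b ω * A.u x} = Nat.card D := by
    have := A.rank
    rw [PX.cnt] at this
    rw [← this]
    refine Nat.card_congr (Equiv.subtypeEquivRight fun ω => ?_)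
    exact ⟨fun h x _ => h x, fun h x => h x trivial⟩
  obtain ⟨b, ω₀, hst, hiff, hb1, hfix⟩ := exists_normal A.b A.stab T.pgr hfree0 hcnt A.loc
  obtain ⟨act, hact⟩ := exists_act b hst
  have hfreeb : ∀ ω x, A.u x * b ω = b ω → x = 1 := by
    intro ω x h
    refine hfree0 ω x ?_
    have := (hiff x 1 ω).1 (by rw [h, map_one, mul_one])
    rwa [map_one, mul_one] at this
  -- the homomorphism
  obtain ⟨c, hc, hcg⟩ := exists_hom G A.u A.n A.npow A.nu
  let ι : MonoidAlgebra k Γ →ₐ[k] Λ := MonoidAlgebra.lift k Λ Γ c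
  have hι : ∀ γ, ι (MonoidAlgebra.of k Γ γ) = c γ := fun γ => MonoidAlgebra.lift_of _ _
  have hN := t_norm_ne_zero hact T.pgr ω₀ hb1 hfix hfreeb A.t A.tc A.nd
  have hnorm : ∀ (γ : Γ) (x : D), ∃ y : D, γ * i x * γ⁻¹ = i y := by
    intro γ x
    obtain ⟨s, hs⟩ := gx_norm G γ
    exact ⟨(τ ^ s) x, by rw [hs, mul_inv_cancel_right]⟩
  have hfaith : ∀ γ : Γ, (∀ y : D, i y * γ = γ * i y) → γ ∈ i.range := by
    intro γ hγ
    obtain ⟨z, s, rfl⟩ := G.gen γ
    have h1 : ∀ y : D, (τ ^ s) y = y := by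
      intro y
      have h2 : i z * g ^ s * i y = i ((τ ^ s) y) * (i z * g ^ s) := by
        rw [mul_assoc, gx_pow G, ← mul_assoc, ← mul_assoc, ← map_mul, ← map_mul, mul_comm z]
      rw [← hγ y] at h2
      exact (G.inj (mul_right_cancel h2)).symm
    obtain ⟨m, hm⟩ := hF s fun y _ => h1 y
    rw [hm, pow_mul, G.pow, one_pow, mul_one]
    exact MonoidHom.mem_range.2 ⟨z, rfl⟩
  have hndA := nd_group' T.pgr i c hc A.t A.tc hnorm hfaith G.inj hN ι hι
  have hfd : FiniteDimensional k (MonoidAlgebra k Γ) := by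
    have : Module.Finite k (Γ →₀ k) := inferInstance
    exact Module.Finite.equiv (MonoidAlgebra.coeffLinearEquiv k (M := Γ) (S := k)).symm
  obtain ⟨ρ, ret, left, right, tρ⟩ := exists_rho ι A.t A.tc hndA
  refine ⟨b, act, c, ι, ρ, hact, hiff, hc, hcg, hι, ret, left, right, tρ, ?_⟩
  -- the entries with a nontrivial stabiliser
  intro x s ω ω' hgood h1 h2 hdec
  let σ : D →* D := ((τ ^ s : MulAut D) : D →* D)
  let P : Subgroup D := Subgroup.zpowers x
  let aΓ : D →* Equiv.Perm Γ :=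
    { toFun := fun y =>
        { toFun := fun γ => i y * γ * i (σ y)⁻¹
          invFun := fun γ => i y⁻¹ * γ * i (σ y)
          left_inv := fun γ => by rw [map_inv, map_inv]; group
          right_inv := fun γ => by rw [map_inv, map_inv]; group }
      map_one' := by ext γ; simp
      map_mul' := fun y z => by
        ext γ
        show i (y * z) * γ * i (σ (y * z))⁻¹ = i y * (i z * γ * i (σ z)⁻¹) * i (σ y)⁻¹
        rw [map_mul, map_mul, mul_inv_rev, map_mul]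
        simp only [mul_assoc] }
  have haΓ : ∀ y γ, aΓ y γ = i y * γ * i (σ y)⁻¹ := fun y γ => rfl
  have hP : IsPGroup p P := T.pgr.to_subgroup P
  -- counting
  have hcardΓ : Nat.card D ≤ Nat.card {γ : Γ // Fx aΓ P γ} := by
    refine Nat.card_le_card_of_injective
      (fun d : D => (⟨i d * (g ^ s)⁻¹, ?_⟩ : {γ : Γ // Fx aΓ P γ})) ?_
    · refine (fx_zpowers aΓ x _).2 ?_
      rw [haΓ]
      have h3 := gx_pow G s x
      have h4 : (g ^ s)⁻¹ * i (σ x)⁻¹ = (i x)⁻¹ * (g ^ s)⁻¹ := by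
        rw [← mul_inv_rev, h3, mul_inv_rev, map_inv]
        rfl
      rw [mul_assoc, mul_assoc (i d), h4, ← map_inv, ← mul_assoc, ← mul_assoc, ← map_mul,
        ← map_mul]
      congr 2
      rw [mul_comm x d, mul_inv_cancel_right]
    · intro d d' h
      have h3 : i d * (g ^ s)⁻¹ = i d' * (g ^ s)⁻¹ := congrArg Subtype.val h
      exact G.inj (mul_right_cancel h3)
  have hcg' : c (g ^ s) * c (g ^ s)⁻¹ = 1 := by rw [← map_mul, mul_inv_cancel, map_one]
  have hcg'' : c (g ^ s)⁻¹ * c (g ^ s) = 1 := by rw [← map_mul, inv_mul_cancel, map_one]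
  have hcardΩ : Nat.card {ω : A.I // Fx (tact act σ) P ω} ≤ Nat.card D := by
    refine (card_twisted_le hact T.pgr σ (c (g ^ s)) (c (g ^ s)⁻¹) hcg' hcg''
      (fun y => ?_) P).trans (le_of_eq ?_)
    · rw [← hc, ← hc, ← map_mul, ← map_mul, gx_pow G]
      rfl
    · rw [← hgood, PX.cnt]
      refine Nat.card_congr (Equiv.subtypeEquivRight fun ω => ?_)
      rw [fx_tact hact]
      exact ⟨fun h y hy => (hiff y y ω).1 (h y hy), fun h y hy => (hiff y y ω).2 (h y hy)⟩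
  have hfx : ∀ η, A.u x * b η = b η * A.u ((τ ^ s) x) → Fx (tact act σ) P η := by
    intro η hη
    refine (fx_zpowers _ x η).2 ?_
    rw [tact_apply]
    exact (act_eq_iff hact x _ η).2 hη
  have hmain := other_fixed aΓ (tact act σ) P hP (fun γ ω => b.repr (c γ) ω)
    (fun ω γ => (ρ (b ω)).coeff γ) ?_ ?_ ?_ (hcardΩ.trans hcardΓ) ω ω' (hfx ω h1) (hfx ω' h2)
  · have hmain' : (if ω = ω' then (1 : k) else 0) = ∑ γ, (ρ (b ω)).coeff γ * b.repr (c γ) ω' := by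
      rw [hmain]
      congr
    rw [hmain']
    have h3 : ρ (b ω) = ∑ γ : Γ, (ρ (b ω)).coeff γ • MonoidAlgebra.of k Γ γ := by
      ext h
      rw [MonoidAlgebra.coeff_sum, Finsupp.finsetSum_apply, Finset.sum_eq_single h]
      · simp
      · intro g _ hg
        simp [MonoidAlgebra.of_apply, hg]
      · intro h'; exact absurd (Finset.mem_univ _) h'
    conv_lhs => rw [h3]
    rw [map_sum, map_sum, Finsupp.finsetSum_apply]
    refine Finset.sum_congr rfl fun γ _ => ?_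
    rw [map_smul, map_smul, hι, Finsupp.smul_apply, smul_eq_mul]
  · intro y _ γ η
    show b.repr (c (i y * γ * i (σ y)⁻¹)) (act (y, σ y) η) = _
    rw [map_mul c, map_mul c, hc, hc, repr_act hact]
  · intro y _ η γ
    show (ρ (b (act (y, σ y) η))).coeff (i y * γ * i (σ y)⁻¹) = (ρ (b η)).coeff γ
    rw [hact, ← hc, ← hc, ← hι, ← hι, right, left, MonoidAlgebra.of_apply,
      MonoidAlgebra.of_apply, Vale.P179.H875.coeff_bi]
    congr 1
    rw [map_inv]; group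
  · intro γ γ'
    have h3 := sum_repr_form (b := b)
      ((Finsupp.lapply γ' ∘ₗ (MonoidAlgebra.coeffLinearEquiv k (M := Γ) (S := k)).toLinearMap) ∘ₗ ρ)
      (c γ)
    have h4 : ((Finsupp.lapply γ' ∘ₗ
        (MonoidAlgebra.coeffLinearEquiv k (M := Γ) (S := k)).toLinearMap) ∘ₗ ρ) (c γ)
        = if γ = γ' then (1 : k) else 0 := by
      show (ρ (c γ)).coeff γ' = _
      rw [← hι, ret, MonoidAlgebra.of_apply, MonoidAlgebra.coeff_single, Finsupp.single_apply]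
    rw [h4] at h3
    exact h3

/-- **ENDREL**: `D = D1 × D2`, `τ` free on `D1 - 1`, all subgroups not contained in `D2` good. -/
theorem end_rel (p : ℕ) [Fact p.Prime] (k : Type) [Field k] [CharP k p]
    (D : Type) [CommGroup D] [Finite D] (τ : MulAut D) (e : ℕ) [NeZero e] (T : TW0 p D τ e)
    (D1 D2 : Subgroup D) (h1τ : ∀ x ∈ D1, τ x ∈ D1) (h2τ : ∀ x ∈ D2, τ x ∈ D2)
    (hdis : D1 ⊓ D2 = ⊥) (hsup : D1 ⊔ D2 = ⊤) (hne : D1 ≠ ⊥)
    (hfree : ∀ (i : ℕ), ∀ d ∈ D1, d ≠ 1 → (τ ^ i) d = d → e ∣ i)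
    (Λ : Type) [Ring Λ] [Algebra k Λ] (A : AX k D Λ τ e)
    (hgood : ∀ X : Subgroup D, ¬ X ≤ D2 → A.cnt X = Nat.card D)
    (Γ : Type) [Group Γ] [Fintype Γ] (i : D →* Γ) (g : Γ) (G : GX D Γ τ e i g) :
    ∃ (ι : MonoidAlgebra k Γ →ₐ[k] Λ) (ρ : Λ →ₗ[k] MonoidAlgebra k Γ) (θ : Λ →ₗ[k] Λ),
      (∀ x, ι (MonoidAlgebra.of k Γ (i x)) = A.u x) ∧ ι (MonoidAlgebra.of k Γ g) = A.n ∧
      (∀ h, ρ (ι h) = h) ∧ (∀ h v, ρ (ι h * v) = h * ρ v) ∧ (∀ h v, ρ (v * ι h) = ρ v * h) ∧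
      (∀ v, A.t (ι (ρ v)) = A.t v) ∧
      (∀ v, v - ι (ρ v) = ∑ᶠ x : D1, ∑ᶠ y : D1,
        A.u x * θ (A.u (x : D)⁻¹ * v * A.u y) * A.u (y : D)⁻¹) ∧
      (∀ x ∈ D2, ∀ v, θ (A.u x * v) = A.u x * θ v) ∧ (∀ x ∈ D2, ∀ v, θ (v * A.u x) = θ v * A.u x) ∧
      (∀ v, θ (A.n * v) = A.n * θ v) ∧ ∀ v, θ (v * A.n) = θ v * A.n := by
  classical
  have : Fintype D := Fintype.ofFinite D
  have : Fintype A.I := A.fin
  have : Fintype D1 := Fintype.ofFinite D1
  have hF : Fr τ e ⊤ := by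
    intro j hj
    obtain ⟨q, hq⟩ := (Subgroup.ne_bot_iff_exists_ne_one).1 hne
    exact hfree j q q.2 (fun h => hq (Subtype.ext h)) (hj q trivial)
  obtain ⟨b, act, c, ι, ρ, hact, hiff, hc, hcg, hι, ret, left, right, tρ, hentry⟩ :=
    end_core p k D τ e T hF Λ A Γ i g G
  let φ : Λ →ₗ[k] Λ := LinearMap.id - ι.toLinearMap ∘ₗ ρ
  have hφ : ∀ v, φ v = v - ι (ρ v) := fun v => rfl
  have hl : ∀ γ v, φ (c γ * v) = c γ * φ v := by
    intro γ v
    rw [hφ, hφ, ← hι, left, map_mul ι, mul_sub]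
  have hr : ∀ γ v, φ (v * c γ) = φ v * c γ := by
    intro γ v
    rw [hφ, hφ, ← hι, right, map_mul ι, sub_mul]
  -- powers of τ and the subgroups
  have hpow : ∀ (N : Subgroup D), (∀ x ∈ N, τ x ∈ N) → ∀ (s : ℕ), ∀ x ∈ N, (τ ^ s) x ∈ N := by
    intro N hN s
    induction s with
    | zero => intro x hx; simpa using hx
    | succ s ih =>
      intro x hx
      rw [pow_succ τ]
      exact ih _ (hN x hx)
  have hback : ∀ (s : ℕ) (x : D), (τ ^ s) x ∈ D2 → x ∈ D2 := by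
    intro s x hx
    have h1 : (τ ^ (s * (e - 1))) ((τ ^ s) x) = x := by
      have h2 : τ ^ (s * (e - 1)) * τ ^ s = 1 := by
        rw [← pow_add]
        have h3 : s * (e - 1) + s = e * s := by
          have := NeZero.one_le (n := e)
          rw [← Nat.mul_succ, Nat.succ_eq_add_one, Nat.sub_add_cancel this, mul_comm]
        rw [h3, pow_mul, T.pow, one_pow]
      calc (τ ^ (s * (e - 1))) ((τ ^ s) x) = (τ ^ (s * (e - 1)) * τ ^ s) x := rfl
        _ = x := by rw [h2]; rfl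
    rw [← h1]
    exact hpow D2 h2τ _ _ hx
  obtain ⟨θ, hθN, hθ⟩ := exists_theta_rel D1 D2 (by rw [inf_comm]; exact hdis)
    (by rw [sup_comm]; exact hsup) hact φ (fun x v => by rw [← hc, hl])
    (fun x v => by rw [← hc, hr])
    (by
      intro x y ω ω' hxy h1 h2
      obtain ⟨s, hs⟩ := A.tw ω
      have hy := hs x y ((hiff x y ω).1 h1)
      subst hy
      have hx : x ∉ D2 := by
        rcases hxy with h | h
        · exact h
        · exact fun h' => h (hpow D2 h2τ s x h')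
      have hgx : A.cnt (Subgroup.zpowers x) = Nat.card D :=
        hgood _ fun hle => hx (hle (Subgroup.mem_zpowers x))
      rw [hφ, map_sub, Finsupp.sub_apply, hentry x s ω ω' hgx h1 h2, b.repr_self,
        Finsupp.single_apply, sub_self])
  -- averaging over `⟨g⟩ × ⟨g⟩`
  let r : Γ × Γ →* Module.End k Λ :=
    { toFun := fun z => (LinearMap.mulRight k (c z.2⁻¹)) ∘ₗ (LinearMap.mulLeft k (c z.1))
      map_one' := by
        refine LinearMap.ext fun v => ?_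
        show c 1 * v * c (1 : Γ)⁻¹ = v
        rw [inv_one, map_one, one_mul, mul_one]
      map_mul' := fun z w => by
        refine LinearMap.ext fun v => ?_
        show c (z.1 * w.1) * v * c (z.2 * w.2)⁻¹ = c z.1 * (c w.1 * v * c w.2⁻¹) * c z.2⁻¹
        rw [mul_inv_rev, map_mul, map_mul]
        simp only [mul_assoc] }
  have hrr : ∀ x y v, r (x, y) v = c x * v * c y⁻¹ := fun x y v => rfl
  let C : Subgroup (Γ × Γ) := (D1.map i).prod (D1.map i)
  let N : Subgroup (Γ × Γ) := (D2.map i).prod (D2.map i)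
  let Q : Subgroup (Γ × Γ) := (Subgroup.zpowers g).prod (Subgroup.zpowers g)
  have : Fintype C := Fintype.ofFinite C
  have : Fintype Q := Fintype.ofFinite Q
  -- conjugation by powers of `g`
  have hconj : ∀ (M : Subgroup D), (∀ x ∈ M, τ x ∈ M) → ∀ q ∈ Subgroup.zpowers g,
      ∀ z ∈ M.map i, q * z * q⁻¹ ∈ M.map i := by
    intro M hM q hq z hz
    obtain ⟨x, hx, rfl⟩ := Subgroup.mem_map.1 hz
    obtain ⟨s, rfl⟩ : ∃ s : ℕ, g ^ s = q := by
      exact (isOfFinOrder_of_finite g).mem_powers_iff_mem_zpowers.2 hq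
    rw [gx_pow G, mul_inv_cancel_right]
    exact Subgroup.mem_map.2 ⟨_, hpow M hM s x hx, rfl⟩
  have hconj2 : ∀ (M : Subgroup D), (∀ x ∈ M, τ x ∈ M) → ∀ q ∈ Q, ∀ z ∈ (M.map i).prod (M.map i),
      q * z * q⁻¹ ∈ (M.map i).prod (M.map i) := by
    rintro M hM ⟨q1, q2⟩ hq ⟨z1, z2⟩ hz
    rw [Subgroup.mem_prod] at hq hz
    exact Subgroup.mem_prod.2 ⟨hconj M hM q1 hq.1 z1 hz.1, hconj M hM q2 hq.2 z2 hz.2⟩
  have hcardQ : (Fintype.card Q : k) ≠ 0 := by
    intro h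
    have h1 := (CharP.cast_eq_zero_iff k p _).1 h
    have h2 : Nat.card (Subgroup.zpowers g) ∣ e := by
      rw [Nat.card_zpowers]
      exact orderOf_dvd_of_pow_eq_one G.pow
    have h3 : Fintype.card Q = Nat.card (Subgroup.zpowers g) * Nat.card (Subgroup.zpowers g) := by
      rw [← Nat.card_eq_fintype_card, ← Nat.card_prod]
      exact Nat.card_congr
        { toFun := fun z => (⟨z.1.1, (Subgroup.mem_prod.1 z.2).1⟩,
            ⟨z.1.2, (Subgroup.mem_prod.1 z.2).2⟩)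
          invFun := fun z => ⟨(z.1, z.2), Subgroup.mem_prod.2 ⟨z.1.2, z.2.2⟩⟩
          left_inv := fun z => rfl
          right_inv := fun z => rfl }
    rw [h3] at h1
    have h4 : p ∣ e := by
      rcases (Fact.out : p.Prime).dvd_mul.1 h1 with h5 | h5
      · exact h5.trans h2
      · exact h5.trans h2
    have h5 := Nat.Coprime.eq_one_of_dvd T.cop.symm h4
    exact (Fact.out : p.Prime).one_lt.ne' h5
  let F : D1 × D1 ≃ C := Equiv.ofBijective
    (fun z => ⟨(i z.1, i z.2), Subgroup.mem_prod.2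
      ⟨Subgroup.mem_map.2 ⟨z.1, z.1.2, rfl⟩, Subgroup.mem_map.2 ⟨z.2, z.2.2, rfl⟩⟩⟩) (by
    constructor
    · rintro ⟨x, y⟩ ⟨x', y'⟩ h
      have h1 : (i x, i y) = (i x', i y') := congrArg Subtype.val h
      rw [Prod.mk.injEq] at h1
      exact Prod.ext (Subtype.ext (G.inj h1.1)) (Subtype.ext (G.inj h1.2))
    · rintro ⟨⟨a, a'⟩, h⟩
      obtain ⟨h1, h2⟩ := Subgroup.mem_prod.1 h
      obtain ⟨x, hx, hx'⟩ := Subgroup.mem_map.1 h1
      obtain ⟨y, hy, hy'⟩ := Subgroup.mem_map.1 h2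
      exact ⟨(⟨x, hx⟩, ⟨y, hy⟩), Subtype.ext (Prod.ext hx' hy')⟩)
  have hsum : ∀ (θ₀ : Λ →ₗ[k] Λ) (v : Λ), ∑ z : C, r z (θ₀ (r (z : Γ × Γ)⁻¹ v))
      = ∑ x : D1, ∑ y : D1, A.u x * θ₀ (A.u (x : D)⁻¹ * v * A.u y) * A.u (y : D)⁻¹ := by
    intro θ₀ v
    rw [← Fintype.sum_prod_type' (f := fun x y : D1 =>
      A.u x * θ₀ (A.u (x : D)⁻¹ * v * A.u y) * A.u (y : D)⁻¹)]
    symm
    refine Fintype.sum_equiv F _ _ fun z => ?_
    show _ = r (i z.1, i z.2) (θ₀ (r (i z.1, i z.2)⁻¹ v))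
    rw [hrr, Prod.inv_mk, hrr, inv_inv, ← map_inv i, ← map_inv i]
    simp only [hc]
  obtain ⟨θ', h1, h2, h3⟩ := avg r C Q hcardQ (fun q hq z hz => hconj2 D1 h1τ q hq z hz) φ θ
    (fun q _ v => by
      obtain ⟨q1, q2⟩ := q
      rw [hrr, hrr, hr, hl])
    (fun v => by rw [hθ v, hsum])
  have h3' := h3 N (by
    rintro ⟨n1, n2⟩ hn v
    rw [Subgroup.mem_prod] at hn
    obtain ⟨x, hx, hx'⟩ := Subgroup.mem_map.1 hn.1
    obtain ⟨y, hy, hy'⟩ := Subgroup.mem_map.1 hn.2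
    have hx'' : i x = n1 := hx'
    have hy'' : i y = n2 := hy'
    rw [← hx'', ← hy'', hrr, hrr, ← map_inv i, hc, hc]
    exact hθN x hx _ (D2.inv_mem hy) v) (fun q hq z hz => hconj2 D2 h2τ q hq z hz)
  refine ⟨ι, ρ, θ', fun x => by rw [hι, hc], by rw [hι, hcg], ret, left, right, tρ, fun v => ?_,
    fun x hx v => ?_, fun x hx v => ?_, fun v => ?_, fun v => ?_⟩
  · rw [← hφ, h1 v, hsum, finsum_eq_sum_of_fintype]
    exact Finset.sum_congr rfl fun x _ => (finsum_eq_sum_of_fintype _).symm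
  · have h4 := h3' (i x, 1) (Subgroup.mem_prod.2 ⟨Subgroup.mem_map.2 ⟨x, hx, rfl⟩, one_mem _⟩) v
    rwa [hrr, hrr, inv_one, map_one, mul_one, mul_one, hc] at h4
  · have h4 := h3' (1, i x⁻¹) (Subgroup.mem_prod.2
      ⟨one_mem _, Subgroup.mem_map.2 ⟨x⁻¹, D2.inv_mem hx, rfl⟩⟩) v
    rwa [hrr, hrr, map_one, one_mul, one_mul, ← map_inv i, inv_inv, hc] at h4
  · have h4 := h2 (g, 1) (Subgroup.mem_prod.2 ⟨Subgroup.mem_zpowers g, one_mem _⟩) v
    rwa [hrr, hrr, inv_one, map_one, mul_one, mul_one, hcg] at h4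
  · have h4 := h2 (1, g⁻¹) (Subgroup.mem_prod.2
      ⟨one_mem _, (Subgroup.zpowers g).inv_mem (Subgroup.mem_zpowers g)⟩) v
    rwa [hrr, hrr, map_one, one_mul, one_mul, inv_inv, hcg] at h4

end Vale.P179.H445.End
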