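import Vale.Agent.P179.H445.RelEnd3

/-!
# ENDREL, part 4: `Λ` is projective on both sides over `kΓ`
-/

namespace Vale.P179.H445.End

open Vale.P179.Allb
open scoped BigOperators

/-- a module with a basis freely permuted by a finite group is relatively projective -/
theorem exists_eta {k L Ω P : Type*} [Field k] [AddCommGroup L] [Module k L] [Fintype Ω]
    [Group P] [Fintype P] (b : Module.Basis Ω k L) (act : P →* Equiv.Perm Ω)
    (r : P →* Module.End k L) (hr : ∀ g ω, r g (b ω) = b (act g ω))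
    (free : ∀ g ω, act g ω = ω → g = 1) :
    ∃ η : L →ₗ[k] L, ∀ v, v = ∑ g : P, r g (η (r g⁻¹ v)) := by
  classical
  obtain ⟨T, hT⟩ := Vale.P179.H875.higman_matrix (k := k) act
    (fun ω ω' => if ω = ω' then 1 else 0)
    (fun e a b => by simp only [EmbeddingLike.apply_eq_iff_eq])
    (fun e he a b ha _ => absurd (free e a ha) he)
  let η : L →ₗ[k] L := b.constr k fun ω => ∑ ω', T ω ω' • b ω'
  have hη : ∀ ω, η (b ω) = ∑ ω', T ω ω' • b ω' := fun ω => b.constr_basis _ _ _
  refine ⟨η, fun v => ?_⟩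
  let Θ : L →ₗ[k] L := ∑ g : P, (r g) ∘ₗ η ∘ₗ (r g⁻¹)
  have hΘ : ∀ v, Θ v = ∑ g : P, r g (η (r g⁻¹ v)) := by
    intro v
    simp only [Θ, LinearMap.sum_apply]
    rfl
  rw [← hΘ]
  suffices h : LinearMap.id = Θ by rw [← h]; rfl
  refine b.ext fun ω => ?_
  rw [hΘ]
  have h2 : ∀ g : P, r g (η (r g⁻¹ (b ω))) = ∑ ω', T (act g⁻¹ ω) (act g⁻¹ ω') • b ω' := by
    intro g
    rw [hr, hη, map_sum, ← Equiv.sum_comp (act g) fun ω' => T (act g⁻¹ ω) (act g⁻¹ ω') • b ω']
    refine Finset.sum_congr rfl fun ω' _ => ?_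
    have e3 : (act g⁻¹) (act g ω') = ω' := by
      rw [map_inv act]; exact Equiv.symm_apply_apply _ _
    rw [map_smul, hr, e3]
  rw [Finset.sum_congr rfl fun z _ => h2 z, Finset.sum_comm]
  have h3 : ∀ ω', ∑ g : P, T (act g⁻¹ ω) (act g⁻¹ ω') • b ω'
      = (if ω = ω' then (1 : k) else 0) • b ω' := by
    intro ω'
    rw [hT ω ω', Finset.sum_smul]
  rw [Finset.sum_congr rfl fun ω' _ => h3 ω']
  simp

section Proj

variable (p : ℕ) [Fact p.Prime] (k : Type) [Field k] [CharP k p]
    (D : Type) [CommGroup D] [Finite D] (τ : MulAut D) (e : ℕ) [NeZero e] (T : TW0 p D τ e)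
    (Λ : Type) [Ring Λ] [Algebra k Λ] (A : AX k D Λ τ e)
    (Γ : Type) [Group Γ] [Fintype Γ] (i : D →* Γ) (g : Γ) (G : GX D Γ τ e i g)
    (c : Γ →* Λ) (hc : ∀ x, c (i x) = A.u x)

include p T G hc

/-- `Λ` is projective as a right `kΓ`-module -/
theorem proj_right : ∃ η : Λ →ₗ[k] Λ, ∀ v, ∑ γ : Γ, η (v * c γ) * c γ⁻¹ = v := by
  classical
  have : Fintype D := Fintype.ofFinite D
  have : Fintype A.I := A.fin
  obtain ⟨act, hact⟩ := exists_act A.b A.stab
  let act' : D →* Equiv.Perm A.I := act.comp (MonoidHom.inr D D)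
  have hact' : ∀ y ω, A.b (act' y ω) = A.b ω * A.u y⁻¹ := by
    intro y ω
    show A.b (act (1, y) ω) = _
    rw [hact, map_one, one_mul]
  let r : Γ →* Module.End k Λ :=
    { toFun := fun z => LinearMap.mulRight k (c z⁻¹)
      map_one' := by
        refine LinearMap.ext fun v => ?_
        show v * c (1 : Γ)⁻¹ = v
        rw [inv_one, map_one, mul_one]
      map_mul' := fun z w => by
        refine LinearMap.ext fun v => ?_
        show v * c (z * w)⁻¹ = v * c w⁻¹ * c z⁻¹
        rw [mul_inv_rev, map_mul, mul_assoc] }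
  have hr : ∀ z v, r z v = v * c z⁻¹ := fun z v => rfl
  obtain ⟨η, hη⟩ := exists_eta A.b act' (r.comp i) (fun y ω => by
      show A.b ω * c (i y)⁻¹ = _
      rw [hact', ← map_inv i, hc]) (fun y ω h => by
      have h1 : A.b ω * A.u y⁻¹ = A.b ω := by rw [← hact', h]
      obtain ⟨s, hs⟩ := A.tw ω
      have h2 := hs 1 y⁻¹ (by rw [map_one, one_mul, h1])
      rw [map_one, inv_eq_one] at h2
      exact h2)
  have hfin : Fintype i.range := Fintype.ofFinite _
  have hidx : (i.range.index : k) ≠ 0 := by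
    rw [gx_index G]
    intro h
    have h1 := (CharP.cast_eq_zero_iff k p e).1 h
    have h2 := Nat.Coprime.eq_one_of_dvd T.cop.symm h1
    exact (Fact.out : p.Prime).one_lt.ne' h2
  refine ⟨(i.range.index : k)⁻¹ • η, fun v => ?_⟩
  have h1 := Vale.P179.H875.trace_up i.range r LinearMap.id η (fun e v => rfl) (fun v => by
    show v = _
    conv_lhs => rw [hη v]
    refine Fintype.sum_equiv (MonoidHom.ofInjective G.inj).toEquiv _ _ fun y => ?_
    show r (i y) (η (r (i y⁻¹) v)) = r (i y) (η (r (i y)⁻¹ v))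
    rw [map_inv i]) hidx v
  have h2 : v = ∑ γ : Γ, r γ (((i.range.index : k)⁻¹ • η) (r γ⁻¹ v)) := h1
  conv_rhs => rw [h2]
  refine Finset.sum_congr rfl fun γ _ => ?_
  rw [hr, hr, inv_inv]

/-- `Λ` is projective as a left `kΓ`-module -/
theorem proj_left : ∃ η : Λ →ₗ[k] Λ, ∀ v, ∑ γ : Γ, c γ * η (c γ⁻¹ * v) = v := by
  classical
  have : Fintype D := Fintype.ofFinite D
  have : Fintype A.I := A.fin
  obtain ⟨act, hact⟩ := exists_act A.b A.stab
  let act' : D →* Equiv.Perm A.I := act.comp (MonoidHom.inl D D)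
  have hact' : ∀ y ω, A.b (act' y ω) = A.u y * A.b ω := by
    intro y ω
    show A.b (act (y, 1) ω) = _
    rw [hact, inv_one, map_one, mul_one]
  let r : Γ →* Module.End k Λ :=
    { toFun := fun z => LinearMap.mulLeft k (c z)
      map_one' := by
        refine LinearMap.ext fun v => ?_
        show c (1 : Γ) * v = v
        rw [map_one, one_mul]
      map_mul' := fun z w => by
        refine LinearMap.ext fun v => ?_
        show c (z * w) * v = c z * (c w * v)
        rw [map_mul, mul_assoc] }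
  have hr : ∀ z v, r z v = c z * v := fun z v => rfl
  obtain ⟨η, hη⟩ := exists_eta A.b act' (r.comp i) (fun y ω => by
      show c (i y) * A.b ω = _
      rw [hact', hc]) (fun y ω h => by
      have h1 : A.u y * A.b ω = A.b ω := by rw [← hact', h]
      obtain ⟨s, hs⟩ := A.tw ω
      have h2 := hs y 1 (by rw [map_one, mul_one, h1])
      have h3 : (τ ^ s) y = (τ ^ s) 1 := by rw [← h2, map_one]
      exact (τ ^ s).injective h3)
  have hfin : Fintype i.range := Fintype.ofFinite _
  have hidx : (i.range.index : k) ≠ 0 := by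
    rw [gx_index G]
    intro h
    have h1 := (CharP.cast_eq_zero_iff k p e).1 h
    have h2 := Nat.Coprime.eq_one_of_dvd T.cop.symm h1
    exact (Fact.out : p.Prime).one_lt.ne' h2
  refine ⟨(i.range.index : k)⁻¹ • η, fun v => ?_⟩
  have h1 := Vale.P179.H875.trace_up i.range r LinearMap.id η (fun e v => rfl) (fun v => by
    show v = _
    conv_lhs => rw [hη v]
    refine Fintype.sum_equiv (MonoidHom.ofInjective G.inj).toEquiv _ _ fun y => ?_
    show r (i y) (η (r (i y⁻¹) v)) = r (i y) (η (r (i y)⁻¹ v))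
    rw [map_inv i]) hidx v
  have h2 : v = ∑ γ : Γ, r γ (((i.range.index : k)⁻¹ • η) (r γ⁻¹ v)) := h1
  conv_rhs => rw [h2]
  refine Finset.sum_congr rfl fun γ _ => ?_
  rw [hr, hr]

end Proj

end Vale.P179.H445.End
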