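import Vale.Agent.P179.H445.Twist

/-!
# Automatic separability

For the relative data `Rel` with a symmetrising form `t = t ∘ ι ∘ ρ`, an augmentation and
`|Γ| = 0` in `K`, the relative Casimir element has a product which is not nilpotent.  If every
central element is a unit or nilpotent, we get a separability element.
-/

namespace Vale.P179.H445

open scoped TensorProduct BigOperators

section Sep

variable {K B H Γ : Type*} [Field K] [Ring B] [Algebra K B] [FiniteDimensional K B]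
  [Ring H] [Algebra K H] [Group Γ] [Fintype Γ]
  {u : Γ →* H} {ι : H →ₐ[K] B} {ρ : B →ₗ[K] H} {θ : B →ₗ[K] B} {t : B →ₗ[K] K}

/-- the map `v ↦ ∑ t(v h) h⁻¹` -/
noncomputable def casC (u : Γ →* H) (ι : H →ₐ[K] B) (t : B →ₗ[K] K) : H →ₗ[K] H :=
  ∑ h : Γ, (LinearMap.toSpanSingleton K H (u h⁻¹)) ∘ₗ t ∘ₗ ι.toLinearMap ∘ₗ
    LinearMap.mulRight K (u h)

omit [FiniteDimensional K B] in
theorem casC_apply (v : H) : casC u ι t v = ∑ h : Γ, t (ι (v * u h)) • u h⁻¹ := by
  simp [casC, LinearMap.sum_apply]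

omit [FiniteDimensional K B] in
theorem casC_right (v : H) (g : Γ) : casC u ι t (v * u g) = casC u ι t v * u g := by
  rw [casC_apply, casC_apply, Finset.sum_mul,
    ← Equiv.sum_comp (Equiv.mulLeft g) fun h => (t (ι (v * u h)) • u h⁻¹) * u g]
  refine Finset.sum_congr rfl fun h _ => ?_
  rw [Equiv.coe_mulLeft, smul_mul_assoc, ← map_mul u, mul_inv_rev, inv_mul_cancel_right,
    mul_assoc, ← map_mul u]

omit [FiniteDimensional K B] in
theorem casC_eq (hspan : Submodule.span K (Set.range u) = ⊤) (v : H) :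
    casC u ι t v = casC u ι t 1 * v := by
  have hv : v ∈ Submodule.span K (Set.range u) := by rw [hspan]; trivial
  induction hv using Submodule.span_induction with
  | mem v hv =>
    obtain ⟨g, rfl⟩ := hv
    rw [← casC_right, one_mul]
  | zero => simp
  | add v w _ _ hv hw => rw [map_add, hv, hw, mul_add]
  | smul r v _ hv => rw [map_smul, hv, mul_smul_comm]

omit [FiniteDimensional K B] in
theorem t_io (R : Rel u ι ρ θ) (tρ : ∀ b, t (ι (ρ b)) = t b) (h : H) (b : B) :
    t (ι h * ι (ρ b)) = t (ι h * b) := by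
  rw [← tρ (ι h * b), R.left, map_mul ι]

omit [FiniteDimensional K B] in
theorem t_io' (R : Rel u ι ρ θ) (tρ : ∀ b, t (ι (ρ b)) = t b) (h : H) (b : B) :
    t (ι (ρ b) * ι h) = t (b * ι h) := by
  rw [← tρ (b * ι h), R.right, map_mul ι]

/-- A relative dual basis. -/
theorem exists_relDual (R : Rel u ι ρ θ) (hspan : Submodule.span K (Set.range u) = ⊤)
    (nd : ∀ x, (∀ y, t (x * y) = 0) → x = 0) (tρ : ∀ b, t (ι (ρ b)) = t b) :
    ∃ (n : ℕ) (x y : Fin n → B), ∀ b : B, b = ι (ρ b) +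
      ∑ g : Γ, ∑ m, ι (u g) * x m * ι (ρ (y m * ι (u g⁻¹) * b)) := by
  let bas := Module.finBasis K B
  have hrep : ∀ m, ∃ y : B, ∀ b, bas.repr (θ b) m = t (y * b) := fun m =>
    exists_rep t nd ((Finsupp.lapply m ∘ₗ bas.repr.toLinearMap) ∘ₗ θ)
  choose y hy using hrep
  refine ⟨_, fun m => bas m * ι (casC u ι t 1), y, fun b => ?_⟩
  have h1 := R.hig b
  rw [eq_sub_iff_add_eq] at h1
  conv_lhs => rw [← h1, add_comm]
  congr 1
  refine Finset.sum_congr rfl fun g _ => ?_
  have h2 : ∀ h : Γ, θ (ι (u g⁻¹) * b * ι (u h))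
      = ∑ m, t (y m * (ι (u g⁻¹) * b * ι (u h))) • bas m := by
    intro h
    conv_lhs => rw [← bas.sum_repr (θ (ι (u g⁻¹) * b * ι (u h)))]
    exact Finset.sum_congr rfl fun m _ => by rw [hy]
  simp only [h2, Finset.mul_sum, Finset.sum_mul]
  rw [Finset.sum_comm]
  refine Finset.sum_congr rfl fun m _ => ?_
  have h3 : ι (casC u ι t 1) * ι (ρ (y m * ι (u g⁻¹) * b))
      = ∑ h : Γ, t (y m * (ι (u g⁻¹) * b * ι (u h))) • ι (u h⁻¹) := by
    rw [← map_mul, ← casC_eq hspan, casC_apply, map_sum]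
    refine Finset.sum_congr rfl fun h _ => ?_
    rw [map_smul, map_mul, t_io' R tρ]
    simp only [mul_assoc]
  rw [← mul_assoc (ι (u g)), mul_assoc (ι (u g) * bas m), h3, Finset.mul_sum]
  refine Finset.sum_congr rfl fun h _ => ?_
  rw [mul_smul_comm, smul_mul_assoc, mul_smul_comm]

/-- The relative Casimir element, with its product central. -/
theorem exists_casimir (R : Rel u ι ρ θ) (hspan : Submodule.span K (Set.range u) = ⊤)
    (tc : ∀ a b, t (a * b) = t (b * a))
    (nd : ∀ x, (∀ y, t (x * y) = 0) → x = 0) (tρ : ∀ b, t (ι (ρ b)) = t b) :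
    ∃ (n : ℕ) (s s' : Fin n → B) (w : H), (∀ b, b = ∑ l, s l * ι (ρ (s' l * b))) ∧
      (∀ b, b = ∑ l, ι (ρ (b * s l)) * s' l) ∧
      ρ (∑ l, s l * s' l) = 1 + ∑ g : Γ, u g * w * u g⁻¹ := by
  obtain ⟨n, x, y, h⟩ := exists_relDual R hspan nd tρ
  -- index set
  let I := Option (Γ × Fin n)
  let S : I → B := fun i => i.elim 1 fun q => ι (u q.1) * x q.2
  let S' : I → B := fun i => i.elim 1 fun q => y q.2 * ι (u q.1⁻¹)
  have hS : ∀ b, b = ∑ l : I, S l * ι (ρ (S' l * b)) := by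
    intro b
    rw [Fintype.sum_option, Fintype.sum_prod_type]
    simp only [S, S', Option.elim_none, Option.elim_some, one_mul]
    exact h b
  have hS' : ∀ b, b = ∑ l : I, ι (ρ (b * S l)) * S' l := by
    intro b
    rw [← sub_eq_zero]
    refine nd _ fun b' => ?_
    rw [sub_mul, map_sub, sub_eq_zero, tc b b']
    conv_lhs => rw [hS b', Finset.sum_mul, map_sum]
    rw [Finset.sum_mul, map_sum]
    refine Finset.sum_congr rfl fun l _ => ?_
    have e1 : t (S l * ι (ρ (S' l * b')) * b) = t (ι (ρ (S' l * b')) * (b * S l)) := by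
      rw [mul_assoc, tc, mul_assoc]
    have e2 : t (ι (ρ (b * S l)) * S' l * b') = t (ι (ρ (b * S l)) * (S' l * b')) := by
      rw [mul_assoc]
    rw [e1, e2, ← t_io R tρ (ρ (S' l * b')) (b * S l),
      ← t_io R tρ (ρ (b * S l)) (S' l * b'), tc]
  refine ⟨Fintype.card I, fun l => S ((Fintype.equivFin I).symm l),
    fun l => S' ((Fintype.equivFin I).symm l), ρ (∑ m, x m * y m), ?_, ?_, ?_⟩
  · intro b
    rw [Equiv.sum_comp (Fintype.equivFin I).symm fun l => S l * ι (ρ (S' l * b))]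
    exact hS b
  · intro b
    rw [Equiv.sum_comp (Fintype.equivFin I).symm fun l => ι (ρ (b * S l)) * S' l]
    exact hS' b
  · rw [Equiv.sum_comp (Fintype.equivFin I).symm fun l => S l * S' l, Fintype.sum_option,
      Fintype.sum_prod_type, map_add]
    simp only [S, S', Option.elim_none, Option.elim_some, one_mul]
    have h1 : ρ (1 : B) = 1 := by rw [← map_one ι, R.ret]
    rw [h1]
    congr 1
    rw [map_sum]
    refine Finset.sum_congr rfl fun g _ => ?_
    rw [← R.left, ← R.right, Finset.mul_sum, Finset.sum_mul]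
    simp only [mul_assoc]

/-- **Automatic separability.** -/
theorem exists_sep (R : Rel u ι ρ θ) (hspan : Submodule.span K (Set.range u) = ⊤)
    (aug : H →ₐ[K] K) (hcard : (Fintype.card Γ : K) = 0)
    (tc : ∀ a b, t (a * b) = t (b * a))
    (nd : ∀ x, (∀ y, t (x * y) = 0) → x = 0) (tρ : ∀ b, t (ι (ρ b)) = t b)
    (hloc : ∀ z : B, (∀ b, z * b = b * z) → IsUnit z ∨ IsNilpotent z) :
    ∃ (n : ℕ) (s s' : Fin n → B), ∑ i, s i * s' i = 1 ∧
      ∀ b : B, (∑ i, (b * s i) ⊗ₜ[K] s' i) - (∑ i, s i ⊗ₜ[K] (s' i * b)) ∈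
        Submodule.span K {z : B ⊗[K] B | ∃ (x y : B) (h : H),
          z = (x * ι h) ⊗ₜ[K] y - x ⊗ₜ[K] (ι h * y)} := by
  obtain ⟨n, s, s', w, h1, h2, h3⟩ := exists_casimir R hspan tc nd tρ
  set c : B := ∑ l, s l * s' l with hc
  have hcen : ∀ b, c * b = b * c := by
    intro b
    have e1 : b * c = ∑ l, ∑ m, s m * ι (ρ (s' m * (b * s l))) * s' l := by
      rw [hc, Finset.mul_sum]
      refine Finset.sum_congr rfl fun l _ => ?_
      rw [← mul_assoc]
      conv_lhs => rw [h1 (b * s l), Finset.sum_mul]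
    rw [e1, Finset.sum_comm, hc, Finset.sum_mul]
    refine Finset.sum_congr rfl fun m _ => ?_
    have e2 := h2 (s' m * b)
    rw [mul_assoc]
    conv_lhs => rw [e2, Finset.mul_sum]
    refine Finset.sum_congr rfl fun l _ => ?_
    rw [mul_assoc (s m), mul_assoc (s' m)]
  have hnil : ¬ IsNilpotent c := by
    intro hn
    have h4 := R.aug_eq_zero aug hcard hcen hn
    rw [h3, map_add, map_one, map_sum] at h4
    have h5 : ∀ g : Γ, aug (u g * w * u g⁻¹) = aug w := by
      intro g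
      have : aug (u g) * aug (u g⁻¹) = 1 := by
        rw [← map_mul, ← map_mul, mul_inv_cancel, map_one, map_one]
      rw [map_mul, map_mul, mul_right_comm, this, one_mul]
    rw [Finset.sum_congr rfl fun g _ => h5 g, Finset.sum_const, Finset.card_univ,
      nsmul_eq_mul, hcard, zero_mul, add_zero] at h4
    exact one_ne_zero h4
  obtain ⟨d, hd⟩ := (hloc c hcen).resolve_right hnil
  have hdc : ((d⁻¹ : Bˣ) : B) * c = 1 := by rw [← hd]; exact d.inv_mul
  have hdcen : ∀ b : B, ((d⁻¹ : Bˣ) : B) * b = b * ((d⁻¹ : Bˣ) : B) := by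
    intro b
    have : Commute (d : B) b := by
      show (d : B) * b = b * d
      rw [hd]; exact hcen b
    exact this.units_inv_left.eq
  refine ⟨n, fun i => ((d⁻¹ : Bˣ) : B) * s i, s', ?_, fun b => ?_⟩
  · rw [← hdc, hc, Finset.mul_sum]
    exact Finset.sum_congr rfl fun i _ => by rw [mul_assoc]
  · have e1 : ∑ l, (b * (((d⁻¹ : Bˣ) : B) * s l)) ⊗ₜ[K] s' l
        = ∑ l, ∑ m, ((((d⁻¹ : Bˣ) : B) * s m) * ι (ρ (s' m * (b * s l)))) ⊗ₜ[K] s' l := by
      refine Finset.sum_congr rfl fun l _ => ?_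
      rw [← mul_assoc b, ← hdcen b, mul_assoc _ b, ← TensorProduct.sum_tmul]
      congr 1
      conv_lhs => rw [h1 (b * s l), Finset.mul_sum]
      exact Finset.sum_congr rfl fun m _ => by rw [mul_assoc]
    have e2 : ∑ m, (((d⁻¹ : Bˣ) : B) * s m) ⊗ₜ[K] (s' m * b)
        = ∑ l, ∑ m, (((d⁻¹ : Bˣ) : B) * s m) ⊗ₜ[K] (ι (ρ (s' m * (b * s l))) * s' l) := by
      rw [Finset.sum_comm]
      refine Finset.sum_congr rfl fun m _ => ?_
      rw [← TensorProduct.tmul_sum]
      congr 1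
      conv_lhs => rw [h2 (s' m * b)]
      exact Finset.sum_congr rfl fun l _ => by rw [mul_assoc (s' m)]
    rw [e1, e2, ← Finset.sum_sub_distrib]
    refine Submodule.sum_mem _ fun l _ => ?_
    rw [← Finset.sum_sub_distrib]
    exact Submodule.sum_mem _ fun m _ => Submodule.subset_span ⟨_, _, _, rfl⟩

end Sep

end Vale.P179.H445
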