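import Vale.Agent.P179.H445.Twist

/-!
# Module S3 of the SIGNATURE project: the twist in the letters of `H175` and `H904`

`gd W (e B f) = T^N * bar (gd W (f B e))`, and the matrix form `ct C = T^(-N) C`.
-/

namespace Vale.P179.H445

open scoped BigOperators
open Vale.P179.H175 Vale.P179.H904

section gd

variable {K X : Type*} [Field K] [AddCommGroup X] [Module K X] [FiniteDimensional K X]

/-- only finitely many components are nonzero -/
theorem finite_ne_bot {V : ℚ → Submodule K X} (hV : DirectSum.IsInternal V) :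
    {r | V r ≠ ⊥}.Finite :=
  WellFoundedGT.finite_ne_bot_of_iSupIndep hV.submodule_iSupIndep

omit [FiniteDimensional K X] in
/-- the graded dimension as a finite sum -/
theorem gd_eq_sum (V : ℚ → Submodule K X) (U : Submodule K X) (S : Finset ℚ)
    (hS : ∀ r, r ∉ S → Module.finrank K ↥(U ⊓ V r) = 0) :
    gd V U = ∑ r ∈ S, AddMonoidAlgebra.single r (Module.finrank K ↥(U ⊓ V r) : ℤ) := by
  unfold gd
  refine finsum_eq_sum_of_support_subset _ fun r hr => ?_
  by_contra h
  have h0 := hS r h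
  exact hr (by simp only [h0]; simp)

omit [FiniteDimensional K X] in
theorem finrank_inf_eq_zero {V : ℚ → Submodule K X} (U : Submodule K X) {r : ℚ}
    (h : V r = ⊥) : Module.finrank K ↥(U ⊓ V r) = 0 := by
  rw [h, inf_bot_eq, finrank_bot]

end gd

section twist

variable {K B : Type*} [Field K] [Ring B] [Algebra K B] [FiniteDimensional K B]
  {W : ℚ → Submodule K B}
  {H Γ : Type*} [Ring H] [Algebra K H] [Group Γ] [Fintype Γ]
  {u : Γ →* H} {io : H →ₐ[K] B} {ρ : B →ₗ[K] H} {θ : B →ₗ[K] B} {t : B →ₗ[K] K}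

/-- A homogeneous nondegenerate trace form of degree `N` on a `ℚ`-graded algebra gives the
duality of corners. -/
theorem finrank_cor2 (hW : GrAlg W) (D : Rel u io ρ θ) (aug : H →ₐ[K] K)
    (hcard : (Fintype.card Γ : K) = 0)
    (tc : ∀ a b, t (a * b) = t (b * a)) (nd : ∀ x, (∀ y, t (x * y) = 0) → x = 0)
    (tρ : ∀ b, t (io (ρ b)) = t b)
    (hloc : ∀ z : B, (∀ b, z * b = b * z) → IsUnit z ∨ IsNilpotent z)
    {N : ℚ} {s : H} (hsN : io s ∈ W N) (hts : t (io s) ≠ 0)
    (hs : ∀ h : H, h * s = aug h • s)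
    {e f : B} (he : e ∈ W 0) (hf : f ∈ W 0) (hee : e * e = e) (hff : f * f = f) (r : ℚ) :
    Module.finrank K ↥(cor2 K e f ⊓ W r) = Module.finrank K ↥(cor2 K f e ⊓ W (N - r)) := by
  let _ : DirectSum.Decomposition W := hW.int.chooseDecomposition
  let _ : GradedAlgebra W :=
    { one_mem := hW.one
      mul_mem := fun _ _ _ _ hx hy => hW.mul hx hy }
  exact finrank_corner W (comp W t N) (comp_mul_comm W t tc N)
    (comp_nondeg W D aug hcard tc nd tρ hloc hsN hts hs)
    (fun _ hr _ hx => comp_of_mem_ne W t hx hr) he hf hee hff r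

/-- **Module S3**: `gd (e B f) = T^N * bar (gd (f B e))`. -/
theorem gd_cor2 (hW : GrAlg W) (D : Rel u io ρ θ) (aug : H →ₐ[K] K)
    (hcard : (Fintype.card Γ : K) = 0)
    (tc : ∀ a b, t (a * b) = t (b * a)) (nd : ∀ x, (∀ y, t (x * y) = 0) → x = 0)
    (tρ : ∀ b, t (io (ρ b)) = t b)
    (hloc : ∀ z : B, (∀ b, z * b = b * z) → IsUnit z ∨ IsNilpotent z)
    {N : ℚ} {s : H} (hsN : io s ∈ W N) (hts : t (io s) ≠ 0)
    (hs : ∀ h : H, h * s = aug h • s)
    {e f : B} (he : e ∈ W 0) (hf : f ∈ W 0) (hee : e * e = e) (hff : f * f = f) :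
    gd W (cor2 K e f) = tq N * barQ (gd W (cor2 K f e)) := by
  classical
  have hfr := finrank_cor2 hW D aug hcard tc nd tρ hloc hsN hts hs he hf hee hff
  have hfin := finite_ne_bot hW.int
  have h1 := gd_eq_sum W (cor2 K f e) hfin.toFinset (fun r hr => by
    refine finrank_inf_eq_zero _ ?_
    by_contra h
    exact hr (hfin.mem_toFinset.2 h))
  have h2 := gd_eq_sum W (cor2 K e f) (hfin.toFinset.image fun r => N - r) (fun r hr => by
    rw [hfr]
    refine finrank_inf_eq_zero _ ?_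
    by_contra h
    exact hr (Finset.mem_image.2 ⟨N - r, hfin.mem_toFinset.2 h, sub_sub_cancel _ _⟩))
  rw [h2, h1, Finset.sum_image (fun a _ b _ h => by simpa using h), map_sum, Finset.mul_sum]
  refine Finset.sum_congr rfl fun r _ => ?_
  rw [barQ_single, tq, AddMonoidAlgebra.single_mul_single, one_mul, hfr, sub_sub_cancel,
    sub_eq_add_neg]

/-- **Module S3**, matrix form: the graded Cartan matrix `C = (gd (e_i B e_j))` satisfies
`ct C = T^(-N) C`. -/
theorem ct_cartan (hW : GrAlg W) (D : Rel u io ρ θ) (aug : H →ₐ[K] K)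
    (hcard : (Fintype.card Γ : K) = 0)
    (tc : ∀ a b, t (a * b) = t (b * a)) (nd : ∀ x, (∀ y, t (x * y) = 0) → x = 0)
    (tρ : ∀ b, t (io (ρ b)) = t b)
    (hloc : ∀ z : B, (∀ b, z * b = b * z) → IsUnit z ∨ IsNilpotent z)
    {N : ℚ} {s : H} (hsN : io s ∈ W N) (hts : t (io s) ≠ 0)
    (hs : ∀ h : H, h * s = aug h • s)
    {I : Type*} (e : I → B) (he : ∀ i, e i ∈ W 0) (hee : ∀ i, e i * e i = e i) :
    ct (Matrix.of fun i j => gd W (cor2 K (e i) (e j)))
      = tq (-N) • Matrix.of fun i j => gd W (cor2 K (e i) (e j)) := by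
  ext1 i j
  have h := gd_cor2 hW D aug hcard tc nd tρ hloc hsN hts hs (he i) (he j) (hee i) (hee j)
  simp only [ct_apply, Matrix.of_apply, Matrix.smul_apply, smul_eq_mul]
  rw [h, ← mul_assoc, tq_mul, neg_add_cancel, tq_zero, one_mul]

end twist

end Vale.P179.H445
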